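import Mathlib

/-!
# P347: procedures with a fixed number of adaptive queries

A procedure turns a parameter and the answers seen so far into the next query point, and after its
last query into a value. Procedures compose, and every procedure gives a machine whose memory is a
counter, the answers seen so far and the current value.
-/

namespace P347

open MeasureTheory

noncomputable section

/-- An answer of the oracle. -/
abbrev Reply (d : ℕ) : Type := ℝ × EuclideanSpace ℝ (Fin d)

/-- The answers seen so far. -/
abbrev Hist (d : ℕ) : Type := ℕ → Reply d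

/-- A procedure. -/
structure Alg (d : ℕ) (β α : Type) where
  /-- The number of queries. -/
  size : ℕ
  /-- The next query point. -/
  ask : β → Hist d → ℕ → EuclideanSpace ℝ (Fin d)
  /-- The value at the end. -/
  res : β → Hist d → α

variable {d : ℕ} {α β γ : Type}

/-- The answers of an oracle to the first queries. -/
def Alg.hist (A : Alg d β α) (O : EuclideanSpace ℝ (Fin d) → Reply d) (b : β) : ℕ → Hist d
  | 0 => fun _ => 0
  | n + 1 => Function.update (A.hist O b n) n (O (A.ask b (A.hist O b n) n))

/-- The value obtained from an oracle. -/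
def Alg.eval (A : Alg d β α) (O : EuclideanSpace ℝ (Fin d) → Reply d) (b : β) : α :=
  A.res b (A.hist O b A.size)

theorem Alg.hist_ge (A : Alg d β α) (O : EuclideanSpace ℝ (Fin d) → Reply d) (b : β) :
    ∀ n i, n ≤ i → A.hist O b n i = 0
  | 0, _, _ => rfl
  | n + 1, i, h => by
    rw [Alg.hist, Function.update_of_ne (by omega), A.hist_ge O b n i (by omega)]

/-- Measurable maps in every part. -/
structure Alg.Meas [MeasurableSpace β] [MeasurableSpace α] (A : Alg d β α) : Prop where
  ask : ∀ n, Measurable fun z : β × Hist d => A.ask z.1 z.2 n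
  res : Measurable fun z : β × Hist d => A.res z.1 z.2

theorem measurable_update_at {ι X Y : Type} [DecidableEq ι] [MeasurableSpace X] [MeasurableSpace Y]
    {f : X → ι → Y} {g : X → Y} (n : ι) (hf : Measurable f) (hg : Measurable g) :
    Measurable fun x => Function.update (f x) n (g x) := by
  refine measurable_pi_lambda _ fun i => ?_
  by_cases h : i = n
  · subst h; simpa using hg
  · simp only [Function.update_of_ne h]
    exact (measurable_pi_apply i).comp hf

theorem Alg.Meas.hist [MeasurableSpace β] [MeasurableSpace α] {A : Alg d β α} (hA : A.Meas)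
    {X : Type} [MeasurableSpace X] {O : X → EuclideanSpace ℝ (Fin d) → Reply d}
    (hO : Measurable fun z : X × EuclideanSpace ℝ (Fin d) => O z.1 z.2) {b : X → β}
    (hb : Measurable b) : ∀ n, Measurable fun x => A.hist (O x) (b x) n
  | 0 => measurable_const
  | n + 1 => measurable_update_at n (hA.hist hO hb n)
      (hO.comp (measurable_id.prodMk ((hA.ask n).comp (hb.prodMk (hA.hist hO hb n)))))

theorem Alg.Meas.eval [MeasurableSpace β] [MeasurableSpace α] {A : Alg d β α} (hA : A.Meas)
    {X : Type} [MeasurableSpace X] {O : X → EuclideanSpace ℝ (Fin d) → Reply d}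
    (hO : Measurable fun z : X × EuclideanSpace ℝ (Fin d) => O z.1 z.2) {b : X → β}
    (hb : Measurable b) : Measurable fun x => A.eval (O x) (b x) :=
  hA.res.comp (hb.prodMk (hA.hist hO hb A.size))

/-- No query. -/
def Alg.pure (d : ℕ) (f : β → α) : Alg d β α := ⟨0, fun _ _ _ => 0, fun b _ => f b⟩

theorem Alg.pure_eval (f : β → α) (O : EuclideanSpace ℝ (Fin d) → Reply d) (b : β) :
    (Alg.pure d f).eval O b = f b := rfl

theorem Alg.pure_meas [MeasurableSpace β] [MeasurableSpace α] {f : β → α} (hf : Measurable f) :
    (Alg.pure d f).Meas :=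
  ⟨fun _ => measurable_const, hf.comp measurable_fst⟩

/-- Queries that do not depend on answers. -/
def Alg.many {N : ℕ} (f : β → Fin N → EuclideanSpace ℝ (Fin d)) :
    Alg d β (Fin N → Reply d) :=
  ⟨N, fun b _ n => if h : n < N then f b ⟨n, h⟩ else 0, fun _ h i => h i⟩

theorem Alg.many_eval {N : ℕ} (f : β → Fin N → EuclideanSpace ℝ (Fin d))
    (O : EuclideanSpace ℝ (Fin d) → Reply d) (b : β) :
    (Alg.many f).eval O b = fun i => O (f b i) := by
  have key : ∀ n, n ≤ N → ∀ i : Fin N, (i : ℕ) < n → (Alg.many f).hist O b n i = O (f b i) := by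
    intro n
    induction n with
    | zero => exact fun _ i h => absurd h (Nat.not_lt_zero _)
    | succ n ih =>
      intro hn i hi
      rw [Alg.hist]
      by_cases h : (i : ℕ) = n
      · subst h; simp [Alg.many]
      · rw [Function.update_of_ne h]; exact ih (by omega) i (by omega)
  funext i
  exact key N le_rfl i i.2

theorem Alg.many_meas [MeasurableSpace β] {N : ℕ} {f : β → Fin N → EuclideanSpace ℝ (Fin d)}
    (hf : Measurable f) : (Alg.many f).Meas := by
  refine ⟨fun n => ?_, ?_⟩
  swap
  · show Measurable fun z : β × Hist d => fun i : Fin N => z.2 i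
    exact measurable_pi_lambda _ fun i => (measurable_pi_apply _).comp measurable_snd
  simp only [Alg.many]
  split_ifs with h
  · exact (measurable_pi_apply _).comp (hf.comp measurable_fst)
  · exact measurable_const

/-- The answers before a time. -/
def trunc (k : ℕ) (h : Hist d) : Hist d := fun i => if i < k then h i else 0

/-- One procedure after another; the second sees the parameter and the value of the first. -/
def Alg.seq {α' : Type} (A : Alg d β α) (B : Alg d (β × α) α') : Alg d β α' where
  size := A.size + B.size
  ask b h n := if n < A.size then A.ask b h n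
    else B.ask (b, A.res b (trunc A.size h)) (fun i => h (A.size + i)) (n - A.size)
  res b h := B.res (b, A.res b (trunc A.size h)) (fun i => h (A.size + i))

theorem Alg.seq_eval {α' : Type} (A : Alg d β α) (B : Alg d (β × α) α')
    (O : EuclideanSpace ℝ (Fin d) → Reply d) (b : β) :
    (A.seq B).eval O b = B.eval O (b, A.eval O b) := by
  have h1 : ∀ n, n ≤ A.size → (A.seq B).hist O b n = A.hist O b n := by
    intro n
    induction n with
    | zero => exact fun _ => rfl
    | succ n ih =>
      intro hn
      rw [Alg.hist, Alg.hist, ih (by omega)]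
      simp [Alg.seq, show n < A.size by omega]
  have h2 : ∀ m, trunc A.size ((A.seq B).hist O b (A.size + m)) = A.hist O b A.size ∧
      (fun i => (A.seq B).hist O b (A.size + m) (A.size + i)) = B.hist O (b, A.eval O b) m := by
    intro m
    induction m with
    | zero =>
      rw [Nat.add_zero, h1 _ le_rfl]
      refine ⟨funext fun i => ?_, funext fun i => A.hist_ge O b A.size (A.size + i) (by omega)⟩
      by_cases h : i < A.size
      · simp [trunc, h]
      · simp [trunc, h, A.hist_ge O b A.size i (by omega)]
    | succ m ih =>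
      obtain ⟨e1, e2⟩ := ih
      have hask : (A.seq B).ask b ((A.seq B).hist O b (A.size + m)) (A.size + m)
          = B.ask (b, A.eval O b) (B.hist O (b, A.eval O b) m) m := by
        simp only [Alg.seq] at e1 e2 ⊢
        rw [if_neg (by omega), e1, e2, Nat.add_sub_cancel_left]
        rfl
      rw [← Nat.add_assoc]
      constructor
      · rw [← e1]
        funext i
        by_cases h : i < A.size
        · simp only [trunc, if_pos h, Alg.hist]
          rw [Function.update_of_ne (by omega)]
        · simp [trunc, h]
      · funext i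
        rw [Alg.hist, Alg.hist, hask, ← e2]
        by_cases h : i = m
        · subst h; simp
        · rw [Function.update_of_ne (by omega), Function.update_of_ne h]
  obtain ⟨e1, e2⟩ := h2 B.size
  show B.res (b, A.res b (trunc A.size ((A.seq B).hist O b (A.size + B.size))))
      (fun i => (A.seq B).hist O b (A.size + B.size) (A.size + i)) = _
  rw [e1, e2]
  rfl

theorem Alg.seq_meas {α' : Type} [MeasurableSpace β] [MeasurableSpace α] [MeasurableSpace α']
    {A : Alg d β α} {B : Alg d (β × α) α'} (hA : A.Meas) (hB : B.Meas) : (A.seq B).Meas := by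
  have ht : Measurable fun h : Hist d => trunc A.size h := measurable_pi_lambda _ fun i => by
    by_cases h : i < A.size
    · simpa [trunc, h] using measurable_pi_apply i
    · simp [trunc, h]
  have hp : Measurable fun z : β × Hist d =>
      (((z.1, A.res z.1 (trunc A.size z.2)), fun i => z.2 (A.size + i)) : (β × α) × Hist d) :=
    (measurable_fst.prodMk (hA.res.comp (measurable_fst.prodMk (ht.comp measurable_snd)))).prodMk
      (measurable_pi_lambda _ fun i => (measurable_pi_apply _).comp measurable_snd)
  refine ⟨fun n => ?_, hB.res.comp hp⟩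
  simp only [Alg.seq]
  split_ifs with h
  · exact hA.ask n
  · exact (hB.ask (n - A.size)).comp hp

/-- Another parameter. -/
def Alg.comap (A : Alg d β α) (f : γ → β) : Alg d γ α :=
  ⟨A.size, fun c => A.ask (f c), fun c => A.res (f c)⟩

theorem Alg.comap_eval (A : Alg d β α) (f : γ → β) (O : EuclideanSpace ℝ (Fin d) → Reply d) (c : γ) :
    (A.comap f).eval O c = A.eval O (f c) := by
  have : ∀ n, (A.comap f).hist O c n = A.hist O (f c) n := by
    intro n
    induction n with
    | zero => rfl
    | succ n ih => rw [Alg.hist, Alg.hist, ih]; rfl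
  exact congrArg (A.res (f c)) (this A.size)

theorem Alg.comap_meas [MeasurableSpace β] [MeasurableSpace α] [MeasurableSpace γ] {A : Alg d β α}
    (hA : A.Meas) {f : γ → β} (hf : Measurable f) : (A.comap f).Meas :=
  ⟨fun n => (hA.ask n).comp ((hf.comp measurable_fst).prodMk measurable_snd),
    hA.res.comp ((hf.comp measurable_fst).prodMk measurable_snd)⟩

/-- The answers a procedure would have seen behind a change of oracle. -/
def Alg.seen (A : Alg d β α) (P : γ → EuclideanSpace ℝ (Fin d) → Reply d → Reply d) (c : γ) (b : β)
    (h : Hist d) : ℕ → Hist d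
  | 0 => fun _ => 0
  | n + 1 => Function.update (A.seen P c b h n) n (P c (A.ask b (A.seen P c b h n) n) (h n))

/-- The procedure behind a change of oracle. -/
def Alg.pull (A : Alg d β α) (Q : γ → EuclideanSpace ℝ (Fin d) → EuclideanSpace ℝ (Fin d))
    (P : γ → EuclideanSpace ℝ (Fin d) → Reply d → Reply d) : Alg d (γ × β) α :=
  ⟨A.size, fun z h n => Q z.1 (A.ask z.2 (A.seen P z.1 z.2 h n) n),
    fun z h => A.res z.2 (A.seen P z.1 z.2 h A.size)⟩

theorem Alg.seen_congr (A : Alg d β α) (P : γ → EuclideanSpace ℝ (Fin d) → Reply d → Reply d)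
    (c : γ) (b : β) {h h' : Hist d} : ∀ n, (∀ i, i < n → h i = h' i) →
    A.seen P c b h n = A.seen P c b h' n
  | 0, _ => rfl
  | n + 1, e => by
    rw [Alg.seen, Alg.seen, A.seen_congr P c b n fun i hi => e i (by omega), e n (by omega)]

theorem Alg.pull_eval (A : Alg d β α)
    (Q : γ → EuclideanSpace ℝ (Fin d) → EuclideanSpace ℝ (Fin d))
    (P : γ → EuclideanSpace ℝ (Fin d) → Reply d → Reply d)
    (O : EuclideanSpace ℝ (Fin d) → Reply d) (z : γ × β) :
    (A.pull Q P).eval O z = A.eval (fun u => P z.1 u (O (Q z.1 u))) z.2 := by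
  have key : ∀ n, A.seen P z.1 z.2 ((A.pull Q P).hist O z n) n
      = A.hist (fun u => P z.1 u (O (Q z.1 u))) z.2 n := by
    intro n
    induction n with
    | zero => rfl
    | succ n ih =>
      have e : A.seen P z.1 z.2 ((A.pull Q P).hist O z (n + 1)) n
          = A.hist (fun u => P z.1 u (O (Q z.1 u))) z.2 n := by
        rw [← ih]
        refine A.seen_congr P _ _ n fun i hi => ?_
        rw [Alg.hist, Function.update_of_ne (by omega)]
      rw [Alg.seen, e, Alg.hist, Alg.hist, Function.update_self]
      refine congrArg (fun y => Function.update (A.hist (fun u => P z.1 u (O (Q z.1 u))) z.2 n) n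
        (P z.1 (A.ask z.2 (A.hist (fun u => P z.1 u (O (Q z.1 u))) z.2 n) n) (O (Q z.1 y)))) ?_
      show A.ask z.2 (A.seen P z.1 z.2 ((A.pull Q P).hist O z n) n) n = _
      rw [ih]
  exact congrArg (A.res z.2) (key A.size)

theorem Alg.pull_meas [MeasurableSpace β] [MeasurableSpace α] [MeasurableSpace γ] {A : Alg d β α}
    (hA : A.Meas) {Q : γ → EuclideanSpace ℝ (Fin d) → EuclideanSpace ℝ (Fin d)}
    {P : γ → EuclideanSpace ℝ (Fin d) → Reply d → Reply d}
    (hQ : Measurable fun z : γ × EuclideanSpace ℝ (Fin d) => Q z.1 z.2)
    (hP : Measurable fun z : γ × EuclideanSpace ℝ (Fin d) × Reply d => P z.1 z.2.1 z.2.2) :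
    (A.pull Q P).Meas := by
  have hs : ∀ n, Measurable fun z : (γ × β) × Hist d => A.seen P z.1.1 z.1.2 z.2 n := by
    intro n
    induction n with
    | zero => exact measurable_const
    | succ n ih =>
      exact measurable_update_at n ih (hP.comp ((measurable_fst.comp measurable_fst).prodMk
        (((hA.ask n).comp ((measurable_snd.comp measurable_fst).prodMk ih)).prodMk
          ((measurable_pi_apply n).comp measurable_snd))))
  exact ⟨fun n => hQ.comp ((measurable_fst.comp measurable_fst).prodMk
    ((hA.ask n).comp ((measurable_snd.comp measurable_fst).prodMk (hs n)))),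
    hA.res.comp ((measurable_snd.comp measurable_fst).prodMk (hs A.size))⟩

/-- Repetition: the seeds are used from the last to the first. -/
def Alg.loop {W : Type} (A : ℕ → Alg d (W × α) α) : (n : ℕ) → Alg d ((Fin n → W) × α) α
  | 0 => Alg.pure d fun z => z.2
  | n + 1 => ((A n).comap fun z => (z.1 (Fin.last n), z.2)).seq
      ((Alg.loop A n).comap fun z => (fun j => z.1.1 j.castSucc, z.2))

/-- The map computed by a repetition. -/
def loopFold {W : Type} (f : ℕ → W → α → α) : (n : ℕ) → (Fin n → W) → α → α
  | 0, _, x => x
  | n + 1, ω, x => loopFold f n (fun j => ω j.castSucc) (f n (ω (Fin.last n)) x)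

theorem Alg.loop_eval {W : Type} (A : ℕ → Alg d (W × α) α)
    (O : EuclideanSpace ℝ (Fin d) → Reply d) :
    ∀ n (ω : Fin n → W) (x : α),
      (Alg.loop A n).eval O (ω, x) = loopFold (fun k w y => (A k).eval O (w, y)) n ω x
  | 0, ω, x => rfl
  | n + 1, ω, x => by
    rw [Alg.loop, Alg.seq_eval, Alg.comap_eval, Alg.comap_eval, Alg.loop_eval A O n]
    rfl

theorem Alg.loop_meas {W : Type} [MeasurableSpace W] [MeasurableSpace α]
    {A : ℕ → Alg d (W × α) α} (hA : ∀ n, (A n).Meas) : ∀ n, (Alg.loop A n).Meas
  | 0 => Alg.pure_meas measurable_snd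
  | n + 1 => Alg.seq_meas (Alg.comap_meas (hA n) (((measurable_pi_apply _).comp measurable_fst).prodMk
      measurable_snd)) (Alg.comap_meas (Alg.loop_meas hA n) ((measurable_pi_lambda _ fun _ =>
        (measurable_pi_apply _).comp (measurable_fst.comp measurable_fst)).prodMk measurable_snd))

theorem Alg.loop_size {W : Type} {A : ℕ → Alg d (W × α) α} {s : ℕ} (h : ∀ n, (A n).size = s) :
    ∀ n, (Alg.loop A n).size = n * s
  | 0 => by simp [Alg.loop, Alg.pure]
  | n + 1 => by
    simp only [Alg.loop, Alg.seq, Alg.comap, h n, Alg.loop_size h n]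
    ring

/-- The memory of the machine of a procedure. -/
abbrev AlgMemory (d : ℕ) (α : Type) : Type := ℕ × Hist d × α

/-- The queries of the machine. -/
def Alg.machineQuery (A : Alg d β α) (ω : β) (s : AlgMemory d α) : EuclideanSpace ℝ (Fin d) :=
  A.ask ω s.2.1 s.1

/-- The update of the machine. -/
def Alg.machineUpdate (A : Alg d β α) (ω : β) (s : AlgMemory d α) (a : Reply d) : AlgMemory d α :=
  (s.1 + 1, Function.update s.2.1 s.1 a, A.res ω (Function.update s.2.1 s.1 a))

theorem Alg.machine_run (A : Alg d β α) (O : EuclideanSpace ℝ (Fin d) → Reply d) (ω : β) (x : α)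
    (h : 0 < A.size) :
    ((fun s => A.machineUpdate ω s (O (A.machineQuery ω s)))^[A.size] (0, fun _ => 0, x)).2.2
      = A.eval O ω := by
  have key : ∀ n, ((fun s => A.machineUpdate ω s (O (A.machineQuery ω s)))^[n + 1]
      (0, fun _ => 0, x)) = (n + 1, A.hist O ω (n + 1), A.res ω (A.hist O ω (n + 1))) := by
    intro n
    induction n with
    | zero => rfl
    | succ n ih =>
      rw [Function.iterate_succ_apply', ih]
      rfl
  obtain ⟨n, hn⟩ : ∃ n, A.size = n + 1 := ⟨A.size - 1, by omega⟩
  rw [Alg.eval, hn, key n]

theorem measurable_counter {X Y Z : Type} [MeasurableSpace X] [MeasurableSpace Y] [MeasurableSpace Z]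
    {F : X → ℕ × Y → Z} (h : ∀ n, Measurable fun z : X × Y => F z.1 (n, z.2)) :
    Measurable fun z : X × (ℕ × Y) => F z.1 z.2 :=
  have hg : Measurable fun w : ℕ × (X × Y) => F w.2.1 (w.1, w.2.2) :=
    measurable_from_prod_countable_right h
  hg.comp (f := fun z : X × (ℕ × Y) => (z.2.1, (z.1, z.2.2))) (by fun_prop)

theorem Alg.machine_meas [MeasurableSpace β] [MeasurableSpace α] {A : Alg d β α} (hA : A.Meas) :
    Measurable (Function.uncurry A.machineQuery) ∧
    Measurable fun z : (β × Reply d) × AlgMemory d α => A.machineUpdate z.1.1 z.2 z.1.2 := by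
  refine ⟨measurable_counter (F := A.machineQuery) fun n =>
    (hA.ask n).comp (measurable_fst.prodMk (measurable_fst.comp measurable_snd)),
    measurable_counter (F := fun (w : β × Reply d) s => A.machineUpdate w.1 s w.2) fun n => ?_⟩
  have hu := measurable_update_at (f := fun z : (β × Reply d) × (Hist d × α) => z.2.1)
    (g := fun z => z.1.2) n (measurable_fst.comp measurable_snd) (measurable_snd.comp measurable_fst)
  simp only [Alg.machineUpdate]
  exact measurable_const.prodMk (hu.prodMk
    (hA.res.comp ((measurable_fst.comp measurable_fst).prodMk hu)))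

end

end P347
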