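import Vale.Agent.P347.Any.Euler

/-!
# P347: the tilted Gibbs law moves with the tilt by at most the inverse convexity

Coupled Euler steps contract by `1 - h (a - e)` and almost preserve the two laws, so the means of an
`L`-Lipschitz function under the tilts `v` and `v'` differ by at most `L ‖v - v'‖ / (a - e)`.
-/

namespace P347

open MeasureTheory Finset
open scoped BigOperators RealInnerProductSpace

noncomputable section

variable {d : ℕ} {W : Space d → ℝ} {a e : ℝ}

/-- The mean of the linear weight of the noise. -/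
def noiseMean (d : ℕ) : ℝ := ∫ ξ : Space d, (1 + ‖ξ‖) ∂noise d

theorem noiseMean_nonneg (d : ℕ) : 0 ≤ noiseMean d := integral_nonneg fun ξ => by positivity

/-- The mean after an Euler step, as a function of the root of its length. -/
def eulerMean (W : Space d → ℝ) (v : Space d) (g : Space d → ℝ) (r : ℝ) : ℝ :=
  ∫ z, g (eulerPoint W v r z) ∂(gibbs (tilt W v)).prod (noise d)

theorem Potential.eulerMean_deriv (hW : Potential W a e) (v : Space d) {g : Space d → ℝ} {L : ℝ}
    (hg : Nice g L) (r : ℝ) :
    ∃ D, HasDerivAt (eulerMean W v g) D r ∧ |D| ≤ 8 * r ^ 2 * L * noiseMean d := by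
  have := hW.tilt_prob v
  set ν := (gibbs (tilt W v)).prod (noise d)
  set p := fun (s : ℝ) (z : Space d × Space d) =>
    -((2 * s) • (gradient W z.1 - v)) + Real.sqrt 2 • z.2
  have hYc := fun s => (hW.continuous_eulerPoint v s).measurable
  have hpm : ∀ s, Measurable (p s) := fun s => by
    have := hW.block.cont.measurable
    simp only [p]; fun_prop
  have hs2 : Real.sqrt 2 ≤ 2 := by
    rw [Real.sqrt_le_iff]; norm_num
  have hgv : ∀ z : Space d × Space d, ‖gradient W z.1 - v‖ ≤ (4 + ‖v‖) * (1 + ‖z.1‖) := fun z => by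
    have h1 := norm_sub_le (gradient W z.1) v
    have h2 := hW.grad_le z.1
    nlinarith [norm_nonneg z.1, norm_nonneg v]
  have hpb : ∀ s, |s| ≤ |r| + 1 → ∀ z, ‖p s z‖
      ≤ (2 * (|r| + 1) * (4 + ‖v‖) + 2) * ((1 + ‖z.1‖) * (1 + ‖z.2‖)) := fun s hs z => by
    refine (norm_add_le _ _).trans ?_
    rw [norm_neg, norm_smul, norm_smul, Real.norm_eq_abs, Real.norm_eq_abs, abs_mul, abs_two,
      abs_of_nonneg (Real.sqrt_nonneg 2)]
    have h1 : 2 * |s| * ‖gradient W z.1 - v‖
        ≤ 2 * (|r| + 1) * (4 + ‖v‖) * ((1 + ‖z.1‖) * (1 + ‖z.2‖)) := by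
      rw [mul_assoc (2 * (|r| + 1))]
      refine mul_le_mul (by linarith) ((hgv z).trans ?_) (norm_nonneg _) (by positivity)
      exact mul_le_mul_of_nonneg_left
        (le_mul_of_one_le_right (by positivity) (by linarith [norm_nonneg z.2])) (by positivity)
    have h2 : Real.sqrt 2 * ‖z.2‖ ≤ 2 * ((1 + ‖z.1‖) * (1 + ‖z.2‖)) :=
      mul_le_mul hs2 (by nlinarith [norm_nonneg z.1, norm_nonneg z.2]) (norm_nonneg _) (by norm_num)
    linarith
  obtain ⟨-, hd⟩ := hasDerivAt_integral_of_dominated_loc_of_deriv_le (μ := ν)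
    (F := fun s z => g (eulerPoint W v s z))
    (F' := fun s z => fderiv ℝ g (eulerPoint W v s z) (p s z))
    (bound := fun z => L * (2 * (|r| + 1) * (4 + ‖v‖) + 2) * ((1 + ‖z.1‖) * (1 + ‖z.2‖)))
    (Metric.ball_mem_nhds r one_pos)
    (Filter.Eventually.of_forall fun s => (hg.test.meas.comp (hYc s)).aestronglyMeasurable)
    (Integrable.of_bound (hg.test.meas.comp (hYc r)).aestronglyMeasurable 1
      (Filter.Eventually.of_forall fun z => hg.test.norm_le _))
    (measurable_fderiv_apply (hYc r) (hpm r)).aestronglyMeasurable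
    (Filter.Eventually.of_forall fun z s hs => by
      rw [Real.norm_eq_abs, mul_assoc]
      refine (hg.apply_le _ _).trans (mul_le_mul_of_nonneg_left (hpb s ?_ z) hg.nonneg)
      have := Metric.mem_ball.1 hs
      rw [Real.dist_eq] at this
      linarith [abs_sub_abs_le_abs_sub s r])
    (((hW.integrable_gibbs v).mul_prod integrable_noise).const_mul _)
    (Filter.Eventually.of_forall fun z s _ => by
      have h1 : HasDerivAt (fun s : ℝ => eulerPoint W v s z) (p s z) s := by
        have a1 := ((hasDerivAt_pow 2 s).smul_const (gradient W z.1 - v)).const_sub z.1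
        have a2 := ((hasDerivAt_id s).const_mul (Real.sqrt 2)).smul_const z.2
        exact (a1.add a2).congr_deriv (by simp [p])
      exact (hg.diff _).hasFDerivAt.comp_hasDerivAt s h1)
  refine ⟨_, hd, ?_⟩
  have i1 : Integrable (fun z => fderiv ℝ g (eulerPoint W v r z) (gradient W z.1 - v)) ν :=
    hW.integrable_pair v (measurable_fderiv_apply (hYc r)
      ((hW.block.cont.measurable.comp measurable_fst).sub measurable_const))
      (C := L * (4 + ‖v‖)) fun z => by
      rw [mul_assoc]
      refine (hg.apply_le _ _).trans (mul_le_mul_of_nonneg_left ((hgv z).trans ?_) hg.nonneg)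
      exact mul_le_mul_of_nonneg_left
        (le_mul_of_one_le_right (by positivity) (by linarith [norm_nonneg z.2])) (by positivity)
  have i2 : Integrable (fun z => fderiv ℝ g (eulerPoint W v r z) z.2) ν :=
    hW.integrable_pair v (measurable_fderiv_apply (hYc r) measurable_snd) (C := L) fun z =>
      (hg.apply_le _ _).trans (mul_le_mul_of_nonneg_left
        (by nlinarith [norm_nonneg z.1, norm_nonneg z.2]) hg.nonneg)
  set A := ∫ z, fderiv ℝ g (eulerPoint W v r z) (gradient W z.1 - v) ∂ν
  set B := ∫ z, fderiv ℝ g (eulerPoint W v r z) z.2 ∂ν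
  set H := ∫ z, fderiv ℝ g (eulerPoint W v r z) (fderiv ℝ (gradient W) z.1 z.2) ∂ν
  have key : Real.sqrt 2 * r * A = B - r ^ 2 * H := hW.stein v hg r
  have e1 : ∫ z, fderiv ℝ g (eulerPoint W v r z) (p r z) ∂ν
      = Real.sqrt 2 * (r ^ 2 * H) := by
    simp only [p, map_add, map_neg, map_smul, smul_eq_mul]
    rw [integral_add ((i1.const_mul _).neg') (i2.const_mul _), integral_neg, integral_const_mul,
      integral_const_mul]
    have h2 : Real.sqrt 2 * Real.sqrt 2 = 2 := Real.mul_self_sqrt (by norm_num)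
    calc -(2 * r * A) + Real.sqrt 2 * B
        = Real.sqrt 2 * (B - Real.sqrt 2 * r * A) := by
          rw [mul_sub, ← mul_assoc, ← mul_assoc, h2]; ring
      _ = _ := by rw [key]; ring
  have hH : |H| ≤ 4 * L * noiseMean d := by
    have hb : ∀ z : Space d × Space d,
        ‖fderiv ℝ g (eulerPoint W v r z) (fderiv ℝ (gradient W) z.1 z.2)‖
          ≤ 4 * L * (1 + ‖z.2‖) := fun z => by
      rw [Real.norm_eq_abs, mul_comm 4 L, mul_assoc]
      refine (hg.apply_le _ _).trans (mul_le_mul_of_nonneg_left ?_ hg.nonneg)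
      refine ((fderiv ℝ (gradient W) z.1).le_opNorm z.2).trans ?_
      exact mul_le_mul (hW.hess_le _) (by linarith) (norm_nonneg _) (by norm_num)
    refine (le_of_eq (Real.norm_eq_abs H).symm).trans ((norm_integral_le_of_norm_le
      ((integrable_noise.comp_snd _).const_mul _) (Filter.Eventually.of_forall hb)).trans
      (le_of_eq ?_))
    rw [integral_const_mul, integral_fun_snd (fun ξ : Space d => 1 + ‖ξ‖), probReal_univ,
      one_smul]
    rfl
  rw [e1, abs_mul, abs_mul, abs_of_nonneg (Real.sqrt_nonneg 2), abs_of_nonneg (sq_nonneg r)]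
  calc Real.sqrt 2 * (r ^ 2 * |H|) ≤ 2 * (r ^ 2 * (4 * L * noiseMean d)) :=
        mul_le_mul hs2 (mul_le_mul_of_nonneg_left hH (sq_nonneg r)) (by positivity) (by norm_num)
    _ = _ := by ring

/-- The Euler step on functions. -/
def eulerOp (W : Space d → ℝ) (v : Space d) (h : ℝ) (g : Space d → ℝ) (x : Space d) : ℝ :=
  ∫ ξ, g (x - h • (gradient W x - v) + Real.sqrt (2 * h) • ξ) ∂noise d

/-- **The bias of one step.** -/
theorem Potential.bias (hW : Potential W a e) (v : Space d) {g : Space d → ℝ} {L : ℝ}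
    (hg : Nice g L) {h : ℝ} (hh : 0 < h) :
    |∫ x, eulerOp W v h g x ∂gibbs (tilt W v) - ∫ x, g x ∂gibbs (tilt W v)|
      ≤ 8 * L * noiseMean d * (h * Real.sqrt h) := by
  have := hW.tilt_prob v
  choose D hD hDb using fun r => hW.eulerMean_deriv v hg r
  have hr : 0 < Real.sqrt h := Real.sqrt_pos.2 hh
  obtain ⟨c, hc, hs⟩ := exists_hasDerivAt_eq_slope (f := eulerMean W v g) (f' := D) hr
    (fun r _ => (hD r).continuousAt.continuousWithinAt) fun r _ => hD r
  rw [sub_zero, eq_div_iff hr.ne'] at hs
  have e1 : eulerMean W v g (Real.sqrt h) = ∫ x, eulerOp W v h g x ∂gibbs (tilt W v) := by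
    rw [eulerMean, integral_prod (fun z => g (eulerPoint W v (Real.sqrt h) z)) (Integrable.of_bound
      (hg.test.meas.comp (hW.continuous_eulerPoint v _).measurable).aestronglyMeasurable 1
      (Filter.Eventually.of_forall fun z => hg.test.norm_le _))]
    simp only [eulerOp, eulerPoint, Real.sq_sqrt hh.le, Real.sqrt_mul (by norm_num : (0 : ℝ) ≤ 2)]
  have e0 : eulerMean W v g 0 = ∫ x, g x ∂gibbs (tilt W v) := by
    rw [eulerMean, integral_congr_ae (g := fun z => g z.1)
      (Filter.Eventually.of_forall fun z => by simp [eulerPoint]), integral_fun_fst,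
      probReal_univ, one_smul]
  rw [← e1, ← e0, ← hs, abs_mul, abs_of_pos hr]
  calc |D c| * Real.sqrt h ≤ 8 * h * L * noiseMean d * Real.sqrt h := by
        refine mul_le_mul_of_nonneg_right ((hDb c).trans ?_) hr.le
        have h2 : c ^ 2 ≤ h := by
          have := pow_le_pow_left₀ hc.1.le hc.2.le 2
          rwa [Real.sq_sqrt hh.le] at this
        exact mul_le_mul_of_nonneg_right (mul_le_mul_of_nonneg_right
          (by linarith) hg.nonneg) (noiseMean_nonneg d)
    _ = _ := by ring

theorem Potential.nice_euler (hW : Potential W a e) (v : Space d) {g : Space d → ℝ} {L : ℝ}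
    (hg : Nice g L) {h : ℝ} (hh : 0 < h) (hha : h * a ≤ 1) :
    Nice (eulerOp W v h g) ((1 - h * (a - e)) * L) := by
  set S := fun x : Space d => x - h • (gradient W x - v)
  have hS : ∀ x, HasFDerivAt S (ContinuousLinearMap.id ℝ (Space d) - h • fderiv ℝ (gradient W) x) x :=
    fun x => (hasFDerivAt_id x).sub (((hW.diff2 x).hasFDerivAt.sub_const v).const_smul h)
  have hC : ∀ x, ‖fderiv ℝ S x‖ ≤ 1 + h * 4 := fun x => by
    rw [(hS x).fderiv]
    refine (norm_sub_le _ _).trans (add_le_add ContinuousLinearMap.norm_id_le ?_)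
    rw [norm_smul, Real.norm_eq_abs, abs_of_pos hh]
    exact mul_le_mul_of_nonneg_left (hW.hess_le x) hh.le
  have hd : Differentiable ℝ (eulerOp W v h g) := fun x => by
    have := (average_deriv hg (fun x => (hS x).differentiableAt) hC
      (measurable_const (a := (1 : ℝ))) (fun ξ => by rw [abs_one]; linarith [norm_nonneg ξ])
      (Real.sqrt (2 * h)) x).differentiableAt
    simp only [one_mul] at this
    exact this
  have hint : ∀ x, Test fun ξ => g (S x + Real.sqrt (2 * h) • ξ) := fun x =>
    ⟨hg.test.meas.comp (by fun_prop : Measurable fun ξ : Space d => S x + Real.sqrt (2 * h) • ξ),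
      fun _ => hg.test.nonneg _, fun _ => hg.test.le_one _⟩
  refine ⟨⟨hd.continuous.measurable, fun x => ((hint x).integral_mem _).1,
    fun x => ((hint x).integral_mem _).2⟩, hd, fun x y => ?_,
    mul_nonneg (by nlinarith [hW.e_nonneg]) hg.nonneg⟩
  simp only [eulerOp]
  rw [← integral_sub ((hint x).integrable _) ((hint y).integrable _), ← Real.norm_eq_abs]
  refine (norm_integral_le_of_norm_le_const (Filter.Eventually.of_forall fun ξ => ?_)).trans
    (le_of_eq (by rw [probReal_univ, mul_one]))
  rw [Real.norm_eq_abs, mul_comm (1 - h * (a - e)) L, mul_assoc]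
  refine (hg.lip _ _).trans (mul_le_mul_of_nonneg_left ?_ hg.nonneg)
  have h1 := hW.cross y (x - y)
  rw [add_sub_cancel] at h1
  have e1 : x - h • (gradient W x - v) + Real.sqrt (2 * h) • ξ
      - (y - h • (gradient W y - v) + Real.sqrt (2 * h) • ξ)
      = (1 - h * a) • (x - y) - h • (gradient W x - gradient W y - a • (x - y)) := by
    module
  rw [e1]
  refine (norm_sub_le _ _).trans ?_
  rw [norm_smul, norm_smul, Real.norm_eq_abs, Real.norm_eq_abs, abs_of_pos hh,
    abs_of_nonneg (by linarith)]
  nlinarith [mul_le_mul_of_nonneg_left h1 hh.le]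

theorem Potential.euler_compare (hW : Potential W a e) (v v' : Space d) {g : Space d → ℝ} {L : ℝ}
    (hg : Nice g L) {h : ℝ} (hh : 0 < h) (x : Space d) :
    |eulerOp W v' h g x - eulerOp W v h g x| ≤ L * (h * ‖v - v'‖) := by
  have hint : ∀ p, Integrable (fun ξ => g (p + Real.sqrt (2 * h) • ξ)) (noise d) := fun p =>
    Integrable.of_bound (hg.test.meas.comp
      (by fun_prop : Measurable fun ξ : Space d => p + Real.sqrt (2 * h) • ξ)).aestronglyMeasurable 1
      (Filter.Eventually.of_forall fun ξ => hg.test.norm_le _)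
  have := hW
  simp only [eulerOp]
  rw [← integral_sub (hint _) (hint _), ← Real.norm_eq_abs]
  refine (norm_integral_le_of_norm_le_const (Filter.Eventually.of_forall fun ξ => ?_)).trans
    (le_of_eq (by rw [probReal_univ, mul_one]))
  rw [Real.norm_eq_abs]
  refine (hg.lip _ _).trans (mul_le_mul_of_nonneg_left (le_of_eq ?_) hg.nonneg)
  rw [show x - h • (gradient W x - v') + Real.sqrt (2 * h) • ξ
      - (x - h • (gradient W x - v) + Real.sqrt (2 * h) • ξ) = h • (v' - v) by module,
    norm_smul, Real.norm_eq_abs, abs_of_pos hh, norm_sub_rev]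

/-- The first moment of a tilted law. -/
def tiltMoment (W : Space d → ℝ) (v : Space d) : ℝ := ∫ x, (1 + ‖x‖) ∂gibbs (tilt W v)

theorem Potential.near_zero (hW : Potential W a e) (v : Space d) {g : Space d → ℝ} {L : ℝ}
    (hg : Nice g L) : |∫ x, g x ∂gibbs (tilt W v) - g 0| ≤ L * tiltMoment W v := by
  have := hW.tilt_prob v
  have e1 : ∫ x, g x ∂gibbs (tilt W v) - g 0 = ∫ x, (g x - g 0) ∂gibbs (tilt W v) := by
    rw [integral_sub (hg.test.integrable _) (integrable_const _)]; simp
  rw [e1, tiltMoment, ← integral_const_mul, ← Real.norm_eq_abs]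
  refine norm_integral_le_of_norm_le ((hW.integrable_gibbs v).const_mul L)
    (Filter.Eventually.of_forall fun x => ?_)
  rw [Real.norm_eq_abs]
  refine (hg.lip x 0).trans (mul_le_mul_of_nonneg_left ?_ hg.nonneg)
  rw [sub_zero]
  linarith

/-- Repeated coupled steps. -/
theorem Potential.iterate (hW : Potential W a e) (v v' : Space d) {h : ℝ} (hh : 0 < h)
    (hha : h * a ≤ 1) : ∀ (n : ℕ) (g : Space d → ℝ) (L : ℝ), Nice g L →
      |∫ x, g x ∂gibbs (tilt W v) - ∫ x, g x ∂gibbs (tilt W v')|
        ≤ L * ((‖v - v'‖ + 16 * noiseMean d * Real.sqrt h) / (a - e))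
          + (1 - h * (a - e)) ^ n * L * (tiltMoment W v + tiltMoment W v')
  | 0, g, L, hg => by
    have h1 := hW.near_zero v hg
    have h2 := hW.near_zero v' hg
    have h3 : 0 ≤ L * ((‖v - v'‖ + 16 * noiseMean d * Real.sqrt h) / (a - e)) := by
      have := noiseMean_nonneg d
      have := hW.e_lt
      exact mul_nonneg hg.nonneg (div_nonneg (by positivity) (by linarith))
    rw [pow_zero, one_mul, mul_add L (tiltMoment W v)]
    refine (abs_sub_le _ (g 0) _).trans ?_
    rw [abs_sub_comm (g 0)]
    linarith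
  | n + 1, g, L, hg => by
    have := hW.tilt_prob v'
    have hq := hW.nice_euler v hg hh hha
    have hq' := hW.nice_euler v' hg hh hha
    have ih := hW.iterate v v' hh hha n _ _ hq
    have b1 := hW.bias v hg hh
    have b2 := hW.bias v' hg hh
    have b3 : |∫ x, eulerOp W v' h g x ∂gibbs (tilt W v') - ∫ x, eulerOp W v h g x ∂gibbs (tilt W v')|
        ≤ L * (h * ‖v - v'‖) := by
      rw [← integral_sub (hq'.test.integrable _) (hq.test.integrable _), ← Real.norm_eq_abs]
      refine (norm_integral_le_of_norm_le_const (Filter.Eventually.of_forall fun x => ?_)).trans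
        (le_of_eq (by rw [probReal_univ, mul_one]))
      rw [Real.norm_eq_abs]
      exact hW.euler_compare v v' hg hh x
    set μ := a - e
    have hμ : μ ≠ 0 := (sub_pos.2 hW.e_lt).ne'
    set X := ‖v - v'‖ + 16 * noiseMean d * Real.sqrt h
    have e1 : (1 - h * μ) * L * (X / μ) + L * (h * ‖v - v'‖)
        + 2 * (8 * L * noiseMean d * (h * Real.sqrt h)) = L * (X / μ) := by
      field_simp
      simp only [X]
      ring
    rw [pow_succ, mul_assoc ((1 - h * μ) ^ n) (1 - h * μ) L]
    rw [abs_le] at ih b1 b2 b3 ⊢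
    constructor <;> nlinarith

/-- The bound for differentiable functions. -/
theorem Potential.shift_nice (hW : Potential W a e) (v v' : Space d) {g : Space d → ℝ} {L : ℝ}
    (hg : Nice g L) :
    |∫ x, g x ∂gibbs (tilt W v) - ∫ x, g x ∂gibbs (tilt W v')| ≤ L * (‖v - v'‖ / (a - e)) := by
  have hμ : 0 < a - e := sub_pos.2 hW.e_lt
  have ha : 0 < a := hW.e_nonneg.trans_lt hW.e_lt
  set X := |∫ x, g x ∂gibbs (tilt W v) - ∫ x, g x ∂gibbs (tilt W v')|
  have h1 : ∀ h ∈ Set.Ioo (0 : ℝ) (1 / a),
      X ≤ L * ((‖v - v'‖ + 16 * noiseMean d * Real.sqrt h) / (a - e)) := fun h hh => by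
    have hha : h * a ≤ 1 := by
      have := mul_le_mul_of_nonneg_right hh.2.le ha.le
      rwa [div_mul_cancel₀ _ ha.ne'] at this
    set q := 1 - h * (a - e)
    have hq0 : 0 ≤ q := by
      have := mul_nonneg hh.1.le hW.e_nonneg
      simp only [q]; rw [mul_sub]; linarith
    have hq1 : q < 1 := by have := mul_pos hh.1 hμ; simp only [q]; linarith
    have ht := (((tendsto_pow_atTop_nhds_zero_of_lt_one hq0 hq1).mul_const L).mul_const
      (tiltMoment W v + tiltMoment W v')).const_add
        (L * ((‖v - v'‖ + 16 * noiseMean d * Real.sqrt h) / (a - e)))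
    rw [zero_mul, zero_mul, add_zero] at ht
    exact ge_of_tendsto' ht fun n => hW.iterate v v' hh.1 hha n g L hg
  have hc : Continuous fun h : ℝ =>
      L * ((‖v - v'‖ + 16 * noiseMean d * Real.sqrt h) / (a - e)) := by fun_prop
  have ht2 := (hc.tendsto 0).mono_left (nhdsWithin_le_nhds (s := Set.Ioi 0))
  simp only [Real.sqrt_zero, mul_zero, add_zero] at ht2
  refine ge_of_tendsto ht2 ?_
  filter_upwards [Ioo_mem_nhdsGT (show (0 : ℝ) < 1 / a by positivity)] with h hh using h1 h hh

/-- Lipschitz test functions are limits of differentiable ones. -/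
theorem exists_nice {g : Space d → ℝ} {L : ℝ} (hg : Test g) (hL : 0 ≤ L)
    (hl : ∀ x y, |g x - g y| ≤ L * ‖x - y‖) {ε : ℝ} (hε : 0 < ε) :
    ∃ g' : Space d → ℝ, Nice g' L ∧ ∀ x, |g' x - g x| ≤ L * ε := by
  let φ : ContDiffBump (0 : Space d) := ⟨ε / 2, ε, by linarith, by linarith⟩
  set g' : Space d → ℝ :=
    MeasureTheory.convolution (φ.normed volume) g (ContinuousLinearMap.lsmul ℝ ℝ) volume
  have hgc : Continuous g := by
    refine Metric.continuous_iff.2 fun x δ hδ => ⟨δ / (L + 1), by positivity, fun y hy => ?_⟩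
    rw [dist_eq_norm] at hy
    rw [Real.dist_eq]
    calc |g y - g x| ≤ L * ‖y - x‖ := hl y x
      _ ≤ (L + 1) * ‖y - x‖ := mul_le_mul_of_nonneg_right (by linarith) (norm_nonneg _)
      _ < (L + 1) * (δ / (L + 1)) := mul_lt_mul_of_pos_left hy (by linarith)
      _ = δ := by field_simp
  have hφc : Continuous (φ.normed volume) := φ.continuous_normed
  have hφi : Integrable (φ.normed volume) := φ.integrable_normed
  have hint : ∀ x, Integrable fun t => φ.normed volume t * g (x - t) := fun x =>
    hφi.mono' (hφc.mul (hgc.comp (continuous_const.sub continuous_id))).aestronglyMeasurable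
      (Filter.Eventually.of_forall fun t => by
        rw [norm_mul, Real.norm_eq_abs, abs_of_nonneg (φ.nonneg_normed t)]
        exact mul_le_of_le_one_right (φ.nonneg_normed t) (hg.norm_le _))
  have hval : ∀ x, g' x = ∫ t, φ.normed volume t * g (x - t) := fun x => by
    simp [g', MeasureTheory.convolution, ContinuousLinearMap.lsmul_apply]
  have hdiff : Differentiable ℝ g' :=
    (φ.hasCompactSupport_normed.contDiff_convolution_left (n := 1)
      (ContinuousLinearMap.lsmul ℝ ℝ) φ.contDiff_normed hgc.locallyIntegrable).differentiable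
      (by norm_num)
  refine ⟨g', ⟨⟨hdiff.continuous.measurable, fun x => ?_, fun x => ?_⟩, hdiff, fun x y => ?_, hL⟩,
    fun x => ?_⟩
  · rw [hval]; exact integral_nonneg fun t => mul_nonneg (φ.nonneg_normed t) (hg.nonneg _)
  · rw [hval, ← φ.integral_normed (μ := volume)]
    exact integral_mono (hint x) hφi fun t =>
      mul_le_of_le_one_right (φ.nonneg_normed t) (hg.le_one _)
  · rw [hval, hval, ← integral_sub (hint x) (hint y), ← Real.norm_eq_abs]
    refine (norm_integral_le_of_norm_le (hφi.mul_const (L * ‖x - y‖))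
      (Filter.Eventually.of_forall fun t => ?_)).trans (le_of_eq ?_)
    · rw [Real.norm_eq_abs, ← mul_sub, abs_mul, abs_of_nonneg (φ.nonneg_normed t)]
      refine mul_le_mul_of_nonneg_left ((hl _ _).trans (le_of_eq ?_)) (φ.nonneg_normed t)
      rw [sub_sub_sub_cancel_right]
    · rw [integral_mul_const, φ.integral_normed, one_mul]
  · rw [← Real.dist_eq]
    refine φ.dist_normed_convolution_le hgc.aestronglyMeasurable fun y hy => ?_
    rw [Real.dist_eq]
    refine (hl y x).trans (mul_le_mul_of_nonneg_left ?_ hL)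
    rw [← dist_eq_norm]
    exact (Metric.mem_ball.1 hy).le

/-- **The tilt moves the means of Lipschitz functions by at most the inverse convexity.** -/
theorem Potential.shift (hW : Potential W a e) (v v' : Space d) {g : Space d → ℝ} {L : ℝ}
    (hg : Test g) (hL : 0 ≤ L) (hl : ∀ x y, |g x - g y| ≤ L * ‖x - y‖) :
    |∫ x, g x ∂gibbs (tilt W v) - ∫ x, g x ∂gibbs (tilt W v')| ≤ L * (‖v - v'‖ / (a - e)) := by
  have key : ∀ ε : ℝ, 0 < ε →
      |∫ x, g x ∂gibbs (tilt W v) - ∫ x, g x ∂gibbs (tilt W v')|
        ≤ L * (‖v - v'‖ / (a - e)) + 2 * (L * ε) := fun ε hε => by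
    obtain ⟨g', hg', hclose⟩ := exists_nice hg hL hl hε
    have hc : ∀ u, |∫ x, g' x ∂gibbs (tilt W u) - ∫ x, g x ∂gibbs (tilt W u)| ≤ L * ε := fun u => by
      have := hW.tilt_prob u
      rw [← integral_sub (hg'.test.integrable _) (hg.integrable _), ← Real.norm_eq_abs]
      exact (norm_integral_le_of_norm_le_const (Filter.Eventually.of_forall fun x => by
        rw [Real.norm_eq_abs]; exact hclose x)).trans (le_of_eq (by rw [probReal_univ, mul_one]))
    have h1 := hW.shift_nice v v' hg'
    have h2 := hc v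
    have h3 := hc v'
    rw [abs_le] at h1 h2 h3 ⊢
    constructor <;> linarith
  refine le_of_forall_pos_le_add fun ε hε => ?_
  refine (key (ε / (2 * (L + 1))) (by positivity)).trans (add_le_add le_rfl ?_)
  rw [show 2 * (L * (ε / (2 * (L + 1)))) = L / (L + 1) * ε by field_simp]
  exact mul_le_of_le_one_left hε.le ((div_le_one (by positivity)).2 (by linarith))

end

end P347
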