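import Vale.Agent.P347.Any.Contract
import Vale.Agent.P347.Any.Prox

/-!
# P347: the proximal chain of a regularised potential

`W` is a potential, `U = W - ‖y‖ ^ 2 / 2` the target. From `y` draw `v` from the Gaussian law centred
at `y`, then the next state from the Gibbs law of `W` tilted by `v`.
-/

namespace P347

open MeasureTheory Finset
open scoped BigOperators RealInnerProductSpace

noncomputable section

variable {d : ℕ} {W : Space d → ℝ} {a e γ : ℝ}

/-- The mean under the potential tilted by `v`. -/
def tiltMean (W : Space d → ℝ) (g : Space d → ℝ) (v : Space d) : ℝ :=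
  ∫ u, g u ∂gibbs (tilt W v)

/-- One step on functions. -/
def chainOp (W : Space d → ℝ) (g : Space d → ℝ) (u : Space d) : ℝ :=
  ∫ ξ, tiltMean W g (u + ξ) ∂noise d

/-- The invariant law. -/
def chainLaw (W : Space d → ℝ) : Measure (Space d) := gibbs fun u => W u - halfSq d u

/-- The hypotheses of the chain. -/
structure Chain (W : Space d → ℝ) (a e γ : ℝ) : Prop where
  potential : Potential W a e
  lower : ∀ u, 4 * (γ * ‖u‖ ^ 2) ≤ W u - halfSq d u
  pos : 0 < γ
  small : γ ≤ 1 / 16
  one_le : 1 ≤ a - e

theorem Chain.test_prox (hS : Chain W a e γ) {g : Space d → ℝ} (hg : Test g) :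
    Test (tiltMean W g) := by
  have hP := hS.potential
  refine ⟨?_, fun v => ?_, fun v => ?_⟩
  · have e : tiltMean W g = fun v => (∫ u, g u * Real.exp (-tilt W v u))
        / ∫ u, Real.exp (-tilt W v u) := funext fun v => by
      rw [tiltMean, hP.integral_tilt, integral_div]
    have hc : Continuous fun z : Space d × Space d => Real.exp (-tilt W z.1 z.2) := by
      have := hP.diff.continuous
      unfold tilt; fun_prop
    rw [e]
    exact (((hg.meas.comp measurable_snd).mul hc.measurable).stronglyMeasurable.integral_prod_right').measurable.div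
      (hc.measurable.stronglyMeasurable.integral_prod_right').measurable
  all_goals have := hP.tilt_prob v
  exacts [(hg.integral_mem _).1, (hg.integral_mem _).2]

theorem Chain.test_shift (hS : Chain W a e γ) {g : Space d → ℝ} (hg : Test g) (u : Space d) :
    Test fun ξ => tiltMean W g (u + ξ) :=
  ⟨(hS.test_prox hg).meas.comp (measurable_const_add u), fun _ => (hS.test_prox hg).nonneg _,
    fun _ => (hS.test_prox hg).le_one _⟩

theorem Chain.test_outer (hS : Chain W a e γ) {g : Space d → ℝ} (hg : Test g) :
    Test (chainOp W g) := by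
  refine ⟨?_, fun u => ((hS.test_shift hg u).integral_mem _).1,
    fun u => ((hS.test_shift hg u).integral_mem _).2⟩
  exact (((hS.test_prox hg).meas.comp (f := fun z : Space d × Space d => z.1 + z.2)
    (by fun_prop)).stronglyMeasurable.integral_prod_right').measurable

theorem Chain.outer_mono (hS : Chain W a e γ) {a b ψ : Space d → ℝ} {N : ℝ} (ha : Test a)
    (hb : Test b) (hψ : Test ψ) (h : ∀ y, |a y - b y| ≤ N * ψ y) (u : Space d) :
    |chainOp W a u - chainOp W b u| ≤ N * chainOp W ψ u := by
  have hP := hS.potential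
  have h1 : ∀ v, |tiltMean W a v - tiltMean W b v| ≤ N * tiltMean W ψ v := fun v => by
    have := hP.tilt_prob v
    simp only [tiltMean]
    rw [← integral_const_mul, ← integral_sub (ha.integrable _) (hb.integrable _)]
    exact abs_integral_le_integral_abs.trans (integral_mono
      ((ha.integrable _).sub (hb.integrable _)).abs ((hψ.integrable _).const_mul N) h)
  simp only [chainOp]
  rw [← integral_const_mul, ← integral_sub ((hS.test_shift ha u).integrable _)
    ((hS.test_shift hb u).integrable _)]
  exact abs_integral_le_integral_abs.trans (integral_mono (((hS.test_shift ha u).integrable _).sub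
    ((hS.test_shift hb u).integrable _)).abs (((hS.test_shift hψ u).integrable _).const_mul N)
    fun ξ => h1 _)

theorem Chain.outer_bd (hS : Chain W a e γ) {g : Space d → ℝ} {C : ℝ} (hg : Test g)
    (h : ∀ y, g y ≤ C) (u : Space d) : chainOp W g u ≤ C := by
  have hP := hS.potential
  refine (integral_mono ((hS.test_shift hg u).integrable _) (integrable_const C) fun ξ => ?_).trans
    (le_of_eq (by simp))
  have := hP.tilt_prob (u + ξ)
  exact (integral_mono (hg.integrable _) (integrable_const C) h).trans (le_of_eq (by simp))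

theorem noise_integral (f : Space d → ℝ) :
    ∫ ξ, f ξ ∂noise d
      = ∫ ξ, f ξ * Real.exp (-halfSq d ξ) / ∫ y : Space d, Real.exp (-halfSq d y) := by
  have h := (potential_halfSq (d := d)).integral_tilt 0 f
  simpa [noise, tilt] using h

/-- The invariant law. -/
theorem Chain.outer_invariant (hS : Chain W a e γ) {g : Space d → ℝ} (hg : Test g) :
    ∫ u, chainOp W g u ∂chainLaw W = ∫ u, g u ∂chainLaw W := by
  have hP := hS.potential
  have hWc := hP.diff.continuous
  have hhc : Continuous (halfSq d) := by unfold halfSq; fun_prop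
  have hVl := hS.lower
  set Zu := ∫ u : Space d, Real.exp (-(W u - halfSq d u))
  set Zn := ∫ ξ : Space d, Real.exp (-halfSq d ξ)
  have hlaw : ∀ f : Space d → ℝ,
      ∫ u, f u ∂chainLaw W = (∫ u, f u * Real.exp (-(W u - halfSq d u))) / Zu := fun f => by
    have hm : Measurable fun u : Space d => Real.exp (-(W u - halfSq d u)) / Zu := by fun_prop
    rw [chainLaw, gibbs, integral_withDensity_eq_integral_toReal_smul₀
      hm.ennreal_ofReal.aemeasurable (Filter.Eventually.of_forall fun _ => ENNReal.ofReal_lt_top),
      ← integral_div]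
    refine integral_congr_ae (Filter.Eventually.of_forall fun u => ?_)
    simp only [smul_eq_mul]
    rw [ENNReal.toReal_ofReal (div_nonneg (Real.exp_nonneg _)
      (integral_nonneg fun _ => (Real.exp_pos _).le))]
    ring
  set k := fun u v : Space d => Real.exp (-(W u - halfSq d u)) * Real.exp (-halfSq d (v - u))
  have hγ0 : 0 < γ := hS.pos
  have hkb : ∀ u v : Space d,
      k u v ≤ Real.exp (-γ * ‖u‖ ^ 2) * Real.exp (-γ * ‖v‖ ^ 2) := fun u v => by
    simp only [k, ← Real.exp_add]
    refine Real.exp_le_exp.2 ?_
    have h1 := hVl u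
    simp only [halfSq] at h1 ⊢
    have h2 : ‖v‖ ^ 2 ≤ 2 * ‖v - u‖ ^ 2 + 2 * ‖u‖ ^ 2 := by
      have := norm_add_le (v - u) u
      rw [sub_add_cancel] at this
      nlinarith [norm_nonneg v, sq_nonneg (‖v - u‖ - ‖u‖)]
    have h4 := mul_le_mul_of_nonneg_left h2 hγ0.le
    have h6 : γ * ‖v - u‖ ^ 2 ≤ 1 / 16 * ‖v - u‖ ^ 2 :=
      mul_le_mul_of_nonneg_right hS.small (sq_nonneg _)
    have h7 : 0 ≤ γ * ‖u‖ ^ 2 := by positivity
    nlinarith [sq_nonneg ‖v - u‖]
  have hkc : Continuous fun z : Space d × Space d => k z.1 z.2 := by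
    simp only [k]; fun_prop
  have hkI : ∀ F : Space d × Space d → ℝ, Measurable F → (∀ z, |F z| ≤ 1) →
      Integrable (fun z => F z * k z.1 z.2) ((volume : Measure (Space d)).prod volume) :=
    fun F hF hF1 => ((integrable_gauss hγ0).mul_prod (integrable_gauss hγ0)).mono'
      (hF.mul hkc.measurable).aestronglyMeasurable (Filter.Eventually.of_forall fun z => by
        have hk0 : 0 ≤ k z.1 z.2 := by positivity
        rw [Real.norm_eq_abs, abs_mul, abs_of_nonneg hk0]
        exact (mul_le_of_le_one_left hk0 (hF1 z)).trans (hkb _ _))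
  have hshift : ∀ (f : Space d → ℝ) (u : Space d),
      ∫ ξ, f (u + ξ) ∂noise d = (∫ v, f v * Real.exp (-halfSq d (v - u))) / Zn := fun f u => by
    rw [noise_integral, integral_div]
    refine congrArg (· / Zn) ?_
    rw [← integral_add_left_eq_self (μ := (volume : Measure (Space d)))
      (fun v => f v * Real.exp (-halfSq d (v - u))) u]
    simp
  have hG := hS.test_prox hg
  have hT := hG.norm_le
  have hgn := hg.norm_le
  simp only [Real.norm_eq_abs] at hT hgn
  rw [hlaw, hlaw]
  refine congrArg (· / Zu) ?_
  calc ∫ u, chainOp W g u * Real.exp (-(W u - halfSq d u))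
      = (∫ u, ∫ v, tiltMean W g v * k u v) / Zn := by
        rw [← integral_div]
        refine integral_congr_ae (Filter.Eventually.of_forall fun u => ?_)
        simp only [chainOp, hshift]
        rw [div_mul_eq_mul_div, ← integral_mul_const]
        refine congrArg (· / Zn) (integral_congr_ae (Filter.Eventually.of_forall fun v => ?_))
        simp only [k]; ring
    _ = (∫ v, ∫ u, tiltMean W g v * k u v) / Zn := by
        rw [integral_integral_swap (hkI (fun z => tiltMean W g z.2) (hG.meas.comp measurable_snd)
          fun z => hT _)]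
    _ = (∫ v, ∫ u, g u * k u v) / Zn := by
        refine congrArg (· / Zn) (integral_congr_ae (Filter.Eventually.of_forall fun v => ?_))
        dsimp only
        have e : ∀ u, k u v = Real.exp (-halfSq d v) * Real.exp (-tilt W v u) := fun u => by
          simp only [k, ← Real.exp_add]
          congr 1
          simp only [tilt, halfSq, norm_sub_sq_real]
          ring
        simp only [e, ← mul_assoc, mul_comm (g _) (Real.exp (-halfSq d v))]
        simp only [mul_assoc, integral_const_mul, tiltMean, hP.integral_tilt, integral_div]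
        rw [div_mul_eq_mul_div, mul_comm (∫ _, _) (Real.exp _ * _), mul_assoc, mul_div_assoc,
          mul_div_cancel_left₀ _ (integral_exp_pos (hP.integrable_tilt v)).ne']
    _ = (∫ u, ∫ v, g u * k u v) / Zn := by
        rw [← integral_integral_swap (f := fun u v => g u * k u v)
          (hkI (fun z => g z.1) (hg.meas.comp measurable_fst) fun z => hgn _)]
    _ = ∫ u, g u * Real.exp (-(W u - halfSq d u)) := by
        rw [← integral_div]
        refine integral_congr_ae (Filter.Eventually.of_forall fun u => ?_)
        simp only [k, ← mul_assoc, integral_const_mul]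
        rw [integral_sub_right_eq_self (fun v => Real.exp (-halfSq d v))]
        refine mul_div_cancel_right₀ _ (ne_of_gt (integral_exp_pos ?_))
        simpa [tilt] using (potential_halfSq (d := d)).integrable_tilt 0

/-- Lipschitz functions. -/
def LipE (K : ℝ) (g : Space d → ℝ) : Prop := ∀ x y, |g x - g y| ≤ K * ‖x - y‖

theorem noise_pi (f : Space d → ℝ) (u : Space d) :
    ∫ ξ, f (u + ξ) ∂noise d
      = ∫ p, f (WithLp.toLp 2 p) ∂Measure.pi fun i => siteLaw fun t => t - u i := by
  have e1 : (sumPot fun (_ : Fin d) (t : ℝ) => t) = tilt (halfSq d) 0 := by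
    funext z
    simp only [sumPot, pot, tilt, halfSq, integral_id, inner_zero_left, sub_zero,
      EuclideanSpace.norm_sq_eq, Real.norm_eq_abs, sq_abs]
    rw [sum_div]
    exact sum_congr rfl fun i _ => by ring
  have h := gibbs_sumPot (τ := fun (_ : Fin d) t => t) (fun _ => slope_id) (fun _ => rfl)
    fun ξ => f (u + ξ)
  rw [e1] at h
  rw [noise, h]
  exact site_translate (σ := fun i t => t - u i) (τ := fun (_ : Fin d) t => t)
    (fun i => ⟨by fun_prop, fun x a _ => by linarith, fun x a ha => by linarith⟩)
    (fun _ => slope_id) u.ofLp (fun i t => by ring) fun p => f (WithLp.toLp 2 p)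

theorem Chain.outer_smooth (hS : Chain W a e γ) {g : Space d → ℝ} (hg : Test g) :
    LipE (perturbConst * d) (chainOp W g) := by
  intro x y
  have hG := hS.test_prox hg
  have hT : Test fun p : Fin d → ℝ => tiltMean W g (WithLp.toLp 2 p) :=
    ⟨hG.meas.comp (PiLp.continuous_toLp 2 _).measurable, fun _ => hG.nonneg _,
      fun _ => hG.le_one _⟩
  simp only [chainOp, noise_pi]
  have hsl : ∀ w : Space d, ∀ i, Slope fun t => t - w i := fun w i =>
    ⟨by fun_prop, fun z a _ => by linarith, fun z a ha => by linarith⟩
  refine (site_perturb (hsl x) (hsl y) (c := fun _ => ‖x - y‖) (fun i t => ?_) hT).trans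
    (le_of_eq (by simp; ring))
  have := PiLp.norm_apply_le (x - y) i
  rw [Real.norm_eq_abs, WithLp.ofLp_sub, Pi.sub_apply] at this
  rwa [sub_sub_sub_cancel_left, abs_sub_comm]

theorem Chain.outer_contract (hS : Chain W a e γ) {g : Space d → ℝ} {K : ℝ} (hg : Test g)
    (hK : 0 ≤ K) (hl : LipE K g) : LipE (K / (a - e)) (chainOp W g) := by
  intro x y
  have hP := hS.potential
  simp only [chainOp]
  rw [← integral_sub ((hS.test_shift hg x).integrable _) ((hS.test_shift hg y).integrable _),
    ← Real.norm_eq_abs]
  refine (norm_integral_le_of_norm_le_const (C := K / (a - e) * ‖x - y‖)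
    (Filter.Eventually.of_forall fun ξ => ?_)).trans (le_of_eq (by rw [probReal_univ, mul_one]))
  rw [Real.norm_eq_abs]
  refine (hP.shift (x + ξ) (y + ξ) hg hK hl).trans (le_of_eq ?_)
  rw [add_sub_add_right_eq_sub]
  ring

theorem Chain.outer_iterate (hS : Chain W a e γ) {h : Space d → ℝ} (hh : Test h) :
    ∀ n, LipE (perturbConst * d / (a - e) ^ n) (iterOp (fun _ => chainOp W) (n + 1) h)
  | 0 => by
    rw [pow_zero, div_one]
    exact hS.outer_smooth hh
  | n + 1 => by
    rw [pow_succ, ← div_div]
    exact hS.outer_contract (test_iterOp (fun _ _ hg => hS.test_outer hg) hh _)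
      (div_nonneg (by unfold perturbConst; positivity) (pow_nonneg (by linarith [hS.one_le]) _))
      (hS.outer_iterate hh n)

theorem lipE_far {r : ℝ} (hr : 0 < r) : LipE (1 / r) (far (d := d) r) := by
  intro x y
  refine (abs_min_sub_min_le_max _ _ _ _).trans ?_
  rw [sub_self, abs_zero, max_eq_right (abs_nonneg _), ← sub_div, abs_div, abs_of_pos hr,
    div_mul_eq_mul_div, one_mul]
  exact div_le_div_of_nonneg_right (abs_norm_sub_norm_le x y) hr.le

theorem noise_far {r L : ℝ} (hr : 0 < r) (hL : 0 ≤ L) :
    ∫ ξ, far r ξ ∂noise d ≤ (L + 1) / r + ballTail d L := by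
  have hb := (potential_halfSq (d := d)).block
  have hm := measurableSet_ballSet (E := Space d) L
  have e0 : noise d = gibbs (halfSq d) := congrArg gibbs (funext fun z => by simp [tilt])
  refine (integral_mono ((test_far hr).integrable _)
    ((integrable_const ((L + 1) / r)).add ((integrable_const (1 : ℝ)).indicator hm.compl))
    fun ξ => ?_).trans ?_
  · by_cases hξ : ξ ∈ ballSet (Space d) L
    · simp only [Pi.add_apply, Set.indicator_of_notMem (Set.notMem_compl_iff.2 hξ), add_zero]
      refine (min_le_right _ _).trans (div_le_div_of_nonneg_right ?_ hr.le)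
      have : ‖ξ‖ ^ 2 ≤ L := hξ
      nlinarith [norm_nonneg ξ]
    · simp only [Pi.add_apply, Set.indicator_of_mem (Set.mem_compl hξ)]
      linarith [(test_far hr).le_one ξ, show 0 ≤ (L + 1) / r by positivity]
  · simp only [Pi.add_apply]
    rw [integral_add (integrable_const _) ((integrable_const (1 : ℝ)).indicator hm.compl),
      integral_indicator_const _ hm.compl, probReal_compl_eq_one_sub hm, integral_const,
      probReal_univ, one_smul, smul_eq_mul, mul_one, e0]
    have := gibbs_ball hb (b := d) (le_of_eq finrank_euclideanSpace_fin) L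
    unfold ballTail
    linarith

theorem Chain.law_prob (hS : Chain W a e γ) : IsProbabilityMeasure (chainLaw W) := ⟨by
  have hc : Continuous fun u => W u - halfSq d u := by
    have := hS.potential.diff.continuous
    unfold halfSq; fun_prop
  have hi : Integrable fun u : Space d => Real.exp (-(W u - halfSq d u)) := by
    refine (integrable_gauss hS.pos).mono' (Real.continuous_exp.comp hc.neg).aestronglyMeasurable
      (Filter.Eventually.of_forall fun u => ?_)
    rw [Real.norm_eq_abs, abs_of_pos (Real.exp_pos _), Real.exp_le_exp]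
    have := hS.lower u
    have := mul_nonneg hS.pos.le (sq_nonneg ‖u‖)
    linarith
  have hp := integral_exp_pos hi
  rw [chainLaw, gibbs, withDensity_apply _ MeasurableSet.univ, Measure.restrict_univ,
    ← ofReal_integral_eq_lintegral_ofReal (hi.div_const _)
      (Filter.Eventually.of_forall fun x => div_nonneg (Real.exp_nonneg _) hp.le),
    integral_div, div_self hp.ne', ENNReal.ofReal_one]⟩

/-- **The outer chain.** -/
theorem Chain.outer_close (hS : Chain W a e γ)
    (A : (Space d → ℝ) → Space d → ℝ) (hA : ∀ g, Test g → Test (A g)) {δ r L : ℝ} (hδ0 : 0 ≤ δ)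
    (hδ : δ ≤ 1) (hr : 0 < r) (hL : 0 ≤ L)
    (hclose : ∀ g, Test g → ∀ u, |A g u - chainOp W g u| ≤ δ + far r u)
    {ℓ : ℝ} (hℓ : 0 ≤ ℓ)
    (hmix : ∀ K g, 0 ≤ K → Test g → LipE K g → |g 0 - ∫ u, g u ∂chainLaw W| ≤ K * ℓ + ballTail d L)
    {h : Space d → ℝ} (hh : Test h) (R : ℕ) :
    |iterOp (fun _ => A) (R + 1) h 0 - ∫ u, h u ∂chainLaw W|
      ≤ ((R + 1 : ℕ) : ℝ) * (δ + 2 * (ℓ / r) + 3 * ballTail d L) + 3 * ballTail d L
        + perturbConst * d / (a - e) ^ R * ℓ := by
  have : IsProbabilityMeasure (chainLaw W) := hS.law_prob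
  set T := R + 1
  have h1 := hybrid (K := fun _ => chainOp W) (A := fun _ => A) (μ := chainLaw W)
    (fun _ g hg => hS.test_outer hg) (fun _ g hg => hA g hg)
    (fun _ g hg => hS.outer_invariant hg) (fun _ g C hg hC u => hS.outer_bd hg hC u)
    (fun _ a b ψ N ha hb hψ hd u => hS.outer_mono ha hb hψ hd u) (test_far hr) hδ0 hδ
    (fun _ g hg => hclose g hg) (fun K g => LipE K g) (fun x y => by simp) (κ := 1 / r)
    (by positivity) (fun _ K g N hN hK hg hl => ?_) (x₀ := 0) (ℓ := ℓ)
    (τ := ballTail d L) hmix hh T
  · have h2 := hmix _ _ (div_nonneg (by unfold perturbConst; positivity) (pow_nonneg (by linarith [hS.one_le]) _))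
      (test_iterOp (fun _ _ hg => hS.test_outer hg) hh T) (hS.outer_iterate hh R)
    rw [iterOp_invariant (fun _ g hg => hS.test_outer hg) (fun _ g hg => hS.outer_invariant hg) hh]
      at h2
    have h3 := hmix _ _ (by positivity) (test_far hr) (lipE_far hr)
    rw [show far (d := d) r 0 = 0 by simp [far], zero_sub, abs_neg] at h3
    replace h3 := mul_le_mul_of_nonneg_left ((le_abs_self _).trans h3) (Nat.cast_nonneg (α := ℝ) T)
    rw [one_div_mul_eq_div] at h1 h3
    refine (abs_sub_le _ (iterOp (fun _ => chainOp W) T h 0) _).trans ?_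
    linarith
  · intro x y
    have g1 := div_le_div_of_nonneg_right (lipE_far hr x y) hN.le
    have g2 := hS.outer_contract hg hK hl x y
    have g3 : K / (a - e) * ‖x - y‖ ≤ K * ‖x - y‖ :=
      mul_le_mul_of_nonneg_right (div_le_self hK hS.one_le) (norm_nonneg _)
    rw [show (δ + far r x) / N + chainOp W g x - ((δ + far r y) / N + chainOp W g y)
      = (far r x - far r y) / N + (chainOp W g x - chainOp W g y) by ring]
    refine (abs_add_le _ _).trans
      ((add_le_add (le_of_eq_of_le ?_ g1) (g2.trans g3)).trans (le_of_eq ?_))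
    · rw [abs_div, abs_of_pos hN]
    · ring

end

end P347
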