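import Vale.Agent.P347.Any.Hybrid
import Vale.Agent.P347.Local.Sampler

/-!
# P347: the resampling chain for any number of colours, close to a multiple of the identity

If the Hessian differs from a multiple of the identity by at most `e` with `4 χ e ^ 2 ≤ 1`, one
sweep through the `χ` colours halves the Lipschitz constant in the largest colour distance, however
many colours there are.
-/

namespace P347

open MeasureTheory Finset
open scoped BigOperators RealInnerProductSpace

noncomputable section

variable {d χ : ℕ} {V : Space d → ℝ} {col : Fin d → Fin χ} {a e : ℝ}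

/-- A potential whose gradient differs from a multiple of the identity by an `e`-Lipschitz map. -/
structure Tight (V : Space d → ℝ) (col : Fin d → Fin χ) (a e : ℝ) : Prop where
  model : Model V col
  cross : ∀ z v, ‖gradient V (z + v) - gradient V z - a • v‖ ≤ e * ‖v‖
  big : 1 + e ^ 2 ≤ a ^ 2
  small : 4 * (χ : ℝ) * e ^ 2 ≤ 1

theorem Tight.roots (hT : Tight V col a e) {c : Fin χ} {x x' : Space d} (t t' : Fin d → ℝ)
    (heq : ∀ i, col i = c → slopeAt V col x' i (t' i) = slopeAt V col x i (t i)) :
    colSq col c (fun i => t' i - t i) ≤ e ^ 2 * (‖x' - x‖ ^ 2 - colSq col c (x' - x).ofLp) := by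
  have hM := hT.model
  set z := upd col c t x
  set v := upd col c t' x' - z
  set G := gradient V (z + v) - gradient V z - a • v
  have h1 : colSq col c G ≤ e ^ 2 * ‖v‖ ^ 2 := by
    refine (colSq_le col c G).trans ?_
    rw [← mul_pow]
    exact pow_le_pow_left₀ (norm_nonneg _) (hT.cross z v) 2
  have h2 : colSq col c G = a ^ 2 * colSq col c (fun i => t' i - t i) := by
    simp only [colSq, mul_sum]
    refine sum_congr rfl fun i hi => ?_
    have hi' : col i = c := (mem_filter.1 hi).2
    simp [G, v, z, slope_eq hM hi', heq i hi', hi']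
    ring
  have h3 : ‖v‖ ^ 2 = colSq col c (fun i => t' i - t i)
      + (‖x' - x‖ ^ 2 - colSq col c (x' - x).ofLp) := by
    rw [← sum_colSq col v, ← sum_colSq col (x' - x),
      ← add_sum_erase _ _ (mem_univ c),
      ← add_sum_erase _ (fun c' => colSq col c' (x' - x).ofLp) (mem_univ c), add_sub_cancel_left]
    refine congrArg₂ _ (sum_congr rfl fun i hi => ?_) (sum_congr rfl fun c' hc' => ?_)
    · simp [v, z, (mem_filter.1 hi).2]
    · refine sum_congr rfl fun i hi => ?_
      have : col i ≠ c := (mem_filter.1 hi).2 ▸ ne_of_mem_erase hc'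
      simp [v, z, this]
  have h4 : 0 ≤ colSq col c (fun i => t' i - t i) := sum_nonneg fun i _ => sq_nonneg _
  rw [h2, h3] at h1
  have := mul_le_mul_of_nonneg_right hT.big h4
  nlinarith

/-- The colour used at a step. -/
def colourAt (χ : ℕ) [NeZero χ] (n : ℕ) : Fin χ := ⟨n % χ, Nat.mod_lt _ (NeZero.pos χ)⟩

/-- Lipschitz in the largest colour distance, the first `j` colours counted a quarter. -/
def LipC (col : Fin d → Fin χ) (j : ℕ) (K : ℝ) (g : Space d → ℝ) : Prop :=
  ∀ x x' : Space d, ∀ B : ℝ, 0 ≤ B →
    (∀ c : Fin χ, colSq col c (x' - x).ofLp ≤ 4 * B ^ 2) →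
    (∀ c : Fin χ, j ≤ (c : ℕ) → colSq col c (x' - x).ofLp ≤ B ^ 2) → |g x' - g x| ≤ K * B

theorem Tight.coupled (hT : Tight V col a e) (c : Fin χ) {g : Space d → ℝ} (hg : Test g)
    (x x' : Space d) {C M : ℝ} (hM0 : 0 ≤ M) (hM' : ∀ c', c' ≠ c → colSq col c' (x' - x).ofLp ≤ M)
    (hC : ∀ y y' : Space d, colSq col c (y' - y).ofLp ≤ M / 4 →
      (∀ c', c' ≠ c → colSq col c' (y' - y).ofLp = colSq col c' (x' - x).ofLp) →
      |g y' - g y| ≤ C) :
    |kern V col c g x' - kern V col c g x| ≤ C := by
  have hM := hT.model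
  rw [kern_quantile hM c hg, kern_quantile hM c hg]
  set q := fun (y : Space d) (u : Fin d → ℝ) i => quantile (siteLaw (condSlope V col c y i)) (u i)
  have hint : ∀ y, Integrable (fun u => g (upd col c (q y u) y))
      (Measure.pi fun _ : Fin d => openUnif) := fun y =>
    Test.integrable ⟨(test_comp_upd hg col c y).meas.comp (measurable_pi_lambda _ fun i =>
      (measurable_quantile _).comp (measurable_pi_apply i)), fun _ => hg.nonneg _,
      fun _ => hg.le_one _⟩ _
  rw [← integral_sub (hint x') (hint x), ← Real.norm_eq_abs]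
  refine (norm_integral_le_of_norm_le_const (C := C) ?_).trans
    (le_of_eq (by rw [probReal_univ, mul_one]))
  filter_upwards [openUnif_ae d] with u hu
  rw [Real.norm_eq_abs]
  refine hC _ _ ?_ fun c' hc' => sum_congr rfl fun i hi => by
    have : col i ≠ c := (mem_filter.1 hi).2 ▸ hc'
    simp [this]
  have h0 : colSq col c (upd col c (q x' u) x' - upd col c (q x u) x).ofLp
      = colSq col c (fun i => q x' u i - q x u i) :=
    sum_congr rfl fun i hi => by simp [(mem_filter.1 hi).2]
  rw [h0]
  refine (quantile_coupling_of hM c x x' hu fun t t' h => hT.roots t t' h).trans ?_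
  have h2 : ‖x' - x‖ ^ 2 - colSq col c (x' - x).ofLp ≤ χ * M := by
    rw [← sum_colSq col, ← add_sum_erase _ _ (mem_univ c), add_sub_cancel_left]
    refine (sum_le_card_nsmul _ _ M fun c' hc' => hM' c' (ne_of_mem_erase hc')).trans ?_
    rw [card_erase_of_mem (mem_univ c), card_univ, Fintype.card_fin, nsmul_eq_mul]
    exact mul_le_mul_of_nonneg_right (by exact_mod_cast Nat.sub_le χ 1) hM0
  refine (mul_le_mul_of_nonneg_left h2 (sq_nonneg e)).trans ?_
  nlinarith [mul_le_mul_of_nonneg_right hT.small hM0]

theorem LipC.step (hT : Tight V col a e) {j : ℕ} {K : ℝ} {g : Space d → ℝ} (hg : Test g)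
    (hl : LipC col j K g) (hj : j < χ) : LipC col (j + 1) K (kern V col ⟨j, hj⟩ g) := by
  intro x x' B hB h4 hge
  set c : Fin χ := ⟨j, hj⟩
  refine hT.coupled c hg x x' (M := 4 * B ^ 2) (by positivity) (fun c' _ => h4 c')
    fun y y' hy hyo => hl y y' B hB (fun c' => ?_) fun c' hc' => ?_
  · by_cases h : c' = c
    · rw [h]; linarith [sq_nonneg B]
    · rw [hyo c' h]; exact h4 c'
  · by_cases h : c' = c
    · rw [h]; linarith
    · rw [hyo c' h]
      exact hge c' (by
        have : (c' : ℕ) ≠ j := fun eq => h (Fin.ext eq)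
        omega)

theorem LipC.drop {K : ℝ} {g : Space d → ℝ} (hl : LipC col χ K g) : LipC col 0 (K / 2) g := by
  intro x x' B hB _ hge
  rw [div_mul_eq_mul_div, ← mul_div_assoc']
  refine hl x x' _ (by positivity) (fun c => ?_) fun c hc => absurd hc (by omega)
  rw [div_pow]
  linarith [hge c (Nat.zero_le _)]

theorem LipC.any (hT : Tight V col a e) {K : ℝ} {g : Space d → ℝ} (hg : Test g)
    (hl : LipC col 0 K g) (c : Fin χ) : LipC col 0 K (kern V col c g) := by
  intro x x' B hB _ hge
  refine hT.coupled c hg x x' (M := B ^ 2) (sq_nonneg B) (fun c' _ => hge c' (Nat.zero_le _))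
    fun y y' hy hyo => ?_
  have hall : ∀ c', colSq col c' (y' - y).ofLp ≤ B ^ 2 := fun c' => by
    by_cases h : c' = c
    · rw [h]; linarith [sq_nonneg B]
    · rw [hyo c' h]; exact hge c' (Nat.zero_le _)
  exact hl y y' B hB (fun c' => by linarith [hall c', sq_nonneg B]) fun c' _ => hall c'

theorem norm_le_colours [NeZero χ] {x : Space d} {B : ℝ} (hB : 0 ≤ B)
    (h : ∀ c, colSq col c x.ofLp ≤ B ^ 2) : ‖x‖ ≤ χ * B := by
  have h1 : (1 : ℝ) ≤ χ := by exact_mod_cast NeZero.one_le
  refine le_of_pow_le_pow_left₀ two_ne_zero (by positivity) ?_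
  rw [← sum_colSq col]
  refine (sum_le_card_nsmul _ _ (B ^ 2) fun c _ => h c).trans ?_
  rw [card_univ, Fintype.card_fin, nsmul_eq_mul, mul_pow, sq (χ : ℝ)]
  exact mul_le_mul_of_nonneg_right (le_mul_of_one_le_left (Nat.cast_nonneg χ) h1) (sq_nonneg B)

variable [NeZero χ]

/-- The exact chain. -/
def sweepKern (V : Space d → ℝ) (col : Fin d → Fin χ) (n : ℕ) (g : Space d → ℝ) : Space d → ℝ :=
  kern V col (colourAt χ n) g

theorem smooth_any (hM : Model V col) {h : Space d → ℝ} (hh : Test h) :
    ∀ n, n ≤ χ → ∀ x x' : Space d, (∀ k, n ≤ (col k : ℕ) → x k = x' k) →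
      |iterOp (sweepKern V col) n h x - iterOp (sweepKern V col) n h x'|
        ≤ n * (perturbConst * (2 * d)) * ‖x - x'‖
  | 0, _, x, x', hag => by
    rw [show x = x' from PiLp.ext fun k => hag k (Nat.zero_le _)]
    simp
  | n + 1, hn, x, x', hag => by
    set g := iterOp (sweepKern V col) n h
    have hg : Test g := test_iterOp (fun _ _ => test_kern hM _) hh n
    have hcn : (colourAt χ n : ℕ) = n := Nat.mod_eq_of_lt (by omega)
    set c := colourAt χ n
    have := condLaw_prob hM c x'
    have h1 := site_perturb (fun i => slope_cond hM c x i) (fun i => slope_cond hM c x' i)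
      (c := fun _ => 2 * ‖x - x'‖) (fun i t => slope_lipschitz hM c x x' i t)
      (test_comp_upd hg col c x)
    have h2 : |∫ s, g (upd col c s x) ∂condLaw V col c x'
        - ∫ s, g (upd col c s x') ∂condLaw V col c x'|
        ≤ n * (perturbConst * (2 * d)) * ‖x - x'‖ := by
      rw [← integral_sub ((test_comp_upd hg col c x).integrable _)
        ((test_comp_upd hg col c x').integrable _), ← Real.norm_eq_abs]
      refine (norm_integral_le_of_norm_le_const (Filter.Eventually.of_forall fun s => ?_)).trans
        (le_of_eq (by rw [probReal_univ, mul_one]))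
      refine (smooth_any hM hh n (by omega) _ _ fun k hk => ?_).trans
        (mul_le_mul_of_nonneg_left (norm_le_of_coords fun k => ?_)
          (mul_nonneg n.cast_nonneg (mul_nonneg (by unfold perturbConst; positivity) (by positivity))))
      · by_cases hkc : col k = c
        · simp [hkc]
        · have : (col k : ℕ) ≠ n := fun eq => hkc (Fin.ext (by omega))
          simp [hkc, hag k (by omega)]
      · by_cases hkc : col k = c <;> simp [hkc]
    simp only [sum_const, card_univ, Fintype.card_fin, nsmul_eq_mul] at h1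
    refine (abs_sub_le (∫ s, g (upd col c s x) ∂condLaw V col c x)
      (∫ s, g (upd col c s x) ∂condLaw V col c x')
      (∫ s, g (upd col c s x') ∂condLaw V col c x')).trans ?_
    calc _ ≤ perturbConst * ((d : ℝ) * (2 * ‖x - x'‖))
          + n * (perturbConst * (2 * d)) * ‖x - x'‖ := add_le_add h1 h2
      _ = _ := by push_cast; ring

/-- The Lipschitz constant after one smoothing sweep. -/
def sweepConst (d χ : ℕ) : ℝ := χ * χ * (perturbConst * (2 * d))

omit [NeZero χ] in
theorem sweepConst_nonneg (d χ : ℕ) : 0 ≤ sweepConst d χ := by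
  unfold sweepConst perturbConst; positivity

theorem sweep_contract (hT : Tight V col a e) {h : Space d → ℝ} (hh : Test h) :
    ∀ k, LipC col 0 (sweepConst d χ / 2 ^ k) (iterOp (sweepKern V col) (χ * (k + 1)) h)
  | 0 => by
    intro x x' B hB _ hge
    rw [Nat.zero_add, Nat.mul_one]
    have h1 := smooth_any hT.model hh χ le_rfl x' x fun k hk => absurd hk (by omega)
    refine h1.trans ?_
    have := norm_le_colours (x := x' - x) hB fun c => hge c (Nat.zero_le _)
    calc _ ≤ (χ : ℝ) * (perturbConst * (2 * d)) * (χ * B) :=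
          mul_le_mul_of_nonneg_left this (by unfold perturbConst; positivity)
      _ = _ := by unfold sweepConst; ring
  | k + 1 => by
    have hstep : ∀ j, j ≤ χ → LipC col j (sweepConst d χ / 2 ^ k)
        (iterOp (sweepKern V col) (χ * (k + 1) + j) h) := by
      intro j
      induction j with
      | zero => exact fun _ => sweep_contract hT hh k
      | succ j ih =>
        intro hj
        rw [← Nat.add_assoc]
        have he : colourAt χ (χ * (k + 1) + j) = ⟨j, by omega⟩ := Fin.ext (by
          simp only [colourAt, Nat.mul_add_mod]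
          exact Nat.mod_eq_of_lt (by omega))
        show LipC col (j + 1) _ (kern V col (colourAt χ _) _)
        rw [he]
        exact (ih (by omega)).step hT (test_iterOp (fun _ _ => test_kern hT.model _) hh _) _
    have := (hstep χ le_rfl).drop
    rw [pow_succ, ← div_div, show χ * (k + 1 + 1) = χ * (k + 1) + χ by ring]
    exact this

theorem mix_colours (hM : Model V col) {g : Space d → ℝ} (hg : Test g) {K L : ℝ} (hK : 0 ≤ K)
    (hL : 0 ≤ L) (hl : LipC col 0 K g) :
    |g 0 - ∫ x, g x ∂gibbs V| ≤ K * (L + 1) + ballTail d L := by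
  have : IsProbabilityMeasure (gibbs V) := ⟨gibbs_univ hM.block⟩
  have hm := measurableSet_ballSet (E := Space d) L
  have hbd : ∀ x, |g 0 - g x| ≤ K * (L + 1) + (ballSet (Space d) L)ᶜ.indicator 1 x := by
    intro x
    by_cases hx : x ∈ ballSet (Space d) L
    · rw [Set.indicator_of_notMem (by simpa using hx), add_zero]
      have hcol : ∀ c, colSq col c (0 - x).ofLp ≤ (L + 1) ^ 2 := fun c => by
        refine (colSq_le col c _).trans ?_
        rw [zero_sub, norm_neg]
        have : ‖x‖ ^ 2 ≤ L := hx
        nlinarith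
      exact hl x 0 (L + 1) (by linarith) (fun c => by linarith [hcol c, sq_nonneg (L + 1)])
        fun c _ => hcol c
    · rw [Set.indicator_of_mem (by simpa using hx), Pi.one_apply]
      have : 0 ≤ K * (L + 1) := by positivity
      rw [abs_le]
      constructor <;> linarith [hg.nonneg 0, hg.le_one 0, hg.nonneg x, hg.le_one x]
  calc |g 0 - ∫ x, g x ∂gibbs V| = |∫ x, (g 0 - g x) ∂gibbs V| := by
        rw [integral_sub (integrable_const _) (hg.integrable _)]; simp
    _ ≤ ∫ x, (K * (L + 1) + (ballSet (Space d) L)ᶜ.indicator 1 x) ∂gibbs V :=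
        abs_integral_le_integral_abs.trans (integral_mono ((integrable_const _).sub
          (hg.integrable _)).abs ((integrable_const _).add ((integrable_const 1).indicator hm.compl))
          hbd)
    _ = K * (L + 1) + (gibbs V).real (ballSet (Space d) L)ᶜ := by
        rw [show (fun x : Space d => K * (L + 1) + (ballSet (Space d) L)ᶜ.indicator 1 x)
            = fun x => K * (L + 1) + (ballSet (Space d) L)ᶜ.indicator (fun _ => (1 : ℝ)) x from rfl,
          integral_add (integrable_const _) ((integrable_const (1 : ℝ)).indicator hm.compl),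
          integral_indicator_const _ hm.compl]
        simp
    _ ≤ _ := by
        rw [probReal_compl_eq_one_sub hm]
        have := gibbs_ball hM.block (b := d) (le_of_eq finrank_euclideanSpace_fin) L
        unfold ballTail
        linarith

theorem lipC_far {r : ℝ} (hr : 0 < r) : LipC col 0 (χ / r) (far (d := d) r) := by
  intro x x' B hB _ hge
  have h3 := norm_le_colours (x := x' - x) hB fun c => hge c (Nat.zero_le _)
  refine (abs_min_sub_min_le_max _ _ _ _).trans ?_
  rw [sub_self, abs_zero, max_eq_right (abs_nonneg _), ← sub_div, abs_div, abs_of_pos hr,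
    div_mul_eq_mul_div]
  exact div_le_div_of_nonneg_right ((abs_norm_sub_norm_le _ _).trans h3) hr.le

theorem far_mean_colours (hM : Model V col) {r L : ℝ} (hr : 0 < r) (hL : 0 ≤ L) :
    ∫ x, far r x ∂gibbs V ≤ χ / r * (L + 1) + ballTail d L := by
  have := mix_colours hM (test_far hr) (by positivity) hL (lipC_far (col := col) hr)
  have h0 : far (d := d) r 0 = 0 := by simp [far]
  rw [h0, zero_sub, abs_neg] at this
  exact (le_abs_self _).trans this

/-- **The inner chain.** -/
theorem inner_close (hT : Tight V col a e) (A : ℕ → (Space d → ℝ) → Space d → ℝ)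
    (hA : ∀ n g, Test g → Test (A n g)) {δ r L : ℝ} (hδ0 : 0 ≤ δ) (hδ : δ ≤ 1) (hr : 0 < r)
    (hL : 0 ≤ L)
    (hclose : ∀ n g, Test g → ∀ x, |A n g x - sweepKern V col n g x| ≤ δ + far r x)
    {h : Space d → ℝ} (hh : Test h) (R : ℕ) :
    |iterOp A (χ * (R + 1)) h 0 - ∫ x, h x ∂gibbs V|
      ≤ ((χ * (R + 1) : ℕ) : ℝ) * (δ + 2 * (χ / r * (L + 1)) + 3 * ballTail d L)
        + 3 * ballTail d L + sweepConst d χ / 2 ^ R * (L + 1) := by
  have hM := hT.model
  have : IsProbabilityMeasure (gibbs V) := ⟨gibbs_univ hM.block⟩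
  set T := χ * (R + 1)
  have h1 := hybrid (K := sweepKern V col) (A := A) (μ := gibbs V)
    (fun n g hg => test_kern hM _ hg) hA (fun n g hg => kern_invariant hM _ hg)
    (fun n g C hg hC x => ?_) (fun n f g ψ N hf hg hψ hd x => ?_) (test_far hr) hδ0 hδ hclose
    (fun K g => LipC col 0 K g) (fun x x' B _ _ _ => by simp) (κ := χ / r) (by positivity)
    (fun n K g N hN hK hg hl => ?_) (x₀ := 0) (ℓ := L + 1) (τ := ballTail d L)
    (fun K g hK hg hl => mix_colours hM hg hK hL hl) hh T
  · have h2 := mix_colours hM (test_iterOp (fun n g hg => test_kern hM _ hg) hh T)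
      (div_nonneg (sweepConst_nonneg d χ) (by positivity)) hL (sweep_contract hT hh R)
    rw [iterOp_invariant (fun n g hg => test_kern hM _ hg)
      (fun n g hg => kern_invariant hM _ hg) hh] at h2
    have h3 := mul_le_mul_of_nonneg_left (far_mean_colours (col := col) hM hr hL)
      (Nat.cast_nonneg (α := ℝ) T)
    replace h2 : |iterOp (sweepKern V col) T h 0 - ∫ x, h x ∂gibbs V|
        ≤ sweepConst d χ / 2 ^ R * (L + 1) + ballTail d L := h2
    refine (abs_sub_le _ (iterOp (sweepKern V col) T h 0) _).trans ?_
    linarith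
  · have := condLaw_prob hM (colourAt χ n) x
    refine (integral_mono ((test_comp_upd hg col _ x).integrable _) (integrable_const C)
      fun s => hC _).trans ?_
    simp
  · have := condLaw_prob hM (colourAt χ n) x
    simp only [sweepKern, kern]
    rw [← integral_const_mul, ← integral_sub ((test_comp_upd hf col _ x).integrable _)
      ((test_comp_upd hg col _ x).integrable _)]
    exact abs_integral_le_integral_abs.trans (integral_mono
      (((test_comp_upd hf col _ x).integrable _).sub ((test_comp_upd hg col _ x).integrable _)).abs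
      (((test_comp_upd hψ col _ x).integrable _).const_mul N) fun s => hd _)
  · intro x x' B hB h4 hge
    have g1 := div_le_div_of_nonneg_right (lipC_far (col := col) hr x x' B hB h4 hge) hN.le
    have g2 := hl.any hT hg (colourAt χ n) x x' B hB h4 hge
    simp only [sweepKern]
    rw [show (δ + far r x') / N + kern V col (colourAt χ n) g x'
        - ((δ + far r x) / N + kern V col (colourAt χ n) g x)
      = (far r x' - far r x) / N
        + (kern V col (colourAt χ n) g x' - kern V col (colourAt χ n) g x) by ring]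
    refine (abs_add_le _ _).trans ((add_le_add (le_of_eq_of_le ?_ g1) g2).trans (le_of_eq ?_))
    · rw [abs_div, abs_of_pos hN]
    · ring

end

end P347
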