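import Vale.Agent.P347.Any.Contract

/-!
# P347: the inner chain as a procedure
-/

namespace P347

open MeasureTheory Finset
open scoped BigOperators RealInnerProductSpace

noncomputable section

variable {d χ : ℕ} (col : Fin d → Fin χ) (G : ℕ) {J K : ℕ}

/-- The oracle of a potential. -/
def oracle (V : Space d → ℝ) (u : Space d) : Reply d := (V u, gradient V u)

/-- Gradient descent on one colour. -/
def descendAlg (c : Fin χ) : ℕ → Alg d (Space d) (Fin d → ℝ)
  | 0 => Alg.pure d fun _ => 0
  | n + 1 => (descendAlg c n).seq ((Alg.many fun z (_ : Fin 1) => upd col c z.2 z.1).seq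
      (Alg.pure d fun z => descendStep (z.2 0).2 z.1.2))

theorem descendAlg_size (c : Fin χ) : ∀ n, (descendAlg col c n).size = n
  | 0 => rfl
  | n + 1 => by simp [descendAlg, Alg.seq, Alg.many, Alg.pure, descendAlg_size c n]

theorem descendAlg_eval (V : Space d → ℝ) (c : Fin χ) (x : Space d) :
    ∀ n, (descendAlg col c n).eval (oracle V) x = descend V col c x n
  | 0 => rfl
  | n + 1 => by
    rw [descendAlg, Alg.seq_eval, descendAlg_eval V c x n, Alg.seq_eval, Alg.many_eval,
      Alg.pure_eval]
    rfl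

theorem descendAlg_meas (c : Fin χ) : ∀ n, (descendAlg col c n).Meas
  | 0 => Alg.pure_meas measurable_const
  | n + 1 => Alg.seq_meas (descendAlg_meas c n) (Alg.seq_meas
      (Alg.many_meas (measurable_pi_lambda _ fun _ => (continuous_upd col c).measurable.comp
        (measurable_snd.prodMk measurable_fst)))
      (Alg.pure_meas (by unfold descendStep; fun_prop)))

/-- One colour step. -/
def colourAlg (c : Fin χ) : Alg d (StepSeed d J K × Space d) (Space d) :=
  ((descendAlg col c G).comap Prod.snd).seq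
    ((Alg.many fun z (_ : Fin 1) => upd col c z.2 z.1.2).seq
      ((Alg.many fun z n => samplePoint col c z.1.1.2 z.1.2 z.1.1.1 n).seq
        (Alg.pure d fun z => stepOut col c z.1.1.1.2 z.1.1.2 (z.1.2 0).2 z.1.1.1.1 z.2)))

theorem colourAlg_size (c : Fin χ) :
    (colourAlg col G c (J := J) (K := K)).size = G + 1 + J * K := by
  simp [colourAlg, Alg.seq, Alg.comap, Alg.many, Alg.pure, descendAlg_size, Nat.add_assoc]

theorem colourAlg_eval (V : Space d → ℝ) (c : Fin χ) (w : StepSeed d J K) (x : Space d) :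
    (colourAlg col G c).eval (oracle V) (w, x) = stepMap V col G c w x := by
  rw [colourAlg, Alg.seq_eval, Alg.comap_eval, descendAlg_eval, Alg.seq_eval, Alg.many_eval,
    Alg.seq_eval, Alg.many_eval, Alg.pure_eval]
  rfl

theorem colourAlg_meas (c : Fin χ) : (colourAlg col G c (J := J) (K := K)).Meas := by
  refine Alg.seq_meas (Alg.comap_meas (descendAlg_meas col c G) measurable_snd) (Alg.seq_meas
    (Alg.many_meas (measurable_pi_lambda _ fun _ => (continuous_upd col c).measurable.comp
      (measurable_snd.prodMk (measurable_snd.comp measurable_fst))))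
    (Alg.seq_meas (Alg.many_meas (measurable_pi_lambda _ fun n => ?_)) (Alg.pure_meas ?_)))
  · exact (measurable_samplePoint (col := col) c n).comp
      (f := fun z : ((StepSeed d J K × Space d) × (Fin d → ℝ)) × (Fin 1 → Reply d) =>
        (z.1.1.2, z.1.2, z.1.1.1)) (by fun_prop)
  · exact (measurable_stepOut (col := col) c).comp
      (f := fun z : (((StepSeed d J K × Space d) × (Fin d → ℝ)) × (Fin 1 → Reply d)) ×
          (Fin (J * K) → Reply d) =>
        (z.1.1.1.2, z.1.1.2, (z.1.2 0).2, z.1.1.1.1, z.2)) (by fun_prop)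

variable [NeZero χ]

/-- The inner chain, started at the centre. -/
def innerAlg (T : ℕ) : Alg d (Fin T → StepSeed d J K) (Space d) :=
  (Alg.loop (fun n => colourAlg col G (colourAt χ n)) T).comap fun ω => (ω, 0)

theorem innerAlg_size (T : ℕ) :
    (innerAlg col G (J := J) (K := K) T).size = T * (G + 1 + J * K) := by
  simp only [innerAlg, Alg.comap]
  exact Alg.loop_size (fun n => colourAlg_size col G _) T

theorem innerAlg_meas (T : ℕ) : (innerAlg col G (J := J) (K := K) T).Meas :=
  Alg.comap_meas (Alg.loop_meas (fun n => colourAlg_meas col G _) T)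
    (measurable_id.prodMk measurable_const)

variable {col G} {V : Space d → ℝ} {a e : ℝ}

/-- **The inner chain from queries.** -/
theorem innerAlg_close (hT : Tight V col a e) {L₀ δ L r : ℝ} (hδ0 : 0 ≤ δ) (hδ : δ ≤ 1 / 4)
    (hK : Real.exp (3 * L₀) ≤ δ * 2 ^ K) (hL₀ : 2 ^ 1 * Real.exp (-L₀ / 4) ≤ δ)
    (hJ : Real.exp (-((J : ℝ) / 2 ^ (1 + 1))) ≤ δ) (hr : 0 < r) (hL : 0 ≤ L)
    (hE : 3 * d * δ + perturbConst * (d * ((1 / 3) ^ G * (2 * r))) ≤ 1)
    {h : Space d → ℝ} (hh : Test h) (R : ℕ) :
    |∫ ω, h ((innerAlg col G (χ * (R + 1))).eval (oracle V) ω)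
          ∂(Measure.pi fun _ : Fin (χ * (R + 1)) => stepLaw d J K) - ∫ x, h x ∂gibbs V|
      ≤ ((χ * (R + 1) : ℕ) : ℝ) * (3 * d * δ + perturbConst * (d * ((1 / 3) ^ G * (2 * r)))
          + 2 * (χ / r * (L + 1)) + 3 * ballTail d L)
        + 3 * ballTail d L + sweepConst d χ / 2 ^ R * (L + 1) := by
  have hM := hT.model
  have hc0 : 0 ≤ perturbConst := by unfold perturbConst; positivity
  have e1 : ∀ ω : Fin (χ * (R + 1)) → StepSeed d J K,
      (innerAlg col G (χ * (R + 1))).eval (oracle V) ω
        = loopFold (fun k w y => stepMap V col G (colourAt χ k) w y) (χ * (R + 1)) ω 0 := fun ω => by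
    rw [innerAlg, Alg.comap_eval, Alg.loop_eval]
    simp only [colourAlg_eval]
  simp only [e1]
  rw [integral_loopFold (fun n => (measurable_stepMap hM G (colourAt χ n)).comp
    (f := fun z : StepSeed d J K × Space d => (z.2, z.1)) (by fun_prop)) hh]
  refine inner_close hT (fun n => stepKern V col G J K (colourAt χ n))
    (fun n g hg => test_stepKern hM G J K _ hg) (by positivity) hE hr hL (fun n g hg x => ?_) hh R
  by_cases hx : r ≤ ‖x‖
  · have hfar : far r x = 1 := min_eq_left ((one_le_div hr).2 hx)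
    have u := test_stepKern hM G J K (colourAt χ n) hg
    have v := test_kern hM (colourAt χ n) hg
    have : 0 ≤ 3 * d * δ + perturbConst * (d * ((1 / 3) ^ G * (2 * r))) := by positivity
    rw [hfar, abs_le, sweepKern]
    constructor <;> linarith [u.nonneg x, u.le_one x, v.nonneg x, v.le_one x]
  · refine (step_close hM _ hδ0 hδ hK hL₀ hJ hg x).trans ?_
    have := (test_far (d := d) hr).nonneg x
    have h2 : perturbConst * (d * ((1 / 3) ^ G * (2 * ‖x‖)))
        ≤ perturbConst * (d * ((1 / 3) ^ G * (2 * r))) := by gcongr; linarith [not_le.1 hx]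
    linarith

end

end P347
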