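import Vale.Agent.P347.Any.Alg
import Vale.Agent.P347.Any.Step

/-!
# P347: constant interactions inside a colour

When the mixed partials inside each colour are constants, a fixed block diagonal operator removes
them, and this operator is applied to a vector from logarithmically many gradient pairs per colour.
-/

namespace P347

open MeasureTheory Finset
open scoped BigOperators RealInnerProductSpace

noncomputable section

variable {d χ : ℕ} {V : Space d → ℝ} {col : Fin d → Fin χ}

/-- The class: same-colour mixed partials are constant. -/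
structure Frozen (V : Space d → ℝ) (col : Fin d → Fin χ) : Prop where
  smooth : ContDiff ℝ 2 V
  zero : V 0 = 0
  crit : gradient V 0 = 0
  hess : ∀ x h : Space d, ‖h‖ ^ 2 ≤ iteratedFDeriv ℝ 2 V x ![h, h] ∧
    iteratedFDeriv ℝ 2 V x ![h, h] ≤ 2 * ‖h‖ ^ 2
  frozen : ∀ x i k, i ≠ k → col i = col k →
    iteratedFDeriv ℝ 2 V x ![EuclideanSpace.single i 1, EuclideanSpace.single k 1]
      = iteratedFDeriv ℝ 2 V 0 ![EuclideanSpace.single i 1, EuclideanSpace.single k 1]

/-- Constant mixed partials inside colours, symmetrised difference quotients on the diagonal. -/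
def blockMat (V : Space d → ℝ) (col : Fin d → Fin χ) (i k : Fin d) : ℝ :=
  if col i = col k then
    if i = k then
      (gradient V (EuclideanSpace.single i (1 : ℝ)) i
        - gradient V (EuclideanSpace.single i (-1 : ℝ)) i) / 2
    else iteratedFDeriv ℝ 2 V 0 ![EuclideanSpace.single i 1, EuclideanSpace.single k 1]
  else 0

/-- The block operator. -/
def blockOp (V : Space d → ℝ) (col : Fin d → Fin χ) : Space d →L[ℝ] Space d :=
  Matrix.toEuclideanCLM (𝕜 := ℝ) (Matrix.of (blockMat V col))

/-- Keep one colour. -/
def onColour (col : Fin d → Fin χ) (c : Fin χ) (v : Space d) : Space d :=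
  WithLp.toLp 2 fun i => if col i = c then v i else 0

@[simp] theorem onColour_apply (c : Fin χ) (v : Space d) (i : Fin d) :
    onColour col c v i = if col i = c then v i else 0 := rfl

/-- The other coordinates of the colour of a coordinate. -/
def mates (col : Fin d → Fin χ) (i : Fin d) : Finset (Fin d) :=
  univ.filter fun k => k ≠ i ∧ col k = col i

theorem mem_mates {i k : Fin d} : k ∈ mates col i ↔ k ≠ i ∧ col k = col i := by simp [mates]

theorem space_sum_apply {ι : Type} (s : Finset ι) (f : ι → Space d) (i : Fin d) :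
    (∑ b ∈ s, f b) i = ∑ b ∈ s, f b i :=
  map_sum (EuclideanSpace.proj (𝕜 := ℝ) i) f s

theorem sum_colour (i : Fin d) (a : Fin d → ℝ) :
    (∑ k, if col k = col i then a k else 0) = a i + ∑ k ∈ mates col i, a k := by
  rw [← Finset.add_sum_erase univ _ (mem_univ i), if_pos rfl, ← sum_filter]
  congr 2
  ext k
  simp [mates]

theorem onColour_decomp (c : Fin χ) (v : Space d) :
    onColour col c v = ∑ k, (if col k = c then v k else 0) • EuclideanSpace.single k (1 : ℝ) := by
  ext j
  rw [space_sum_apply, sum_eq_single j]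
  · rw [onColour_apply, PiLp.smul_apply]; simp
  · intro k _ hk
    rw [PiLp.smul_apply]; simp [Ne.symm hk]
  · simp

theorem gradient_apply_eq (V : Space d → ℝ) (x : Space d) (i : Fin d) :
    gradient V x i = fderiv ℝ V x (EuclideanSpace.single i 1) := by
  rw [← inner_gradient, EuclideanSpace.inner_single_right]
  simp

theorem blockOp_apply (V : Space d → ℝ) (col : Fin d → Fin χ) (v : Space d) (i : Fin d) :
    blockOp V col v i = ∑ k, blockMat V col i k * v k := rfl

theorem blockMat_far {i k : Fin d} (h : col i ≠ col k) : blockMat V col i k = 0 := if_neg h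

theorem blockOp_row (v : Space d) (i : Fin d) :
    blockOp V col v i = blockMat V col i i * v i + ∑ k ∈ mates col i, blockMat V col i k * v k := by
  rw [blockOp_apply, ← sum_colour i fun k => blockMat V col i k * v k]
  refine sum_congr rfl fun k _ => ?_
  split_ifs with h
  · rfl
  · rw [blockMat_far (fun e => h e.symm), zero_mul]

theorem blockOp_local {v w : Space d} {i : Fin d} (h : ∀ k, col k = col i → v k = w k) :
    blockOp V col v i = blockOp V col w i := by
  rw [blockOp_row, blockOp_row, h i rfl]
  congr 1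
  exact sum_congr rfl fun k hk => by rw [h k (mem_mates.1 hk).2]

namespace Frozen

theorem hess_eq (hF : Frozen V col) (x : Space d) {i k : Fin d} (hik : i ≠ k) (hc : col i = col k) :
    fderiv ℝ (fderiv ℝ V) x (EuclideanSpace.single i 1) (EuclideanSpace.single k 1)
      = blockMat V col i k := by
  rw [blockMat, if_pos hc, if_neg hik, ← hF.frozen x i k hik hc, iteratedFDeriv_two_apply]
  simp

theorem blockMat_symm (hF : Frozen V col) (i k : Fin d) : blockMat V col i k = blockMat V col k i := by
  by_cases hc : col i = col k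
  · rcases eq_or_ne i k with rfl | hik
    · rfl
    · rw [← hF.hess_eq 0 hik hc, ← hF.hess_eq 0 hik.symm hc.symm]
      exact (hF.smooth.contDiffAt.isSymmSndFDerivAt (by simp)).eq _ _
  · rw [blockMat_far hc, blockMat_far (Ne.symm hc)]

theorem gradient_add_single (hF : Frozen V col) (x : Space d) {i k : Fin d} (hki : k ≠ i)
    (hc : col k = col i) (s : ℝ) :
    gradient V (x + EuclideanSpace.single k s) i = gradient V x i + s * blockMat V col i k := by
  obtain ⟨c, h⟩ := gradient_diff_inner hF.smooth x (EuclideanSpace.single k s)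
    (EuclideanSpace.single i (1 : ℝ)) 0
  have hs : EuclideanSpace.single k s = s • EuclideanSpace.single k (1 : ℝ) := by
    ext j; simp
  rw [inner_sub_left, EuclideanSpace.inner_single_right, EuclideanSpace.inner_single_right,
    sub_zero, sub_zero] at h
  conv_rhs at h => rw [hs, map_smul, ContinuousLinearMap.smul_apply, hF.hess_eq c hki hc,
    hF.blockMat_symm k i, smul_eq_mul]
  simp at h
  linarith

theorem gradient_add_sum (hF : Frozen V col) (i : Fin d) (a : Fin d → ℝ) (s : Finset (Fin d)) :
    (∀ k ∈ s, k ≠ i ∧ col k = col i) → ∀ x : Space d,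
      gradient V (x + ∑ k ∈ s, EuclideanSpace.single k (a k)) i
        = gradient V x i + ∑ k ∈ s, blockMat V col i k * a k := by
  induction s using Finset.induction_on with
  | empty => simp
  | @insert b s hb ih =>
    intro hs x
    obtain ⟨h1, h2⟩ := hs b (mem_insert_self b s)
    rw [sum_insert hb, sum_insert hb, ← add_assoc, ih (fun k hk => hs k (mem_insert_of_mem hk)),
      hF.gradient_add_single x h1 h2]
    ring

theorem gradient_onColour (hF : Frozen V col) (u : Space d) {c : Fin χ} {i : Fin d}
    (hi : col i = c) :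
    gradient V (onColour col c u) i = gradient V (EuclideanSpace.single i (u i)) i
      + ∑ k ∈ mates col i, blockMat V col i k * u k := by
  rw [← hF.gradient_add_sum i (fun k => u k) _ (fun k hk => mem_mates.1 hk)]
  refine congrArg (fun z : Space d => gradient V z i) ?_
  ext j
  rw [PiLp.add_apply, space_sum_apply, onColour_apply]
  simp only [PiLp.single_apply]
  rw [sum_ite_eq]
  subst hi
  by_cases hji : j = i
  · subst hji; simp [mates]
  · simp [mates, hji]

/-- On sign vectors of a colour the symmetrised gradient is the block operator. -/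
theorem gradient_signs (hF : Frozen V col) {c : Fin χ} {u : Space d} {i : Fin d} (hi : col i = c)
    (hu : u i = 1 ∨ u i = -1) :
    gradient V (onColour col c u) i - gradient V (onColour col c (-u)) i
      = 2 * blockOp V col u i := by
  rw [hF.gradient_onColour u hi, hF.gradient_onColour (-u) hi, blockOp_row, PiLp.neg_apply]
  simp only [PiLp.neg_apply, mul_neg, sum_neg_distrib]
  have hM : blockMat V col i i = (gradient V (EuclideanSpace.single i (1 : ℝ)) i
      - gradient V (EuclideanSpace.single i (-1 : ℝ)) i) / 2 := by simp [blockMat]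
  rcases hu with h | h <;> rw [h] <;> simp only [neg_neg, hM] <;> ring

theorem blockOp_symm (hF : Frozen V col) (u v : Space d) :
    ⟪blockOp V col u, v⟫ = ⟪u, blockOp V col v⟫ := by
  simp only [PiLp.inner_apply, RCLike.inner_apply, conj_trivial, blockOp_apply, mul_sum, sum_mul]
  rw [sum_comm]
  refine sum_congr rfl fun i _ => sum_congr rfl fun k _ => ?_
  rw [hF.blockMat_symm k i]
  ring

/-- The quadratic form of one block is a mean value of the Hessian. -/
theorem block_quad (hF : Frozen V col) (c : Fin χ) (v : Space d) :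
    ‖onColour col c v‖ ^ 2 ≤ ∑ i, (if col i = c then v i * blockOp V col v i else 0) ∧
      ∑ i, (if col i = c then v i * blockOp V col v i else 0) ≤ 2 * ‖onColour col c v‖ ^ 2 := by
  set one : Space d := onColour col c (WithLp.toLp 2 fun _ => (1 : ℝ)) with hone
  set e : Fin d → Space d := fun i => EuclideanSpace.single i (1 : ℝ) with he
  have hdd : Differentiable ℝ (fderiv ℝ V) :=
    (hF.smooth.fderiv_right (m := 1) (by norm_num)).differentiable (by norm_num)
  let φ : ℝ → ℝ := fun t => ∑ i, if col i = c then
    v i ^ 2 * fderiv ℝ V (t • one) (e i)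
      + t * (v i * ∑ k ∈ mates col i, blockMat V col i k * (v k - v i)) else 0
  let φ' : ℝ → ℝ := fun t => ∑ i, if col i = c then
    v i ^ 2 * fderiv ℝ (fderiv ℝ V) (t • one) one (e i)
      + v i * ∑ k ∈ mates col i, blockMat V col i k * (v k - v i) else 0
  have hφ : ∀ t, HasDerivAt φ (φ' t) t := by
    intro t
    refine HasDerivAt.fun_sum fun i _ => ?_
    split_ifs
    · have g0 : HasDerivAt (fun s : ℝ => s • one) one t := by
        simpa only [one_smul, id_eq] using (hasDerivAt_id t).smul_const one
      have g1 : HasDerivAt (fun s : ℝ => fderiv ℝ V (s • one))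
          (fderiv ℝ (fderiv ℝ V) (t • one) one) t :=
        HasFDerivAt.comp_hasDerivAt (l := fderiv ℝ V) (f := fun s : ℝ => s • one) t
          (hdd (t • one)).hasFDerivAt g0
      have g2 := (g1.clm_apply (hasDerivAt_const t (e i))).const_mul (v i ^ 2)
      simp only [map_zero, add_zero] at g2
      have g3 := (hasDerivAt_id t).mul_const
        (v i * ∑ k ∈ mates col i, blockMat V col i k * (v k - v i))
      simp only [id_eq, one_mul] at g3
      exact g2.add g3
    · exact hasDerivAt_const t 0
  -- the derivative is the Hessian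
  have hrow : ∀ (x : Space d) (w : Space d) (i : Fin d), col i = c →
      fderiv ℝ (fderiv ℝ V) x (onColour col c w) (e i)
        = fderiv ℝ (fderiv ℝ V) x (e i) (e i) * w i
          + ∑ k ∈ mates col i, blockMat V col i k * w k := by
    intro x w i hi
    simp only [he]
    rw [onColour_decomp, map_sum, ContinuousLinearMap.sum_apply]
    simp only [map_smul, ContinuousLinearMap.smul_apply, smul_eq_mul, ite_mul, zero_mul]
    subst hi
    rw [sum_colour i]
    refine congrArg₂ _ (mul_comm _ _) (sum_congr rfl fun k hk => ?_)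
    obtain ⟨h1, h2⟩ := mem_mates.1 hk
    rw [hF.hess_eq x h1 h2, hF.blockMat_symm k i, mul_comm]
  have hquad : ∀ x : Space d, (∑ i, if col i = c then
      v i ^ 2 * fderiv ℝ (fderiv ℝ V) x one (e i)
        + v i * ∑ k ∈ mates col i, blockMat V col i k * (v k - v i) else 0)
      = fderiv ℝ (fderiv ℝ V) x (onColour col c v) (onColour col c v) := by
    intro x
    conv_rhs => arg 2; rw [onColour_decomp]
    rw [map_sum]
    refine sum_congr rfl fun i _ => ?_
    rw [map_smul, smul_eq_mul]
    split_ifs with hi
    · rw [hone, hrow x _ i hi, hrow x v i hi]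
      simp only [mul_sub, sum_sub_distrib, ← sum_mul, mul_one]
      ring
    · simp
  obtain ⟨t, -, ht⟩ := exists_hasDerivAt_eq_slope (f := φ) (f' := φ') (a := -1) (b := 1)
    (by norm_num) (fun t _ => (hφ t).continuousAt.continuousWithinAt) fun t _ => hφ t
  have hdiff : φ 1 - φ (-1) = 2 * ∑ i, (if col i = c then v i * blockOp V col v i else 0) := by
    simp only [φ]
    rw [← sum_sub_distrib, mul_sum]
    refine sum_congr rfl fun i _ => ?_
    split_ifs with hi
    · have h1 := hF.gradient_signs (u := WithLp.toLp 2 fun _ => (1 : ℝ)) hi (Or.inl rfl)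
      rw [gradient_apply_eq, gradient_apply_eq, blockOp_row] at h1
      have e2 : onColour col c (-(WithLp.toLp 2 fun _ => (1 : ℝ))) = (-1 : ℝ) • one := by
        ext j; simp only [hone, onColour_apply, PiLp.smul_apply, PiLp.neg_apply, smul_eq_mul]
        split_ifs <;> simp
      rw [e2, ← hone] at h1
      rw [blockOp_row, one_smul]
      simp only [he] at h1 ⊢
      have e3 : ∑ k ∈ mates col i, blockMat V col i k * (v k - v i)
          = ∑ k ∈ mates col i, blockMat V col i k * v k
            - (∑ k ∈ mates col i, blockMat V col i k) * v i := by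
        simp [mul_sub, sum_sub_distrib, sum_mul]
      rw [e3]
      simp only [mul_one] at h1
      linear_combination (v i ^ 2) * h1
    · simp
  simp only [φ'] at ht
  rw [hquad, hdiff] at ht
  have hb := hF.hess (t • one) (onColour col c v)
  simp [iteratedFDeriv_two_apply] at hb
  rw [ht] at hb
  norm_num at hb
  exact hb

theorem blockOp_bounds (hF : Frozen V col) (v : Space d) :
    ‖v‖ ^ 2 ≤ ⟪blockOp V col v, v⟫ ∧ ⟪blockOp V col v, v⟫ ≤ 2 * ‖v‖ ^ 2 := by
  have e1 : ‖v‖ ^ 2 = ∑ c, ‖onColour col c v‖ ^ 2 := by
    simp only [EuclideanSpace.norm_sq_eq, onColour_apply, Real.norm_eq_abs, sq_abs]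
    rw [sum_comm]
    refine sum_congr rfl fun i _ => ?_
    rw [sum_eq_single (col i)] <;> simp +contextual [eq_comm]
  have e2 : ⟪blockOp V col v, v⟫
      = ∑ c, ∑ i, (if col i = c then v i * blockOp V col v i else 0) := by
    rw [sum_comm, PiLp.inner_apply]
    refine sum_congr rfl fun i _ => ?_
    simp
  rw [e1, e2, mul_sum]
  exact ⟨sum_le_sum fun c _ => (hF.block_quad c v).1, sum_le_sum fun c _ => (hF.block_quad c v).2⟩

theorem blockOp_norm (hF : Frozen V col) (w : Space d) : ‖blockOp V col w‖ ≤ 2 * ‖w‖ := by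
  set z : Space d := (1 / 2 : ℝ) • blockOp V col w with hz
  have h1 := (hF.blockOp_bounds (w + z)).2
  have h2 := (hF.blockOp_bounds (w - z)).1
  have e : ⟪blockOp V col z, w⟫ = ⟪blockOp V col w, z⟫ := by
    rw [hF.blockOp_symm, real_inner_comm]
  simp only [map_add, map_sub, inner_add_left, inner_add_right, inner_sub_left, inner_sub_right,
    e, norm_add_sq_real, norm_sub_sq_real] at h1 h2
  have e2 : ⟪blockOp V col w, z⟫ = 1 / 2 * ‖blockOp V col w‖ ^ 2 := by
    rw [hz, real_inner_smul_right, real_inner_self_eq_norm_sq]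
  have e3 : ‖z‖ = 1 / 2 * ‖blockOp V col w‖ := by
    rw [hz, norm_smul, Real.norm_eq_abs, abs_of_pos (by norm_num : (0 : ℝ) < 1 / 2)]
  rw [e2, e3] at h1 h2
  nlinarith [abs_real_inner_le_norm w z, abs_le.1 (abs_real_inner_le_norm w z), norm_nonneg w,
    norm_nonneg (blockOp V col w)]

end Frozen

/-- The coloured potential. -/
def aug (V : Space d → ℝ) (col : Fin d → Fin χ) (x : Space d) : ℝ :=
  let y : Space d := (Real.sqrt 2)⁻¹ • x
  V y + 3 / 2 * ‖y‖ ^ 2 - 1 / 2 * ⟪blockOp V col y, y⟫

theorem inv_sqrt_two_sq : (Real.sqrt 2)⁻¹ * (Real.sqrt 2)⁻¹ = (2⁻¹ : ℝ) := by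
  rw [← mul_inv, Real.mul_self_sqrt (by norm_num)]

theorem aug_eq (V : Space d → ℝ) (col : Fin d → Fin χ) :
    aug V col = fun x => V ((Real.sqrt 2)⁻¹ • x) + 3 / 4 * ‖x‖ ^ 2
      - 1 / 4 * ⟪blockOp V col x, x⟫ := by
  funext x
  simp only [aug, map_smul, real_inner_smul_left, real_inner_smul_right, norm_smul,
    Real.norm_eq_abs, mul_pow, sq_abs, ← mul_assoc, sq (Real.sqrt 2)⁻¹]
  rw [mul_assoc (3 / 2 : ℝ), mul_assoc (1 / 2 : ℝ), inv_sqrt_two_sq]
  ring

namespace Frozen

theorem aug_smooth (hF : Frozen V col) :
    ContDiff ℝ 2 (aug V col) ∧ Differentiable ℝ (aug V col) := by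
  have h : ContDiff ℝ 2 (aug V col) := by
    rw [aug_eq]
    exact ((hF.smooth.comp (contDiff_id.const_smul _)).add
      (contDiff_const.mul (contDiff_norm_sq ℝ))).sub
      (contDiff_const.mul ((blockOp V col).contDiff.inner ℝ contDiff_id))
  exact ⟨h, h.differentiable (by norm_num)⟩

theorem fderiv_aug (hF : Frozen V col) (x w : Space d) :
    fderiv ℝ (aug V col) x w = (Real.sqrt 2)⁻¹ * fderiv ℝ V ((Real.sqrt 2)⁻¹ • x) w
      + ⟪(3 / 2 : ℝ) • x - (1 / 2 : ℝ) • blockOp V col x, w⟫ := by
  have h1 : HasFDerivAt (fun u : Space d => V ((Real.sqrt 2)⁻¹ • u))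
      ((fderiv ℝ V ((Real.sqrt 2)⁻¹ • x)).comp ((Real.sqrt 2)⁻¹ • ContinuousLinearMap.id ℝ (Space d)))
      x :=
    (hF.smooth.differentiable (by norm_num) _).hasFDerivAt.comp x
      ((hasFDerivAt_id x).const_smul (Real.sqrt 2)⁻¹)
  have h2 : HasFDerivAt (fun u : Space d => 3 / 4 * ‖u‖ ^ 2) _ x :=
    ((hasFDerivAt_id x).norm_sq).const_mul (3 / 4 : ℝ)
  have h3 : HasFDerivAt (fun u : Space d => 1 / 4 * ⟪blockOp V col u, u⟫) _ x :=
    (((blockOp V col).hasFDerivAt).inner ℝ (hasFDerivAt_id x)).const_mul (1 / 4 : ℝ)
  have h4 : HasFDerivAt (fun u : Space d => V ((Real.sqrt 2)⁻¹ • u) + 3 / 4 * ‖u‖ ^ 2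
      - 1 / 4 * ⟪blockOp V col u, u⟫) _ x := (h1.add h2).sub h3
  rw [aug_eq, h4.fderiv]
  simp [inner_sub_left, real_inner_smul_left, fderivInnerCLM_apply]
  rw [hF.blockOp_symm w x, real_inner_comm w (blockOp V col x)]
  ring

theorem gradient_aug (hF : Frozen V col) (x : Space d) :
    gradient (aug V col) x = (Real.sqrt 2)⁻¹ • gradient V ((Real.sqrt 2)⁻¹ • x)
      + (3 / 2 : ℝ) • x - (1 / 2 : ℝ) • blockOp V col x := by
  refine ext_inner_right ℝ fun w => ?_
  rw [inner_gradient, hF.fderiv_aug, add_sub_assoc, inner_add_left, real_inner_smul_left,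
    inner_gradient]

theorem hess_aug (hF : Frozen V col) (x u w : Space d) :
    fderiv ℝ (fderiv ℝ (aug V col)) x u w
      = 2⁻¹ * fderiv ℝ (fderiv ℝ V) ((Real.sqrt 2)⁻¹ • x) u w
        + 3 / 2 * ⟪u, w⟫ - 1 / 2 * ⟪blockOp V col u, w⟫ := by
  have hA : HasFDerivAt (fderiv ℝ (aug V col)) (fderiv ℝ (fderiv ℝ (aug V col)) x) x :=
    (((hF.aug_smooth).1.fderiv_right (m := 1) (by norm_num)).differentiable
      (by norm_num) x).hasFDerivAt
  have h0 : HasFDerivAt (fderiv ℝ V)
      (fderiv ℝ (fderiv ℝ V) ((Real.sqrt 2)⁻¹ • x)) ((Real.sqrt 2)⁻¹ • x) :=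
    ((hF.smooth.fderiv_right (m := 1) (by norm_num)).differentiable
      (by norm_num) _).hasFDerivAt
  have hl := hA.clm_apply (hasFDerivAt_const w x)
  have h1 := ((h0.comp x ((hasFDerivAt_id x).const_smul (Real.sqrt 2)⁻¹)).clm_apply
    (hasFDerivAt_const w x)).const_mul (Real.sqrt 2)⁻¹
  have h2 := (((hasFDerivAt_id x).const_smul (3 / 2 : ℝ)).sub
    ((blockOp V col).hasFDerivAt.const_smul (1 / 2 : ℝ))).inner ℝ (hasFDerivAt_const w x)
  have hr := h1.add h2
  have e : (fun z : Space d => fderiv ℝ (aug V col) z w)
      = fun z => (Real.sqrt 2)⁻¹ * fderiv ℝ V ((Real.sqrt 2)⁻¹ • z) w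
        + ⟪(3 / 2 : ℝ) • z - (1 / 2 : ℝ) • blockOp V col z, w⟫ :=
    funext fun z => hF.fderiv_aug z w
  rw [e] at hl
  have := congrArg (fun L : Space d →L[ℝ] ℝ => L u) (hl.unique hr)
  simp [fderivInnerCLM_apply, inner_sub_left, real_inner_smul_left] at this
  rw [this, ← mul_assoc, inv_sqrt_two_sq]
  ring

theorem aug_model (hF : Frozen V col) : Model (aug V col) col := by
  refine model_of_hessian hF.aug_smooth.1 (by simp [aug, hF.zero])
    (by simp [hF.gradient_aug, hF.crit]) (fun x h => ?_) fun x i k hik hc => ?_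
  · have h1 := hF.hess ((Real.sqrt 2)⁻¹ • x) h
    have h2 := hF.blockOp_bounds h
    simp [iteratedFDeriv_two_apply] at h1 ⊢
    rw [hF.hess_aug, real_inner_self_eq_norm_sq]
    constructor <;> linarith
  · simp [iteratedFDeriv_two_apply]
    rw [hF.hess_aug, hF.hess_eq _ hik hc]
    have e : ⟪blockOp V col (EuclideanSpace.single i (1 : ℝ)), EuclideanSpace.single k (1 : ℝ)⟫
        = blockMat V col i k := by
      rw [EuclideanSpace.inner_single_right, blockOp_apply, sum_eq_single i]
      · simp [hF.blockMat_symm k i]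
      · intro b _ hb; simp [hb]
      · simp
    rw [e, EuclideanSpace.inner_single_right]
    simp [Ne.symm hik]

end Frozen

/-- The next binary sign. -/
def digit (t : ℝ) : ℝ := if 0 ≤ t then 1 else -1

/-- The remainders of the expansion in signs. -/
def rest : ℕ → ℝ → ℝ
  | 0, t => t
  | b + 1, t => 2 * rest b t - digit (rest b t)

theorem digit_cases (t : ℝ) : digit t = 1 ∨ digit t = -1 := by
  unfold digit; split_ifs <;> simp

theorem abs_rest_le {t : ℝ} (ht : |t| ≤ 1) : ∀ b, |rest b t| ≤ 1
  | 0 => ht
  | b + 1 => by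
    have := abs_le.1 (abs_rest_le ht b)
    simp only [rest, digit]
    split_ifs with h
    · exact abs_le.2 ⟨by linarith, by linarith⟩
    · exact abs_le.2 ⟨by linarith, by linarith [not_le.1 h]⟩

theorem sum_digit (t : ℝ) : ∀ n : ℕ,
    ∑ b ∈ range n, digit (rest b t) / 2 ^ (b + 1) = t - rest n t / 2 ^ n
  | 0 => by simp [rest]
  | n + 1 => by
    rw [sum_range_succ, sum_digit t n, show rest (n + 1) t = 2 * rest n t - digit (rest n t) from rfl,
      pow_succ]
    field_simp
    ring

theorem measurable_rest : ∀ b, Measurable (rest b)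
  | 0 => measurable_id
  | b + 1 => ((measurable_rest b).const_mul 2).sub
      ((Measurable.ite measurableSet_Ici measurable_const measurable_const).comp (measurable_rest b))

theorem measurable_digit : Measurable digit :=
  Measurable.ite measurableSet_Ici measurable_const measurable_const

/-- The sign pattern of one colour at one binary place. -/
def probePattern (col : Fin d → Fin χ) (c : Fin χ) (b : ℕ) (v : Space d) : Space d :=
  WithLp.toLp 2 fun i => digit (rest b (v i / ‖onColour col c v‖))

/-- The query points of one colour. -/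
def probePoint (col : Fin d → Fin χ) (c : Fin χ) {N : ℕ} (v : Space d) (q : Fin 2 × Fin N) :
    Space d :=
  onColour col c (if q.1 = 0 then probePattern col c q.2 v else -probePattern col c q.2 v)

/-- The combination of the answers of one colour. -/
def combineProbes (col : Fin d → Fin χ) (c : Fin χ) {N : ℕ} (v : Space d)
    (A : Fin 2 × Fin N → Space d) : Space d :=
  onColour col c (∑ b : Fin N, (‖onColour col c v‖ / 2 ^ ((b : ℕ) + 1) / 2) • (A (0, b) - A (1, b)))

/-- The part of a vector missed by `N` binary places. -/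
def probeError (col : Fin d → Fin χ) (N : ℕ) (v : Space d) : Space d :=
  WithLp.toLp 2 fun i =>
    ‖onColour col (col i) v‖ * rest N (v i / ‖onColour col (col i) v‖) / 2 ^ N

theorem continuous_onColour (col : Fin d → Fin χ) (c : Fin χ) : Continuous (onColour col c) := by
  unfold onColour
  refine (PiLp.continuous_toLp 2 _).comp (continuous_pi fun i => ?_)
  split_ifs <;> fun_prop

theorem measurable_probePoint (col : Fin d → Fin χ) (c : Fin χ) {N : ℕ} (q : Fin 2 × Fin N) :
    Measurable fun v => probePoint col c v q := by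
  have hp : Measurable (probePattern col c (q.2 : ℕ)) := by
    unfold probePattern
    refine (PiLp.continuous_toLp 2 _).measurable.comp (measurable_pi_lambda _ fun i => ?_)
    exact measurable_digit.comp ((measurable_rest _).comp
      ((by fun_prop : Measurable fun v : Space d => v i).div
        (continuous_onColour col c).norm.measurable))
  refine (continuous_onColour col c).measurable.comp ?_
  split_ifs
  · exact hp
  · exact hp.neg

theorem measurable_combineProbes (col : Fin d → Fin χ) (c : Fin χ) {N : ℕ} :
    Measurable fun z : Space d × (Fin 2 × Fin N → Space d) => combineProbes col c z.1 z.2 := by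
  have := continuous_onColour col c
  unfold combineProbes
  exact (by fun_prop : Continuous fun z : Space d × (Fin 2 × Fin N → Space d) =>
    onColour col c (∑ b : Fin N,
      (‖onColour col c z.1‖ / 2 ^ ((b : ℕ) + 1) / 2) • (z.2 (0, b) - z.2 (1, b)))).measurable

theorem probe_exact (v : Space d) {c : Fin χ} {i : Fin d} (hi : col i = c) :
    ‖onColour col c v‖ * (v i / ‖onColour col c v‖) = v i ∧ |v i / ‖onColour col c v‖| ≤ 1 := by
  have h : |v i| ≤ ‖onColour col c v‖ := by
    simpa [hi] using PiLp.norm_apply_le (onColour col c v) i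
  rcases (norm_nonneg (onColour col c v)).eq_or_lt with h0 | h0
  · rw [← h0] at h ⊢
    simp [abs_nonpos_iff.1 h]
  · exact ⟨mul_div_cancel₀ _ h0.ne', by rw [abs_div, abs_of_pos h0]; exact (div_le_one h0).2 h⟩

theorem Frozen.combine_eq (hF : Frozen V col) (c : Fin χ) (N : ℕ) (v : Space d) :
    combineProbes col c v (fun q : Fin 2 × Fin N => gradient V (probePoint col c v q))
      = onColour col c (blockOp V col (v - probeError col N v)) := by
  ext i
  simp only [combineProbes, onColour_apply]
  split_ifs with hi
  swap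
  · rfl
  rw [space_sum_apply]
  have e : ∀ b : Fin N, ((‖onColour col c v‖ / 2 ^ ((b : ℕ) + 1) / 2) •
      (gradient V (probePoint col c v ((0 : Fin 2), b))
        - gradient V (probePoint col c v ((1 : Fin 2), b)))) i
      = ∑ k, blockMat V col i k *
          (‖onColour col c v‖ * (digit (rest b (v k / ‖onColour col c v‖)) / 2 ^ ((b : ℕ) + 1))) := by
    intro b
    rw [PiLp.smul_apply, PiLp.sub_apply, smul_eq_mul,
      show probePoint col c v ((0 : Fin 2), b) = onColour col c (probePattern col c b v) by
        simp [probePoint],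
      show probePoint col c v ((1 : Fin 2), b) = onColour col c (-probePattern col c b v) by
        simp [probePoint],
      hF.gradient_signs hi (digit_cases _), blockOp_apply, mul_sum, mul_sum]
    refine sum_congr rfl fun k _ => ?_
    simp only [probePattern]
    ring
  simp only [e]
  rw [sum_comm, blockOp_apply]
  refine sum_congr rfl fun k _ => ?_
  by_cases hk : col i = col k
  · rw [← mul_sum, ← mul_sum,
      Fin.sum_univ_eq_sum_range (fun b => digit (rest b (v k / ‖onColour col c v‖)) / 2 ^ (b + 1)),
      sum_digit, mul_sub, (probe_exact v (c := c) (hk ▸ hi)).1, PiLp.sub_apply]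
    simp only [probeError, ← hk, hi, mul_div_assoc]
  · simp [blockMat_far hk]

theorem Frozen.probeError_norm (hF : Frozen V col) (N : ℕ) (v : Space d) :
    ‖blockOp V col (probeError col N v)‖ ≤ 4 * d * ‖v‖ / 2 ^ N := by
  have hcoord : ∀ i, |probeError col N v i| ≤ ‖v‖ / 2 ^ N := by
    intro i
    have h1 : ‖onColour col (col i) v‖ ≤ ‖v‖ := by
      refine abs_le_of_sq_le_sq' ?_ (norm_nonneg _) |>.2
      simp only [EuclideanSpace.norm_sq_eq]
      refine sum_le_sum fun k _ => ?_
      simp only [onColour_apply]
      split_ifs <;> simp [sq_nonneg]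
    simp only [probeError]
    rw [abs_div, abs_mul, abs_norm, abs_of_pos (by positivity : (0 : ℝ) < 2 ^ N)]
    exact div_le_div_of_nonneg_right ((mul_le_of_le_one_right (norm_nonneg _)
      (abs_rest_le (probe_exact v rfl).2 N)).trans h1) (by positivity)
  have hw : ‖probeError col N v‖ ≤ d * (‖v‖ / 2 ^ N) := by
    refine abs_le_of_sq_le_sq' ?_ (by positivity) |>.2
    rw [EuclideanSpace.norm_sq_eq]
    refine (sum_le_sum fun i _ => (pow_le_pow_left₀ (norm_nonneg _) (hcoord i) 2)).trans ?_
    rw [sum_const, card_univ, Fintype.card_fin, nsmul_eq_mul, mul_pow]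
    refine mul_le_mul_of_nonneg_right ?_ (sq_nonneg _)
    exact_mod_cast Nat.le_self_pow two_ne_zero d
  refine (hF.blockOp_norm _).trans ?_
  rw [mul_div_assoc]
  nlinarith [div_nonneg (norm_nonneg v) (by positivity : (0 : ℝ) ≤ 2 ^ N),
    (Nat.cast_nonneg d : (0 : ℝ) ≤ d)]

/-- Apply the block operator on one colour, from `2 * N` queries. -/
def colourApply (col : Fin d → Fin χ) (c : Fin χ) (N : ℕ) : Alg d (Space d) (Space d) :=
  (Alg.many fun v (n : Fin (2 * N)) => probePoint col c v (finProdFinEquiv.symm n)).seq
    (Alg.pure d fun z => combineProbes col c z.1 fun q => (z.2 (finProdFinEquiv q)).2)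

theorem colourApply_size (c : Fin χ) (N : ℕ) : (colourApply col c N).size = 2 * N := rfl

theorem measurable_readGrad {M : ℕ} {ι : Type} (g : ι → Fin M) :
    Measurable fun z : Space d × (Fin M → Reply d) => fun q => (z.2 (g q)).2 :=
  measurable_pi_lambda _ fun q =>
    measurable_snd.comp ((measurable_pi_apply (g q)).comp measurable_snd)

theorem colourApply_meas (c : Fin χ) (N : ℕ) : (colourApply col c N).Meas := by
  unfold colourApply
  refine Alg.seq_meas (Alg.many_meas (measurable_pi_lambda _ fun n =>
    measurable_probePoint col c (finProdFinEquiv.symm n))) (Alg.pure_meas ?_)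
  exact (measurable_combineProbes col c).comp
    (f := fun z : Space d × (Fin (2 * N) → Reply d) => (z.1, fun q => (z.2 (finProdFinEquiv q)).2))
    (measurable_fst.prodMk (measurable_readGrad fun q => finProdFinEquiv q))

theorem Frozen.colourApply_eval (hF : Frozen V col) (c : Fin χ) (N : ℕ) (v : Space d) :
    (colourApply col c N).eval (fun u => (V u, gradient V u)) v
      = onColour col c (blockOp V col (v - probeError col N v)) := by
  rw [colourApply, Alg.seq_eval, Alg.many_eval, Alg.pure_eval, ← hF.combine_eq]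
  simp

theorem Frozen.colourApply_close (hF : Frozen V col) (c : Fin χ) (N : ℕ) (v : Space d) :
    ‖(colourApply col c N).eval (fun u => (V u, gradient V u)) v
        - onColour col c (blockOp V col v)‖ ≤ 4 * d * ‖v‖ / 2 ^ N := by
  refine le_trans ?_ (hF.probeError_norm N v)
  rw [hF.colourApply_eval, map_sub]
  refine abs_le_of_sq_le_sq' ?_ (norm_nonneg _) |>.2
  simp only [EuclideanSpace.norm_sq_eq]
  refine sum_le_sum fun k _ => ?_
  simp only [PiLp.sub_apply, onColour_apply]
  split_ifs <;> simp [sq_nonneg]

/-- Apply the whole block operator. -/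
def blockApply (col : Fin d → Fin χ) (N : ℕ) : Alg d (Space d) (Space d) :=
  (Alg.many fun v (n : Fin (χ * (2 * N))) =>
      probePoint col (finProdFinEquiv.symm n).1 v
        (finProdFinEquiv.symm (finProdFinEquiv.symm n).2)).seq
    (Alg.pure d fun z => ∑ c, combineProbes col c z.1
      fun q => (z.2 (finProdFinEquiv (c, finProdFinEquiv q))).2)

theorem blockApply_size (N : ℕ) : (blockApply col N).size = χ * (2 * N) := rfl

theorem blockApply_meas (N : ℕ) : (blockApply col N).Meas := by
  unfold blockApply
  refine Alg.seq_meas (Alg.many_meas (measurable_pi_lambda _ fun n =>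
    measurable_probePoint col (finProdFinEquiv.symm n).1
      (finProdFinEquiv.symm (finProdFinEquiv.symm n).2))) (Alg.pure_meas ?_)
  exact Finset.measurable_sum _ fun c _ => (measurable_combineProbes col c).comp
    (f := fun z : Space d × (Fin (χ * (2 * N)) → Reply d) =>
      (z.1, fun q => (z.2 (finProdFinEquiv (c, finProdFinEquiv q))).2))
    (measurable_fst.prodMk (measurable_readGrad fun q => finProdFinEquiv (c, finProdFinEquiv q)))

theorem Frozen.blockApply_eval (hF : Frozen V col) (N : ℕ) (v : Space d) :
    (blockApply col N).eval (fun u => (V u, gradient V u)) v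
      = blockOp V col (v - probeError col N v) := by
  rw [blockApply, Alg.seq_eval, Alg.many_eval, Alg.pure_eval]
  simp only [Equiv.symm_apply_apply, hF.combine_eq]
  ext i
  simp [space_sum_apply]

theorem Frozen.blockApply_close (hF : Frozen V col) (N : ℕ) (v : Space d) :
    ‖(blockApply col N).eval (fun u => (V u, gradient V u)) v - blockOp V col v‖
      ≤ 4 * d * ‖v‖ / 2 ^ N := by
  rw [hF.blockApply_eval, map_sub, sub_sub_cancel_left, norm_neg]
  exact hF.probeError_norm N v

end

end P347
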