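import Vale.Agent.P347.Any.DenseOuter
import Vale.Agent.P347.Local.Main

/-!
# P347: targets with constant interactions inside each colour

Parameters: with `N = 2 ^ n ≥ d` every error is at most a fixed negative power of `N`.
-/

namespace P347

open MeasureTheory Finset
open scoped BigOperators RealInnerProductSpace

noncomputable section

theorem exp_neg_le_two_pow (p : ℕ) {x : ℝ} (h : (p : ℝ) ≤ x) : Real.exp (-x) ≤ 1 / 2 ^ p := by
  refine (Real.exp_le_exp.2 (neg_le_neg h)).trans ?_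
  rw [Real.exp_neg, ← one_div, ← Real.exp_one_pow]
  exact one_div_le_one_div_of_le (by positivity)
    (pow_le_pow_left₀ (by norm_num) (by linarith [Real.add_one_le_exp (1 : ℝ)]) p)

theorem two_pow_le_exp (d : ℕ) : (2 : ℝ) ^ d ≤ Real.exp d := by
  rw [← Real.exp_one_pow]
  exact pow_le_pow_left₀ (by norm_num) (by linarith [Real.add_one_le_exp (1 : ℝ)]) d

section Monomials

variable {N : ℝ}

theorem mono_le (hN : 2 ≤ N) {a b : ℕ} (h : a ≤ b) : N ^ a ≤ N ^ b :=
  pow_le_pow_right₀ (by linarith) h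

theorem const_le (hN : 2 ≤ N) (k : ℕ) {c : ℝ} (h : c ≤ 2 ^ k) : c ≤ N ^ k :=
  h.trans (pow_le_pow_left₀ (by norm_num) hN k)

theorem tiny_mono (hN : 2 ≤ N) {x : ℝ} {a e : ℕ} (hx : x ≤ 1 / N ^ a) (h : e ≤ a) :
    x ≤ 1 / N ^ e :=
  hx.trans (one_div_le_one_div_of_le (by positivity) (mono_le hN h))

theorem tiny_mul (hN : 2 ≤ N) {c x : ℝ} {a b e : ℕ} (hc : c ≤ N ^ a) (hx0 : 0 ≤ x)
    (hx : x ≤ 1 / N ^ b) (h : a + e ≤ b) : c * x ≤ 1 / N ^ e := by
  have : 0 < N := by linarith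
  refine (mul_le_mul hc hx hx0 (by positivity)).trans ?_
  rw [mul_one_div, div_le_div_iff₀ (by positivity) (by positivity), one_mul, ← pow_add]
  exact mono_le hN h

theorem tiny_add (hN : 2 ≤ N) {x y : ℝ} {a b e : ℕ} (hx : x ≤ 1 / N ^ a) (hy : y ≤ 1 / N ^ b)
    (ha : e + 1 ≤ a) (hb : e + 1 ≤ b) : x + y ≤ 1 / N ^ e := by
  have : 0 < N := by linarith
  refine (add_le_add (tiny_mono hN hx ha) (tiny_mono hN hy hb)).trans ?_
  rw [← two_mul, mul_one_div, div_le_div_iff₀ (by positivity) (by positivity), one_mul, pow_succ,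
    mul_comm (N ^ e)]
  exact mul_le_mul_of_nonneg_right hN (by positivity)

theorem grow_mul (hN : 2 ≤ N) {x y : ℝ} {a b e : ℕ} (hx : x ≤ N ^ a) (hy0 : 0 ≤ y)
    (hy : y ≤ N ^ b) (h : a + b ≤ e) : x * y ≤ N ^ e := by
  refine (mul_le_mul hx hy hy0 (pow_nonneg (by linarith) _)).trans ?_
  rw [← pow_add]
  exact mono_le hN h

/-- Every condition on the parameters, in monomials of `N`. -/
theorem dense_errors (hN : 2 ≤ N) {d χ G R J k m Ro : ℕ} {δ L r e₀ ρ ε : ℝ}
    (hd : (d : ℝ) ≤ N) (hχ : (χ : ℝ) ≤ N) (hm : (m : ℝ) ≤ N ^ 3)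
    (hR : (R : ℝ) + 1 ≤ N ^ 8) (hJ : (J : ℝ) ≤ N ^ 10) (hRo : (Ro : ℝ) + 1 ≤ N ^ 13)
    (hk2 : (40 : ℝ) ^ (k + 1) ≤ N ^ 66)
    (hk3 : (3 / 5 : ℝ) ^ 2 ^ k ≤ 1 / N ^ 120)
    (hL : L + 1 ≤ N ^ 11) (hL0 : 0 ≤ L) (hr : r = N ^ 60) (hδ : δ ≤ 1 / N ^ 120) (hδ0 : 0 ≤ δ)
    (hG : (1 / 2 : ℝ) ^ G ≤ 1 / N ^ 120) (hR2 : 1 / (2 : ℝ) ^ R ≤ 1 / N ^ 120)
    (hexp : Real.exp (-L / 4) ≤ 1 / N ^ 120) (hb : ballTail d L ≤ 1 / N ^ 120)
    (ht : tiltTail d L ≤ 1 / N ^ 120) (he0 : 0 ≤ e₀) (he : e₀ ≤ 1 / N ^ 297)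
    (hρ : 2 * (3 / 5 : ℝ) ^ 2 ^ k + 40 ^ (k + 1) * e₀ = ρ) (hε : 36 * r * e₀ = ε)
    {q : ℝ} (hq0 : 0 ≤ q) (hq : q ≤ 1 / N ^ 120) :
    40 ^ (k + 1) * e₀ ≤ 1 ∧ e₀ + ρ ≤ 1 ∧ e₀ ≤ 1 / 8 ∧ 24 * ε * d * r ≤ 1 ∧
      2 * ε * (8 * d * (r + L + 1)) * (L + 1) ≤ 1 ∧ noisyError d J G δ ε L r ≤ 1 ∧
      tiltGap e₀ ρ G r * (L + 1) ≤ 1 ∧ denseError d χ G J δ ε (tiltGap e₀ ρ G r) L r R ≤ 1 ∧
      ((Ro + 1 : ℕ) : ℝ) * (denseError d χ G J δ ε (tiltGap e₀ ρ G r) L r R
          + 2 * (2 * d * m * (L + 1) / r) + 3 * ballTail d L)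
        + 3 * ballTail d L + perturbConst * d * q * (2 * d * m * (L + 1)) ≤ 1 / 10 := by
  have hN0 : 0 < N := by linarith
  have hL1 : (0 : ℝ) ≤ L + 1 := by linarith
  have hP : perturbConst ≤ N ^ 9 := const_le hN 9 (perturbConst_le.trans (by norm_num))
  have hP0 : 0 ≤ perturbConst := by unfold perturbConst; positivity
  have hb0 : 0 ≤ ballTail d L := by unfold ballTail; positivity
  have ht0 : 0 ≤ tiltTail d L := by unfold tiltTail; positivity
  have hr0 : 0 < r := by rw [hr]; positivity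
  have hr1 : r ≤ N ^ 60 := hr.le
  have hd' : (d : ℝ) ≤ N ^ 1 := by rw [pow_one]; exact hd
  have hd0 : (0 : ℝ) ≤ d := Nat.cast_nonneg _
  have hχ' : (χ : ℝ) ≤ N ^ 1 := by rw [pow_one]; exact hχ
  have hρ0 : 0 ≤ ρ := by rw [← hρ]; positivity
  have hε0 : 0 ≤ ε := by rw [← hε]; positivity
  have le1 : ∀ {x : ℝ} {a : ℕ}, x ≤ 1 / N ^ a → x ≤ 1 := fun hx => hx.trans (by
    rw [div_le_one (by positivity)]; exact one_le_pow₀ (by linarith))
  have hG3 : (1 / 3 : ℝ) ^ G ≤ 1 / N ^ 120 :=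
    (pow_le_pow_left₀ (by norm_num) (by norm_num) G).trans hG
  have hr' : 1 / r ≤ 1 / N ^ 60 := by rw [hr]
  have hinv : (0 : ℝ) ≤ 1 / r := by positivity
  have two : (2 : ℝ) ≤ N ^ 1 := by rw [pow_one]; exact hN
  have three : (3 : ℝ) ≤ N ^ 2 := const_le hN 2 (by norm_num)
  have four : (4 : ℝ) ≤ N ^ 2 := const_le hN 2 (by norm_num)
  have eight : (8 : ℝ) ≤ N ^ 3 := const_le hN 3 (by norm_num)
  -- the root and the oracle errors
  have r1 : 40 ^ (k + 1) * e₀ ≤ 1 / N ^ 200 := tiny_mul hN hk2 he0 he (by norm_num)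
  have r2 : ρ ≤ 1 / N ^ 118 := by
    rw [← hρ]
    exact tiny_add hN (tiny_mul hN two (by positivity) hk3 (e := 119) (by norm_num)) r1
      (by norm_num) (by norm_num)
  have r3 : e₀ + ρ ≤ 1 / N ^ 117 := tiny_add hN he r2 (by norm_num) (by norm_num)
  have hεb : ε ≤ 1 / N ^ 231 := by
    rw [← hε]
    exact tiny_mul hN (grow_mul hN (const_le hN 6 (show (36 : ℝ) ≤ 2 ^ 6 by norm_num)) hr0.le hr1
      (e := 66) (by norm_num)) he0 he (by norm_num)
  have s1 : 24 * ε * d * r ≤ 1 / N ^ 165 := by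
    rw [show 24 * ε * d * r = (24 * (d : ℝ) * r) * ε by ring]
    exact tiny_mul hN (grow_mul hN (grow_mul hN (const_le hN 5 (show (24 : ℝ) ≤ 2 ^ 5 by norm_num))
      hd0 hd' (e := 6) (by norm_num)) hr0.le hr1 (e := 66) (by norm_num)) hε0 hεb (by norm_num)
  have hrL : r + L + 1 ≤ N ^ 61 := by
    have h1 := mono_le hN (show 11 ≤ 60 by norm_num)
    rw [show N ^ 61 = N * N ^ 60 by ring]
    have := mul_le_mul_of_nonneg_right hN (show 0 ≤ N ^ 60 by positivity)
    linarith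
  have s2 : 2 * ε * (8 * d * (r + L + 1)) * (L + 1) ≤ 1 / N ^ 154 := by
    rw [show 2 * ε * (8 * d * (r + L + 1)) * (L + 1)
      = (16 * (d : ℝ) * (r + L + 1) * (L + 1)) * ε by ring]
    exact tiny_mul hN (grow_mul hN (grow_mul hN (grow_mul hN
      (const_le hN 4 (show (16 : ℝ) ≤ 2 ^ 4 by norm_num)) hd0 hd' (e := 5) (by norm_num))
      (by linarith) hrL (e := 66) (by norm_num)) hL1 hL (e := 77) (by norm_num)) hε0 hεb
      (by norm_num)
  -- one colour step
  have a1 : 3 * d * δ ≤ 1 / N ^ 117 :=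
    tiny_mul hN (grow_mul hN three hd0 hd' (e := 3) (by norm_num)) hδ0 hδ (by norm_num)
  have a2 : perturbConst * (d * ((1 / 3) ^ G * (2 * r) + 24 * ε * d * r)) ≤ 1 / N ^ 48 := by
    have h1 : (1 / 3) ^ G * (2 * r) ≤ 1 / N ^ 59 := by
      rw [mul_comm ((1 / 3 : ℝ) ^ G)]
      exact tiny_mul hN (grow_mul hN two hr0.le hr1 (e := 61) (by norm_num)) (by positivity) hG3
        (by norm_num)
    exact tiny_mul hN hP (by positivity) (tiny_mul hN hd' (by positivity)
      (tiny_add hN h1 s1 (e := 58) (by norm_num) (by norm_num)) (e := 57) (by norm_num))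
      (by norm_num)
  have a3 : (d : ℝ) * J * (2 * Real.exp (-L / 4)
      + 4 * (2 * ε * (8 * d * (r + L + 1)) * (L + 1))) ≤ 1 / N ^ 107 :=
    tiny_mul hN (grow_mul hN hd' (Nat.cast_nonneg J) hJ (e := 11) (by norm_num)) (by positivity)
      (tiny_add hN (tiny_mul hN two (Real.exp_nonneg _) hexp (e := 119) (by norm_num))
        (tiny_mul hN four (by positivity) s2 (e := 152) (by norm_num)) (e := 118) (by norm_num)
        (by norm_num)) (by norm_num)
  have hnoisy : noisyError d J G δ ε L r ≤ 1 / N ^ 46 := by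
    unfold noisyError
    exact tiny_add hN (tiny_add hN a1 a2 (e := 47) (by norm_num) (by norm_num)) a3 (by norm_num)
      (by norm_num)
  have hnoisy0 : 0 ≤ noisyError d J G δ ε L r := by unfold noisyError; positivity
  -- the inner chain
  have b1 : 2 * (χ / r * (L + 1)) ≤ 1 / N ^ 47 := by
    rw [show 2 * ((χ : ℝ) / r * (L + 1)) = (2 * (χ : ℝ) * (L + 1)) * (1 / r) by ring]
    exact tiny_mul hN (grow_mul hN (grow_mul hN two (Nat.cast_nonneg χ) hχ' (e := 2) (by norm_num))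
      hL1 hL (e := 13) (by norm_num)) hinv hr' (by norm_num)
  have b2 : 3 * ballTail d L ≤ 1 / N ^ 118 := tiny_mul hN three hb0 hb (by norm_num)
  have b3 : ((χ * (R + 1) : ℕ) : ℝ)
      * (noisyError d J G δ ε L r + 2 * (χ / r * (L + 1)) + 3 * ballTail d L) ≤ 1 / N ^ 35 := by
    refine tiny_mul hN (a := 9) ?_ (by positivity)
      (tiny_add hN (tiny_add hN hnoisy b1 (e := 45) (by norm_num) (by norm_num)) b2 (e := 44)
        (by norm_num) (by norm_num)) (by norm_num)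
    push_cast
    exact grow_mul hN hχ' (by positivity) hR (by norm_num)
  have b4 : sweepConst d χ / 2 ^ R * (L + 1) ≤ 1 / N ^ 96 := by
    rw [show sweepConst d χ / 2 ^ R * (L + 1) = sweepConst d χ * (L + 1) * (1 / 2 ^ R) by ring]
    refine tiny_mul hN (grow_mul hN (a := 13) ?_ hL1 hL (e := 24) (by norm_num)) (by positivity)
      hR2 (by norm_num)
    unfold sweepConst
    exact grow_mul hN (grow_mul hN hχ' (Nat.cast_nonneg χ) hχ' (e := 2) (by norm_num))
      (by positivity) (grow_mul hN hP (by positivity) (grow_mul hN two hd0 hd' (e := 2)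
        (by norm_num)) (e := 11) (by norm_num)) (by norm_num)
  have hinner : innerError d χ G J δ ε L r R ≤ 1 / N ^ 33 := by
    unfold innerError
    exact tiny_add hN (tiny_add hN b3 b2 (e := 34) (by norm_num) (by norm_num)) b4 (by norm_num)
      (by norm_num)
  -- the tilt
  have c1 : tiltGap e₀ ρ G r * (L + 1) ≤ 1 / N ^ 44 := by
    have h2 : tiltGap e₀ ρ G r ≤ 1 / N ^ 55 := by
      unfold tiltGap
      refine tiny_add hN (a := 57) (b := 55 + 1) ?_ ?_ (by norm_num) (by norm_num)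
      · rw [mul_comm _ r]
        exact tiny_mul hN hr1 (by positivity) r3 (by norm_num)
      · rw [mul_comm _ (6 * r)]
        refine tiny_mul hN (grow_mul hN (const_le hN 3 (show (6 : ℝ) ≤ 2 ^ 3 by norm_num)) hr0.le
          hr1 (e := 63) (by norm_num)) (by positivity) (tiny_add hN hG
            (tiny_mul hN three he0 he (e := 295) (by norm_num)) (e := 119) (by norm_num)
            (by norm_num)) (by norm_num)
    rw [mul_comm]
    exact tiny_mul hN hL (by unfold tiltGap; positivity) h2 (by norm_num)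
  have c0 : 0 ≤ tiltGap e₀ ρ G r * (L + 1) := by unfold tiltGap; positivity
  have c2 : (L + 1) / r ≤ 1 / N ^ 49 := by
    rw [div_eq_mul_one_div]
    exact tiny_mul hN hL hinv hr' (by norm_num)
  have hdense : denseError d χ G J δ ε (tiltGap e₀ ρ G r) L r R ≤ 1 / N ^ 29 := by
    unfold denseError
    refine tiny_add hN (tiny_add hN (tiny_add hN (tiny_add hN hinner
      (tiny_mul hN eight c0 c1 (e := 41) (by norm_num)) (e := 32) (by norm_num) (by norm_num))
      (tiny_mul hN four ht0 ht (e := 118) (by norm_num)) (e := 31) (by norm_num) (by norm_num))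
      (tiny_mul hN four hb0 hb (e := 118) (by norm_num)) (e := 30) (by norm_num) (by norm_num))
      (tiny_add hN c2 hb (e := 48) (by norm_num) (by norm_num)) (by norm_num) (by norm_num)
  have hdense0 : 0 ≤ denseError d χ G J δ ε (tiltGap e₀ ρ G r) L r R := by
    have := sweepConst_nonneg d χ
    unfold denseError innerError
    positivity
  -- the whole run
  have hlen : 2 * (d : ℝ) * m * (L + 1) ≤ N ^ 16 :=
    grow_mul hN (grow_mul hN (grow_mul hN two hd0 hd' (e := 2) (by norm_num)) (Nat.cast_nonneg m)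
      hm (e := 5) (by norm_num)) hL1 hL (by norm_num)
  have d1 : 2 * (2 * (d : ℝ) * m * (L + 1) / r) ≤ 1 / N ^ 43 := by
    rw [show 2 * (2 * (d : ℝ) * m * (L + 1) / r)
      = 2 * (2 * (d : ℝ) * m * (L + 1)) * (1 / r) by ring]
    exact tiny_mul hN (grow_mul hN two (by positivity) hlen (e := 17) (by norm_num)) hinv hr'
      (by norm_num)
  have d2 : perturbConst * d * q * (2 * d * m * (L + 1)) ≤ 1 / N ^ 94 := by
    rw [show perturbConst * d * q * (2 * d * m * (L + 1))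
      = perturbConst * d * (2 * d * m * (L + 1)) * q by ring]
    exact tiny_mul hN (grow_mul hN (grow_mul hN hP hd0 hd' (e := 10) (by norm_num))
      (by positivity) hlen (e := 26) (by norm_num)) hq0 hq (by norm_num)
  have d3 : ((Ro + 1 : ℕ) : ℝ) * (denseError d χ G J δ ε (tiltGap e₀ ρ G r) L r R
      + 2 * (2 * d * m * (L + 1) / r) + 3 * ballTail d L) ≤ 1 / N ^ 14 := by
    refine tiny_mul hN (a := 13) (by push_cast; exact hRo) (by positivity)
      (tiny_add hN (tiny_add hN hdense d1 (e := 28) (by norm_num) (by norm_num)) b2 (e := 27)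
        (by norm_num) (by norm_num)) (by norm_num)
  refine ⟨le1 r1, le1 r3, (tiny_mono hN he (show 3 ≤ 297 by norm_num)).trans ?_, le1 s1, le1 s2,
    le1 hnoisy, le1 c1, le1 hdense, (tiny_add hN (tiny_add hN d3 b2 (e := 13) (by norm_num)
      (by norm_num)) d2 (e := 4) (by norm_num) (by norm_num)).trans ?_⟩
  · exact one_div_le_one_div_of_le (by norm_num)
      ((by norm_num : (8 : ℝ) ≤ 2 ^ 3).trans (pow_le_pow_left₀ (by norm_num) hN 3))
  · exact one_div_le_one_div_of_le (by norm_num)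
      ((by norm_num : (10 : ℝ) ≤ 2 ^ 4).trans (pow_le_pow_left₀ (by norm_num) hN 4))

end Monomials

/-- The number that controls all lengths. -/
def scaleExp (d : ℕ) : ℕ := Nat.clog 2 d + 5

theorem scaleExp_le {d : ℕ} (hd : 2 ≤ d) : (scaleExp d : ℝ) ≤ 11 * Real.log d := by
  have hdR : (2 : ℝ) ≤ d := by exact_mod_cast hd
  have hl2 : Real.log 2 ≤ Real.log d := Real.log_le_log two_pos hdR
  have hc : 0 < Nat.clog 2 d := Nat.clog_pos (by norm_num) hd
  obtain ⟨c, hc'⟩ : ∃ c, Nat.clog 2 d = c + 1 := ⟨Nat.clog 2 d - 1, by omega⟩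
  have h1 : 2 ^ c < d := by
    have := Nat.pow_pred_clog_lt_self (b := 2) (by norm_num) (x := d) (by omega)
    rwa [hc', Nat.pred_succ] at this
  have h2 : Real.log ((2 : ℝ) ^ c) ≤ Real.log d :=
    Real.log_le_log (by positivity) (by exact_mod_cast h1.le)
  rw [Real.log_pow] at h2
  have hc0 : (0 : ℝ) ≤ c := Nat.cast_nonneg c
  have h3 := Real.log_two_gt_d9
  simp only [scaleExp, hc']
  push_cast
  nlinarith [mul_le_mul_of_nonneg_left (show (0.69 : ℝ) ≤ Real.log 2 by linarith) hc0]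

/-- The number of queries of the chosen parameters. -/
theorem dense_size {χ m n k : ℕ} (hn : 1 ≤ n) (hχ : 1 ≤ χ) (hm : 1 ≤ m)
    (hk : 2 ^ k ≤ 4 * (120 * n)) :
    (4 * m * (120 * n) + 1) * (χ * (2 * (300 * n)) + 4 ^ (k + 1) * (χ * (2 * (300 * n)))
        + (120 * n + 1) * (1 + χ * (2 * (300 * n)))
        + χ * (120 * n + 1) * ((120 * n + 1 + 4 * (120 * n) * (25 * (120 * n + 1)))
          * (1 + 2 * (300 * n))))
      ≤ 100000000000000 * χ * m * n ^ 5 := by
  have h1 : 4 * m * (120 * n) + 1 ≤ 481 * (m * n) := by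
    have : 1 ≤ m * n := Nat.one_le_iff_ne_zero.2 (Nat.mul_ne_zero (by omega) (by omega))
    linarith
  have hP : 120 * n + 1 ≤ 121 * n := by omega
  have hχn : 1 ≤ χ * n := Nat.one_le_iff_ne_zero.2 (Nat.mul_ne_zero (by omega) (by omega))
  have hk4 : 4 ^ (k + 1) ≤ 4 * (480 * n) ^ 2 := by
    rw [pow_succ, show (4 : ℕ) = 2 ^ 2 by norm_num, ← pow_mul, mul_comm 2 k, pow_mul, mul_comm]
    exact Nat.mul_le_mul_left _ (Nat.pow_le_pow_left (hk.trans (by omega)) 2)
  have hA : χ * (2 * (300 * n)) = 600 * (χ * n) := by ring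
  have hB : 120 * n + 1 + 4 * (120 * n) * (25 * (120 * n + 1))
      ≤ 1452121 * n ^ 2 := by
    calc 120 * n + 1 + 4 * (120 * n) * (25 * (120 * n + 1))
        = (120 * n + 1) * (1 + 12000 * n) := by ring
      _ ≤ (121 * n) * (12001 * n) := Nat.mul_le_mul hP (by omega)
      _ = _ := by ring
  have h4 : χ * n ≤ χ * n ^ 4 := Nat.mul_le_mul_left _ (Nat.le_self_pow (by norm_num) n)
  have h5 : χ * n ^ 2 ≤ χ * n ^ 4 :=
    Nat.mul_le_mul_left _ (Nat.pow_le_pow_right (by omega) (by norm_num))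
  have h6 : χ * n ^ 3 ≤ χ * n ^ 4 :=
    Nat.mul_le_mul_left _ (Nat.pow_le_pow_right (by omega) (by norm_num))
  have t1 : 4 ^ (k + 1) * (χ * (2 * (300 * n))) ≤ 552960000 * (χ * n ^ 3) := by
    rw [hA]
    exact (Nat.mul_le_mul_right _ hk4).trans (le_of_eq (by ring))
  have t2 : (120 * n + 1) * (1 + χ * (2 * (300 * n))) ≤ 72721 * (χ * n ^ 2) := by
    rw [hA]
    exact (Nat.mul_le_mul hP (show 1 + 600 * (χ * n) ≤ 601 * (χ * n) by omega)).trans
      (le_of_eq (by ring))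
  have t3 : χ * (120 * n + 1) * ((120 * n + 1 + 4 * (120 * n) * (25 * (120 * n + 1)))
      * (1 + 2 * (300 * n))) ≤ 105599691241 * (χ * n ^ 4) :=
    (Nat.mul_le_mul (Nat.mul_le_mul_left χ hP)
      (Nat.mul_le_mul hB (show 1 + 2 * (300 * n) ≤ 601 * n by omega))).trans (le_of_eq (by ring))
  calc _ ≤ 481 * (m * n) * (200000000000 * (χ * n ^ 4)) := by
        refine Nat.mul_le_mul h1 ?_
        rw [hA] at t1 t2 ⊢
        linarith
    _ = 96200000000000 * (χ * m * n ^ 5) := by ring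
    _ ≤ _ := by
      rw [mul_assoc 100000000000000, mul_assoc 100000000000000]
      exact Nat.mul_le_mul_right _ (by norm_num)

/-- The parameters. -/
theorem dense_parameters {d χ m : ℕ} (hd : 2 ≤ d) (hχ1 : 1 ≤ χ) (hχ : χ ≤ d) (hm1 : 1 ≤ m)
    (hm : m ≤ 4 * χ) :
    ∃ Ro R G J K k D : ℕ, ∃ δ L₀ L r e₀ ρ ε : ℝ,
      ((((Ro + 1) * (χ * (2 * D) + 4 ^ (k + 1) * (χ * (2 * D)) + (G + 1) * (1 + χ * (2 * D))
        + χ * (R + 1) * ((G + 1 + J * K) * (1 + 2 * D)))) : ℕ) : ℝ)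
          ≤ 20000000000000000000 * χ * m * Real.log d ^ 5 ∧
      4 * (d : ℝ) / 2 ^ D = e₀ ∧ 2 * (3 / 5 : ℝ) ^ 2 ^ k + 40 ^ (k + 1) * e₀ = ρ ∧
      36 * r * e₀ ≤ ε ∧
      0 ≤ δ ∧ δ ≤ 1 / 4 ∧ Real.exp (3 * L₀) ≤ δ * 2 ^ K ∧ 2 ^ 1 * Real.exp (-L₀ / 4) ≤ δ ∧
      Real.exp (-((J : ℝ) / 2 ^ (1 + 1))) ≤ δ ∧ 0 ≤ L ∧ 1 ≤ r ∧
      40 ^ (k + 1) * e₀ ≤ 1 ∧ e₀ + ρ ≤ 1 ∧ e₀ ≤ 1 / 8 ∧ 24 * ε * d * r ≤ 1 ∧
      2 * ε * (8 * d * (r + L + 1)) * (L + 1) ≤ 1 ∧ noisyError d J G δ ε L r ≤ 1 ∧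
      tiltGap e₀ ρ G r * (L + 1) ≤ 1 ∧ denseError d χ G J δ ε (tiltGap e₀ ρ G r) L r R ≤ 1 ∧
      ((Ro + 1 : ℕ) : ℝ) * (denseError d χ G J δ ε (tiltGap e₀ ρ G r) L r R
          + 2 * (2 * d * m * (L + 1) / r) + 3 * ballTail d L)
        + 3 * ballTail d L
        + perturbConst * d * (1 / (1 + 1 / m / 4) ^ Ro) * (2 * d * m * (L + 1)) ≤ 1 / 10 := by
  set n := scaleExp d with hn
  set N : ℝ := 2 ^ n with hNdef
  have hn5 : 5 ≤ n := Nat.le_add_left 5 _
  have hN32 : (32 : ℝ) ≤ N := by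
    calc (32 : ℝ) = 2 ^ 5 := by norm_num
      _ ≤ N := pow_le_pow_right₀ (by norm_num) hn5
  have hN : 2 ≤ N := by linarith
  have hN0 : 0 < N := by linarith
  have hdN : (d : ℝ) ≤ N := by
    have h1 : d ≤ 2 ^ n := (Nat.le_pow_clog (by norm_num) d).trans
      (Nat.pow_le_pow_right (by norm_num) (Nat.le_add_right _ 5))
    rw [hNdef]; exact_mod_cast h1
  have hnN : (n : ℝ) ≤ N := by rw [hNdef]; exact_mod_cast (Nat.lt_two_pow_self (n := n)).le
  have hnN1 : (n : ℝ) ≤ N ^ 1 := by rwa [pow_one]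
  have hn0 : (0 : ℝ) ≤ n := Nat.cast_nonneg _
  have hnR : (5 : ℝ) ≤ n := by exact_mod_cast hn5
  have hχN : (χ : ℝ) ≤ N := le_trans (by exact_mod_cast hχ) hdN
  have hmN : (m : ℝ) ≤ N ^ 3 := by
    calc (m : ℝ) ≤ 4 * χ := by exact_mod_cast hm
      _ ≤ N ^ 3 := grow_mul hN (const_le hN 2 (by norm_num)) (Nat.cast_nonneg _)
          (hχN.trans_eq (pow_one N).symm) le_rfl
  have hpow : ∀ j : ℕ, (2 : ℝ) ^ (j * n) = N ^ j := fun j => by rw [hNdef, ← pow_mul]; ring_nf
  set p := 120 * n with hp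
  have hpN : (2 : ℝ) ^ p = N ^ 120 := hpow 120
  set L : ℝ := 8 * ((d : ℝ) + 2 + (p : ℕ)) with hLdef
  have hL0 : 0 ≤ L := by positivity
  have hL1 : L + 1 ≤ N ^ 11 := by
    rw [hLdef]; push_cast [hp]
    calc 8 * ((d : ℝ) + 2 + 120 * n) + 1 ≤ N ^ 10 * N ^ 1 := by
          have h := mul_le_mul_of_nonneg_right
            (const_le hN 10 (show (1024 : ℝ) ≤ 2 ^ 10 by norm_num)) hN0.le
          rw [pow_one]
          linarith
      _ = _ := by ring
  have hball : ballTail d L ≤ 1 / N ^ 120 := by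
    unfold ballTail
    refine (mul_le_mul_of_nonneg_right (two_pow_le_exp d) (Real.exp_nonneg _)).trans ?_
    rw [← Real.exp_add, ← hpN,
      show (d : ℝ) + -L / 4 = -((d : ℝ) + 4 + 2 * (p : ℕ)) by rw [hLdef]; ring]
    refine exp_neg_le_two_pow _ ?_
    linarith [Nat.cast_nonneg (α := ℝ) d, Nat.cast_nonneg (α := ℝ) p]
  have htail : tiltTail d L ≤ 1 / N ^ 120 := by
    unfold tiltTail
    refine (mul_le_mul_of_nonneg_right (two_pow_le_exp d) (Real.exp_nonneg _)).trans ?_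
    rw [← Real.exp_add, ← hpN, show (d : ℝ) + (2 - L / 8) = -((p : ℕ) : ℝ) by rw [hLdef]; ring]
    exact exp_neg_le_two_pow _ le_rfl
  have hexp : Real.exp (-L / 4) ≤ 1 / N ^ 120 := by
    rw [← hpN, show -L / 4 = -(2 * ((d : ℝ) + 2 + (p : ℕ))) by rw [hLdef]; ring]
    refine exp_neg_le_two_pow _ ?_
    linarith [Nat.cast_nonneg (α := ℝ) d, Nat.cast_nonneg (α := ℝ) p]
  set k := Nat.clog 2 (2 * p) with hkdef
  have hkl : 2 * p ≤ 2 ^ k := Nat.le_pow_clog (by norm_num) _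
  have hku : 2 ^ k ≤ 4 * p := by
    have hc : 0 < k := Nat.clog_pos (by norm_num) (by omega)
    have h := Nat.pow_pred_clog_lt_self (b := 2) (by norm_num) (x := 2 * p) (by omega)
    obtain ⟨c, hc'⟩ : ∃ c, k = c + 1 := ⟨k - 1, by omega⟩
    rw [← hkdef, hc', Nat.pred_succ] at h
    rw [hc', pow_succ]
    omega
  have h480 : (480 : ℝ) * n ≤ N ^ 10 :=
    grow_mul hN (const_le hN 9 (by norm_num)) hn0 hnN1 le_rfl
  have hk2 : (40 : ℝ) ^ (k + 1) ≤ N ^ 66 := by
    have h1 : (2 : ℝ) ^ k ≤ N ^ 10 := by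
      refine le_trans ?_ h480
      have : (2 : ℝ) ^ k ≤ ((4 * p : ℕ) : ℝ) := by exact_mod_cast hku
      refine this.trans (le_of_eq ?_)
      push_cast [hp]; ring
    rw [pow_succ, mul_comm]
    refine grow_mul hN (const_le hN 6 (by norm_num)) (by positivity) (b := 60) ?_ le_rfl
    refine (pow_le_pow_left₀ (by norm_num) (show (40 : ℝ) ≤ 2 ^ 6 by norm_num) k).trans ?_
    rw [← pow_mul, mul_comm 6 k, pow_mul, show (60 : ℕ) = 10 * 6 by norm_num, pow_mul]
    exact pow_le_pow_left₀ (by positivity) h1 6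
  have hk3 : (3 / 5 : ℝ) ^ 2 ^ k ≤ 1 / N ^ 120 := by
    rw [← hpN]
    refine (pow_le_pow_of_le_one (by norm_num) (by norm_num) hkl).trans ?_
    rw [pow_mul, ← one_div_pow]
    exact pow_le_pow_left₀ (by norm_num) (by norm_num) p
  set δ : ℝ := 1 / 2 ^ p with hδdef
  set L₀ : ℝ := 4 * ((p : ℝ) + 1) with hL₀def
  set e₀ : ℝ := 4 * (d : ℝ) / 2 ^ (300 * n) with he₀def
  have he : e₀ ≤ 1 / N ^ 297 := by
    rw [he₀def, hpow 300, div_eq_mul_one_div]
    exact tiny_mul hN (grow_mul hN (const_le hN 2 (by norm_num)) (Nat.cast_nonneg d)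
      (hdN.trans_eq (pow_one N).symm) (e := 3) le_rfl) (by positivity) le_rfl (by norm_num)
  have hm0 : (0 : ℝ) < m := by exact_mod_cast hm1
  have hq : 1 / (1 + 1 / (m : ℝ) / 4) ^ (4 * m * p) ≤ 1 / N ^ 120 := by
    rw [← hpN, pow_mul]
    refine one_div_le_one_div_of_le (by positivity) (pow_le_pow_left₀ (by norm_num) ?_ p)
    have h1 := one_add_mul_le_pow (a := 1 / (m : ℝ) / 4)
      (le_trans (by norm_num) (div_nonneg (div_nonneg zero_le_one hm0.le) (by norm_num))) (4 * m)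
    rw [show ((4 * m : ℕ) : ℝ) * (1 / (m : ℝ) / 4) = 1 by push_cast; field_simp] at h1
    linarith
  have hR : (p : ℝ) + 1 ≤ N ^ 8 := by
    push_cast [hp]
    calc (120 : ℝ) * n + 1 ≤ 121 * n := by linarith
      _ ≤ N ^ 8 := grow_mul hN (const_le hN 7 (by norm_num)) hn0 hnN1 le_rfl
  have hJ : ((4 * p : ℕ) : ℝ) ≤ N ^ 10 := by
    refine le_of_eq_of_le ?_ h480
    push_cast [hp]; ring
  have hRo : ((4 * m * p : ℕ) : ℝ) + 1 ≤ N ^ 13 := by
    push_cast [hp]
    calc 4 * (m : ℝ) * (120 * n) + 1 ≤ 481 * m * n := by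
          have : (1 : ℝ) ≤ m * n := one_le_mul_of_one_le_of_one_le (by exact_mod_cast hm1)
            (by linarith)
          linarith
      _ ≤ N ^ 13 := grow_mul hN (grow_mul hN (const_le hN 9 (by norm_num)) hm0.le hmN le_rfl) hn0
          hnN1 le_rfl
  obtain ⟨f1, f2, f3, f4, f5, f6, f7, f8, f9⟩ := dense_errors (N := N) (d := d) (χ := χ) (G := p)
    (R := p) (J := 4 * p) (k := k) (m := m) (Ro := 4 * m * p) (δ := δ) (L := L) (r := N ^ 60)
    (e₀ := e₀) hN hdN hχN hmN hR hJ hRo hk2 hk3 hL1 hL0 rfl (by rw [hδdef, hpN]) (by positivity)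
    (by rw [← hpN, one_div_pow]) (by rw [hpN]) hexp hball htail (by positivity) he rfl rfl
    (by positivity) hq
  refine ⟨4 * m * p, p, p, 4 * p, 25 * (p + 1), k, 300 * n, δ, L₀, L, N ^ 60, e₀, _, _, ?_, rfl,
    rfl, le_rfl, by positivity, ?_, ?_, ?_, ?_, hL0, one_le_pow₀ (by linarith), f1, f2, f3, f4, f5,
    f6, f7, f8, f9⟩
  · have h := dense_size (χ := χ) (m := m) (n := n) (k := k) (by omega) hχ1 hm1 hku
    refine (Nat.cast_le.2 h).trans ?_
    push_cast
    have hl := Real.log_natCast_nonneg d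
    calc 100000000000000 * (χ : ℝ) * m * (n : ℝ) ^ 5
        ≤ 100000000000000 * χ * m * (11 * Real.log d) ^ 5 := by gcongr; exact scaleExp_le hd
      _ ≤ _ := by
          have : (0 : ℝ) ≤ χ * m * Real.log d ^ 5 := by positivity
          linarith
  · rw [hδdef, hpN]
    exact one_div_le_one_div_of_le (by norm_num) ((show (4 : ℝ) ≤ N by linarith).trans
      (le_self_pow₀ (by linarith) (by norm_num)))
  · rw [hδdef, show 3 * L₀ = ((12 * (p + 1) : ℕ) : ℝ) by rw [hL₀def]; push_cast; ring,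
      one_div_mul_eq_div, ← Real.exp_one_pow, le_div_iff₀ (by positivity)]
    calc Real.exp 1 ^ (12 * (p + 1)) * 2 ^ p ≤ 4 ^ (12 * (p + 1)) * 2 ^ (p + 1) := by
          refine mul_le_mul (pow_le_pow_left₀ (Real.exp_nonneg _)
            (by linarith [Real.exp_one_lt_three]) _) (pow_le_pow_right₀ (by norm_num) (by omega))
            (by positivity) (by positivity)
      _ = 2 ^ (25 * (p + 1)) := by
          rw [pow_mul, pow_mul, ← mul_pow]
          exact congrArg (fun x : ℝ => x ^ (p + 1)) (by norm_num)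
  · rw [hδdef, show -L₀ / 4 = -(((p + 1 : ℕ)) : ℝ) by rw [hL₀def]; push_cast; ring]
    refine (mul_le_mul_of_nonneg_left (exp_neg_le_two_pow (p + 1) le_rfl) (by norm_num)).trans
      (le_of_eq ?_)
    rw [pow_succ (2 : ℝ) p]; field_simp
  · rw [hδdef]
    refine exp_neg_le_two_pow _ ?_
    push_cast
    linarith

/-- A colouring with no more colours than coordinates. -/
theorem colours_reduce {d χ : ℕ} (hχ : 1 ≤ χ) (hd : 1 ≤ d) (col : Fin d → Fin χ) :
    ∃ χ' : ℕ, ∃ col' : Fin d → Fin χ', 1 ≤ χ' ∧ χ' ≤ d ∧ χ' ≤ χ ∧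
      ∀ i k, col' i = col' k → i ≠ k → col i = col k := by
  by_cases h : χ ≤ d
  · exact ⟨χ, col, hχ, h, le_rfl, fun i k e _ => e⟩
  · exact ⟨d, id, hd, le_rfl, by omega, fun i k e h' => absurd e h'⟩

/-- **Polylogarithmic queries for constant interactions inside colours.** -/
theorem dense_targets :
    ∃ C : ℝ, ∀ d : ℕ, 2 ≤ d → ∀ χ : ℕ, 1 ≤ χ → ∀ col : Fin d → Fin χ,
      ∃ q : ℕ, (q : ℝ) ≤ C * χ * Real.sqrt χ * Real.log d ^ 5 ∧
        ∃ (Ω : Type) (_ : MeasurableSpace Ω) (P : Measure Ω) (M : Type) (_ : MeasurableSpace M)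
          (init : M) (query : Ω → M → EuclideanSpace ℝ (Fin d))
          (update : Ω → M → ℝ × EuclideanSpace ℝ (Fin d) → M) (out : M → EuclideanSpace ℝ (Fin d)),
          StandardBorelSpace Ω ∧ IsProbabilityMeasure P ∧ Measurable (Function.uncurry query) ∧
          Measurable (fun z : (Ω × (ℝ × EuclideanSpace ℝ (Fin d))) × M => update z.1.1 z.2 z.1.2) ∧
          Measurable out ∧
          ∀ V : EuclideanSpace ℝ (Fin d) → ℝ, ContDiff ℝ 2 V → V 0 = 0 → gradient V 0 = 0 →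
            (∀ x h, ‖h‖ ^ 2 ≤ iteratedFDeriv ℝ 2 V x ![h, h] ∧
              iteratedFDeriv ℝ 2 V x ![h, h] ≤ 2 * ‖h‖ ^ 2) →
            (∀ x i k, i ≠ k → col i = col k → iteratedFDeriv ℝ 2 V x
                ![EuclideanSpace.single i 1, EuclideanSpace.single k 1]
              = iteratedFDeriv ℝ 2 V 0
                ![EuclideanSpace.single i 1, EuclideanSpace.single k 1]) →
            ∀ S : Set (EuclideanSpace ℝ (Fin d)), MeasurableSet S →
              |(P.map fun ω => out ((fun s =>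
                  update ω s (V (query ω s), gradient V (query ω s)))^[q] init)).real S
                - (∫ x in S, Real.exp (-V x)) / ∫ x, Real.exp (-V x)| ≤ 1 / 10 := by
  refine ⟨20000000000000000000 * 4, fun d hd χ₀ hχ₀ col₀ => ?_⟩
  obtain ⟨χ, col, hχ1, hχd, hχle, hcols⟩ := colours_reduce hχ₀ (by omega) col₀
  have : NeZero χ := ⟨by omega⟩
  set s := Nat.sqrt χ + 1 with hs
  set m := 2 * s with hm
  have hs2 : 2 ≤ s := by
    have := Nat.sqrt_pos.2 (show 0 < χ by omega)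
    omega
  have hsq : χ < s * s := by
    have := Nat.lt_succ_sqrt χ
    simpa [hs] using this
  have hmle : m ≤ 4 * χ := by
    have := Nat.sqrt_le_self χ
    omega
  obtain ⟨Ro, R, G, J, K, k, D, δ, L₀, L, r, e₀, ρ, ε, hq, he, hρ, hεd, hδ0, hδ, hK, hL₀, hJ, hL,
    hr, hk, heρ, he8, hs1, hs2', hE, hτ, hO, hsum⟩ :=
    dense_parameters hd hχ1 hχd (show 1 ≤ m by omega) hmle
  set η : ℝ := 1 / (m : ℝ) with hη
  have hmR : (4 : ℝ) ≤ m := by exact_mod_cast (show 4 ≤ m by omega)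
  have h0 : 0 < η := by rw [hη]; positivity
  have h1 : η ≤ 1 / 4 := one_div_le_one_div_of_le (by norm_num) hmR
  have hχη : (χ : ℝ) * (2 * η) ^ 2 ≤ 1 := by
    rw [hη, mul_one_div, div_pow, ← mul_div_assoc, div_le_one (by positivity), hm]
    have : (χ : ℝ) ≤ (s : ℝ) * s := by exact_mod_cast hsq.le
    push_cast
    linarith
  set T := χ * (R + 1)
  set A := sampler col η D k G (Ro + 1) T (J := J) (K := K) with hAdef
  have hsize : A.size ≤ (Ro + 1) * (χ * (2 * D) + 4 ^ (k + 1) * (χ * (2 * D))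
      + (G + 1) * (1 + χ * (2 * D)) + χ * (R + 1) * ((G + 1 + J * K) * (1 + 2 * D))) :=
    sampler_size (Ro + 1) T
  have hpos : 0 < A.size := by
    simp only [hAdef, sampler, Alg.seq, Alg.comap, Alg.pure, Nat.add_zero]
    rw [Alg.loop_size (fun _ => rfl) (Ro + 1)]
    refine Nat.mul_pos (Nat.succ_pos _) ?_
    simp only [outerAlg, Alg.seq, Alg.comap, Alg.pure, descentAlg_size, gradPlus_size]
    omega
  have hAm : A.Meas := sampler_meas (Ro + 1) T
  refine ⟨A.size, ?_, AllSeeds d (Ro + 1) T J K, inferInstance,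
    Measure.pi fun _ => outerSeedLaw d T J K, AlgMemory d (Space d), inferInstance,
    (0, fun _ => 0, 0), A.machineQuery, A.machineUpdate, fun st => st.2.2, ?_, inferInstance,
    (Alg.machine_meas hAm).1, (Alg.machine_meas hAm).2, by fun_prop,
    fun V hV hV0 hg hH hcol S hS => ?_⟩
  · refine ((Nat.cast_le.2 hsize).trans hq).trans ?_
    have hmb : (m : ℝ) ≤ 4 * Real.sqrt χ₀ := by
      have a1 : (Nat.sqrt χ : ℝ) ≤ Real.sqrt χ₀ := Real.nat_sqrt_le_real_sqrt.trans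
        (Real.sqrt_le_sqrt (by exact_mod_cast hχle))
      have a2 : 1 ≤ Real.sqrt χ₀ := by
        rw [Real.one_le_sqrt]; exact_mod_cast hχ₀
      push_cast [hm, hs]
      linarith
    have hl := Real.log_natCast_nonneg d
    have hc : (χ : ℝ) ≤ χ₀ := by exact_mod_cast hχle
    calc 20000000000000000000 * (χ : ℝ) * m * Real.log d ^ 5
        ≤ 20000000000000000000 * χ₀ * (4 * Real.sqrt χ₀) * Real.log d ^ 5 := by gcongr
      _ = _ := by ring
  · have : StandardBorelSpace (StepSeed d J K) := standardBorel_omega id J K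
    have : StandardBorelSpace (Fin T → StepSeed d J K) := StandardBorelSpace.pi_countable
    exact StandardBorelSpace.pi_countable
  have hF : Frozen V col := ⟨hV, hV0, hg, hH, fun x i k hik hc => hcol x i k hik (hcols i k hc hik)⟩
  have hB : Block V (gradient V) := block_of_hessian hV hV0 hg hH
  have hh : Test (S.indicator fun _ : Space d => (1 : ℝ)) :=
    ⟨measurable_const.indicator hS, fun x => Set.indicator_nonneg (fun _ _ => zero_le_one) x,
      fun x => Set.indicator_le_self' (fun _ _ => zero_le_one) x⟩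
  have hclose := sampler_close (Ro := Ro) hF h0 h1 hχη he hk hρ heρ he8 hεd hδ0 hδ hK hL₀ hJ hr
    (by omega) hL hs1 hs2' hE hτ hO hh
  have hmeas : Measurable fun ω : AllSeeds d (Ro + 1) T J K => A.eval (oracle V) ω :=
    hAm.eval (O := fun _ => oracle V) ((frozen_oracle_measurable hF).comp measurable_snd)
      measurable_id
  have hsame : (fun ω : AllSeeds d (Ro + 1) T J K => ((fun st => A.machineUpdate ω st
      (V (A.machineQuery ω st), gradient V (A.machineQuery ω st)))^[A.size]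
        (0, fun _ => 0, 0)).2.2) = fun ω => A.eval (oracle V) ω :=
    funext fun ω => A.machine_run (oracle V) ω 0 hpos
  rw [hsame, ← real_gibbs hB hS]
  have e1 : ((Measure.pi fun _ : Fin (Ro + 1) => outerSeedLaw d T J K).map
      fun ω => A.eval (oracle V) ω).real S
      = ∫ ω, S.indicator (fun _ : Space d => (1 : ℝ)) (A.eval (oracle V) ω)
          ∂Measure.pi fun _ : Fin (Ro + 1) => outerSeedLaw d T J K := by
    rw [← integral_map hmeas.aemeasurable hh.meas.aestronglyMeasurable,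
      integral_indicator_const _ hS, smul_eq_mul, mul_one]
  have e2 : (gibbs V).real S = ∫ x, S.indicator (fun _ : Space d => (1 : ℝ)) x ∂gibbs V := by
    rw [integral_indicator_const _ hS, smul_eq_mul, mul_one]
  rw [e1, e2]
  refine hclose.trans (le_trans ?_ hsum)
  have hsm : 2 * (d : ℝ) / Real.sqrt η ≤ 2 * d * m := by
    rw [div_eq_mul_inv]
    refine mul_le_mul_of_nonneg_left ?_ (by positivity)
    rw [hη, one_div, Real.sqrt_inv, inv_inv]
    exact (Real.sqrt_le_left (by positivity)).2 (by nlinarith)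
  have hc0 : 0 ≤ perturbConst := by unfold perturbConst; positivity
  rw [div_eq_mul_one_div (perturbConst * d)]
  gcongr

end

end P347
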