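import Vale.Agent.P347.Any.Alg
import Vale.Agent.P347.Local.Model

/-!
# P347: the square root of a symmetric operator by Newton's iteration
-/

namespace P347

open MeasureTheory Finset
open scoped BigOperators RealInnerProductSpace

noncomputable section

variable {d : ℕ}

/-- A square root of a symmetric operator between one and two. -/
structure Root (M : Space d →L[ℝ] Space d) (S : Space d ≃L[ℝ] Space d) : Prop where
  sq : ∀ v, S (S v) = M v
  symm : ∀ u v, ⟪S u, v⟫ = ⟪u, S v⟫
  lower : ∀ v, ‖v‖ ≤ ‖S v‖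
  upper : ∀ v, ‖S v‖ ≤ 2 * ‖v‖

/-- Newton's iteration for the inverse square root, from a map that applies the operator. -/
def invRoot (Mt : Space d → Space d) : ℕ → Space d → Space d
  | 0, v => (7 / 10 : ℝ) • v
  | k + 1, v => (3 / 2 : ℝ) • invRoot Mt k v
      - (1 / 2 : ℝ) • Mt (invRoot Mt k (invRoot Mt k (invRoot Mt k v)))

/-- The approximate square root. -/
def rootApprox (Mt : Space d → Space d) (k : ℕ) (v : Space d) : Space d := Mt (invRoot Mt k v)

/-- Newton's iteration on a number. -/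
def scalarRoot (t : ℝ) : ℕ → ℝ
  | 0 => 7 / 10
  | k + 1 => 3 / 2 * scalarRoot t k - 1 / 2 * (t * scalarRoot t k ^ 3)

theorem scalarRoot_spec {t : ℝ} (h1 : 1 ≤ t) (h2 : t ≤ 2) :
    ∀ k, 0 ≤ scalarRoot t k ∧ scalarRoot t k ≤ 1 ∧ t * scalarRoot t k ^ 2 ≤ 1 ∧
      1 - t * scalarRoot t k ^ 2 ≤ (3 / 5 : ℝ) ^ 2 ^ k
  | 0 => by
    simp only [scalarRoot, pow_zero, pow_one]
    refine ⟨by norm_num, by norm_num, ?_, ?_⟩ <;> nlinarith
  | k + 1 => by
    obtain ⟨r0, -, r2, r3⟩ := scalarRoot_spec h1 h2 k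
    set r := scalarRoot t k
    set q := 1 - t * r ^ 2 with hq
    have hq0 : 0 ≤ q := by linarith
    have hq1 : q ≤ 1 := by
      have : 0 ≤ t * r ^ 2 := by positivity
      linarith
    have e0 : scalarRoot t (k + 1) = r * (2 + q) / 2 := by
      simp only [scalarRoot, hq]; ring
    have e : 1 - t * scalarRoot t (k + 1) ^ 2 = q ^ 2 * (3 + q) / 4 := by
      rw [e0, hq]; ring
    have hn0 : 0 ≤ scalarRoot t (k + 1) := by rw [e0]; positivity
    have hn2 : t * scalarRoot t (k + 1) ^ 2 ≤ 1 := by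
      have : 0 ≤ q ^ 2 * (3 + q) / 4 := by positivity
      linarith
    refine ⟨hn0, ?_, hn2, ?_⟩
    · by_contra hc
      have := mul_lt_mul (one_lt_pow₀ (not_le.1 hc) two_ne_zero) h1 one_pos (by positivity)
      linarith
    · rw [e, pow_succ 2 k, pow_mul]
      refine le_trans ?_ (pow_le_pow_left₀ hq0 r3 2)
      have := mul_le_mul_of_nonneg_left hq1 (sq_nonneg q)
      linarith

section Diagonal

variable (b : OrthonormalBasis (Fin d) ℝ (Space d))

/-- Multiply the coordinates in a basis. -/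
def diagOp (f : Fin d → ℝ) : Space d →ₗ[ℝ] Space d where
  toFun v := b.repr.symm (WithLp.toLp 2 fun i => f i * b.repr v i)
  map_add' u v := by
    rw [← map_add]; refine congrArg b.repr.symm ?_
    ext i; simp [mul_add]
  map_smul' a v := by
    simp only [RingHom.id_apply]
    rw [← map_smul]; refine congrArg b.repr.symm ?_
    ext i; simp; ring

theorem diagOp_repr (f : Fin d → ℝ) (v : Space d) (i : Fin d) :
    b.repr (diagOp b f v) i = f i * b.repr v i := by simp [diagOp]

theorem diagOp_diagOp (f g : Fin d → ℝ) (v : Space d) :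
    diagOp b f (diagOp b g v) = diagOp b (fun i => f i * g i) v := by
  refine b.repr.injective ?_
  ext i; simp [diagOp_repr]; ring

theorem diagOp_norm (f : Fin d → ℝ) {c : ℝ} (hc : 0 ≤ c) (hf : ∀ i, |f i| ≤ c) (v : Space d) :
    ‖diagOp b f v‖ ≤ c * ‖v‖ := by
  refine le_of_pow_le_pow_left₀ two_ne_zero (by positivity) ?_
  rw [← b.repr.norm_map, ← b.repr.norm_map v, mul_pow, EuclideanSpace.norm_sq_eq,
    EuclideanSpace.norm_sq_eq, mul_sum]
  refine sum_le_sum fun i _ => ?_
  rw [diagOp_repr, norm_mul, mul_pow]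
  exact mul_le_mul_of_nonneg_right (pow_le_pow_left₀ (norm_nonneg _) (hf i) 2) (sq_nonneg _)

theorem diagOp_symm (f : Fin d → ℝ) (u v : Space d) :
    ⟪diagOp b f u, v⟫ = ⟪u, diagOp b f v⟫ := by
  rw [← b.repr.inner_map_map, ← b.repr.inner_map_map u, PiLp.inner_apply, PiLp.inner_apply]
  refine sum_congr rfl fun i _ => ?_
  simp [diagOp_repr]; ring

end Diagonal

theorem exists_root (M : Space d →L[ℝ] Space d) (hsym : ∀ u v, ⟪M u, v⟫ = ⟪u, M v⟫)
    (hb : ∀ v, ‖v‖ ^ 2 ≤ ⟪M v, v⟫ ∧ ⟪M v, v⟫ ≤ 2 * ‖v‖ ^ 2) :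
    ∃ S : Space d ≃L[ℝ] Space d, Root M S ∧
      ∀ (Mt : Space d → Space d) (ε : ℝ) (k : ℕ), 0 ≤ ε → 40 ^ (k + 1) * ε ≤ 1 →
        (∀ v, ‖Mt v - M v‖ ≤ ε * ‖v‖) → ∀ v, ‖rootApprox Mt k v - S v‖
          ≤ (2 * (3 / 5 : ℝ) ^ 2 ^ k + 40 ^ (k + 1) * ε) * ‖v‖ := by
  have hT : (M : Space d →ₗ[ℝ] Space d).IsSymmetric := hsym
  set b := hT.eigenvectorBasis finrank_euclideanSpace_fin
  set l := hT.eigenvalues finrank_euclideanSpace_fin
  have hMb : ∀ i, M (b i) = l i • b i := fun i => by
    exact hT.apply_eigenvectorBasis finrank_euclideanSpace_fin i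
  have hl : ∀ i, 1 ≤ l i ∧ l i ≤ 2 := fun i => by
    have h := hb (b i)
    rw [hMb, real_inner_smul_left, real_inner_self_eq_norm_sq, b.orthonormal.1 i] at h
    constructor <;> linarith [h.1, h.2]
  have hM : ∀ v, M v = diagOp b l v := fun v => by
    refine b.repr.injective ?_
    ext i
    rw [diagOp_repr, b.repr_apply_apply, ← hsym, hMb, real_inner_smul_left, b.repr_apply_apply]
  set g := fun i => Real.sqrt (l i)
  have hg1 : ∀ i, 1 ≤ g i := fun i => Real.one_le_sqrt.2 (hl i).1
  have hg2 : ∀ i, g i ≤ 2 := fun i => by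
    rw [Real.sqrt_le_iff]; exact ⟨by norm_num, by linarith [(hl i).2]⟩
  have hgg : ∀ i, g i * g i = l i := fun i => Real.mul_self_sqrt (by linarith [(hl i).1])
  have hone : ∀ v, diagOp b (fun _ => 1) v = v := fun v => by
    refine b.repr.injective ?_
    ext i; simp [diagOp_repr]
  let S₀ : Space d ≃ₗ[ℝ] Space d := LinearEquiv.ofLinearMap (diagOp b g)
    (diagOp b fun i => (g i)⁻¹)
    (LinearMap.ext fun v => by
      simp only [LinearMap.comp_apply, diagOp_diagOp, LinearMap.id_apply]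
      rw [show (fun i => g i * (g i)⁻¹) = fun _ : Fin d => (1 : ℝ) from
        funext fun i => mul_inv_cancel₀ (by linarith [hg1 i]), hone])
    (LinearMap.ext fun v => by
      simp only [LinearMap.comp_apply, diagOp_diagOp, LinearMap.id_apply]
      rw [show (fun i => (g i)⁻¹ * g i) = fun _ : Fin d => (1 : ℝ) from
        funext fun i => inv_mul_cancel₀ (by linarith [hg1 i]), hone])
  have hS : ∀ v, S₀.toContinuousLinearEquiv v = diagOp b g v := fun v => rfl
  refine ⟨S₀.toContinuousLinearEquiv, ⟨fun v => ?_, fun u v => ?_, fun v => ?_, fun v => ?_⟩, ?_⟩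
  · simp only [hS, diagOp_diagOp, hM, hgg]
  · simp only [hS, diagOp_symm]
  · have h := diagOp_norm b (fun i => (g i)⁻¹) zero_le_one (fun i => by
      rw [abs_inv, abs_of_nonneg (by linarith [hg1 i])]
      exact inv_le_one_of_one_le₀ (hg1 i)) (diagOp b g v)
    rw [diagOp_diagOp, show (fun i => (g i)⁻¹ * g i) = fun _ : Fin d => (1 : ℝ) from
      funext fun i => inv_mul_cancel₀ (by linarith [hg1 i]), hone, one_mul] at h
    exact h
  · exact diagOp_norm b g two_pos.le (fun i => by
      rw [abs_of_nonneg (by linarith [hg1 i])]; exact hg2 i) v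
  intro Mt ε k hε hk hMt v
  set r := fun j => diagOp b fun i => scalarRoot (l i) j with hr
  have hr1 : ∀ j v, ‖r j v‖ ≤ ‖v‖ := fun j v => by
    simpa using diagOp_norm b (fun i => scalarRoot (l i) j) zero_le_one (fun i => by
      obtain ⟨a, c, -, -⟩ := scalarRoot_spec (hl i).1 (hl i).2 j
      rwa [abs_of_nonneg a]) v
  have hr2 : ∀ j v, r (j + 1) v = (3 / 2 : ℝ) • r j v - (1 / 2 : ℝ) • M (r j (r j (r j v))) := by
    intro j v
    refine b.repr.injective ?_
    ext i
    simp only [hr, hM, map_sub, map_smul, WithLp.ofLp_sub, WithLp.ofLp_smul, Pi.sub_apply,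
      Pi.smul_apply, smul_eq_mul, diagOp_repr, scalarRoot]
    ring
  have hMn : ∀ v, ‖M v‖ ≤ 2 * ‖v‖ := fun v => by
    rw [hM]
    exact diagOp_norm b l two_pos.le (fun i => by
      rw [abs_of_nonneg (by linarith [(hl i).1])]; exact (hl i).2) v
  have hε1 : ∀ j, j ≤ k → ((20 : ℝ) ^ j - 1) * ε ≤ 1 := fun j hj => by
    refine le_trans (mul_le_mul_of_nonneg_right ?_ hε) hk
    have := pow_le_pow_left₀ (by norm_num) (show (20 : ℝ) ≤ 40 by norm_num) j
    have := pow_le_pow_right₀ (show (1 : ℝ) ≤ 40 by norm_num) (show j ≤ k + 1 by omega)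
    linarith
  have herr : ∀ j, j ≤ k → ∀ v, ‖invRoot Mt j v - r j v‖ ≤ ((20 : ℝ) ^ j - 1) * ε * ‖v‖ := by
    intro j
    induction j with
    | zero =>
      intro _ v
      have e : r 0 v = (7 / 10 : ℝ) • v := by
        refine b.repr.injective ?_
        ext i; simp [hr, diagOp_repr, scalarRoot]
      simp [invRoot, e]
    | succ j ih =>
      intro hj v
      have ih := ih (by omega)
      set ρ := ((20 : ℝ) ^ j - 1) * ε
      have hρ1 : ρ ≤ 1 := hε1 j (by omega)
      have hρ0 : 0 ≤ ρ := mul_nonneg (sub_nonneg.2 (one_le_pow₀ (by norm_num))) hε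
      set R := invRoot Mt j
      have hgrow : ∀ u, ‖R u‖ ≤ 2 * ‖u‖ := fun u => by
        have h1 := norm_le_norm_add_norm_sub' (R u) (r j u)
        have h2 := (ih u).trans (mul_le_of_le_one_left (norm_nonneg u) hρ1)
        linarith [hr1 j u]
      have hd : ∀ u w, ‖R u - r j w‖ ≤ ρ * ‖u‖ + ‖u - w‖ := fun u w => by
        refine (norm_sub_le_norm_sub_add_norm_sub _ (r j u) _).trans (add_le_add (ih u) ?_)
        rw [← map_sub]
        exact hr1 j _
      have a1 := ih v
      have a2 := hd (R v) (r j v)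
      have a3 := hd (R (R v)) (r j (r j v))
      have g1 := hgrow v
      have g2 := hgrow (R v)
      have g3 := hgrow (R (R v))
      have b2 : ‖R (R v) - r j (r j v)‖ ≤ 3 * ρ * ‖v‖ := by nlinarith
      have b3 : ‖R (R (R v)) - r j (r j (r j v))‖ ≤ 7 * ρ * ‖v‖ := by nlinarith
      set a := R (R (R v))
      set a' := r j (r j (r j v))
      have b4 : ‖Mt a - M a'‖ ≤ (8 * ε + 14 * ρ) * ‖v‖ := by
        refine (norm_sub_le_norm_sub_add_norm_sub _ (M a) _).trans ?_
        rw [← map_sub]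
        have := hMn (a - a')
        nlinarith [hMt a]
      rw [hr2, invRoot, show (3 / 2 : ℝ) • R v - (1 / 2 : ℝ) • Mt a
          - ((3 / 2 : ℝ) • r j v - (1 / 2 : ℝ) • M a')
        = (3 / 2 : ℝ) • (R v - r j v) - (1 / 2 : ℝ) • (Mt a - M a') by module]
      refine (norm_sub_le _ _).trans ?_
      rw [norm_smul, norm_smul, Real.norm_eq_abs, Real.norm_eq_abs, abs_of_pos (by norm_num),
        abs_of_pos (by norm_num : (0 : ℝ) < 1 / 2), pow_succ]
      have hp : (1 : ℝ) ≤ 20 ^ j := one_le_pow₀ (by norm_num)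
      have : 0 ≤ ε * ‖v‖ := by positivity
      have := mul_nonneg (sub_nonneg.2 hp) this
      nlinarith
  have hk1 := herr k le_rfl v
  set ρ := ((20 : ℝ) ^ k - 1) * ε
  have hρ1 : ρ ≤ 1 := hε1 k le_rfl
  have hsc : ‖M (r k v) - S₀.toContinuousLinearEquiv v‖ ≤ 2 * (3 / 5 : ℝ) ^ 2 ^ k * ‖v‖ := by
    rw [hS, hM, hr, diagOp_diagOp, ← LinearMap.sub_apply,
      show diagOp b (fun i => l i * scalarRoot (l i) k) - diagOp b g
        = diagOp b fun i => l i * scalarRoot (l i) k - g i from LinearMap.ext fun u => by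
          refine b.repr.injective ?_
          ext i; simp [diagOp_repr]; ring]
    refine diagOp_norm b _ (by positivity) (fun i => ?_) v
    obtain ⟨x0, -, x2, x3⟩ := scalarRoot_spec (hl i).1 (hl i).2 k
    set x := scalarRoot (l i) k
    have e : g i * x * (g i * x) = l i * x ^ 2 := by rw [← hgg i]; ring
    have hx0 : 0 ≤ g i * x := mul_nonneg (by linarith [hg1 i]) x0
    have hx1 : g i * x ≤ 1 := by nlinarith
    rw [show l i * x - g i = -(g i * (1 - g i * x)) by rw [← hgg i]; ring, abs_neg,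
      abs_of_nonneg (mul_nonneg (by linarith [hg1 i]) (by linarith))]
    exact mul_le_mul (hg2 i) (by nlinarith) (by linarith) (by norm_num)
  have hgrow : ‖invRoot Mt k v‖ ≤ 2 * ‖v‖ := by
    have h1 := norm_le_norm_add_norm_sub' (invRoot Mt k v) (r k v)
    have h2 := hk1.trans (mul_le_of_le_one_left (norm_nonneg v) hρ1)
    linarith [hr1 k v]
  unfold rootApprox
  refine (norm_sub_le_norm_sub_add_norm_sub _ (M (r k v)) _).trans ?_
  rw [add_mul, add_comm (2 * _ * ‖v‖)]
  refine add_le_add ?_ hsc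
  refine (norm_sub_le_norm_sub_add_norm_sub _ (M (invRoot Mt k v)) _).trans ?_
  rw [← map_sub]
  have h1 := hMn (invRoot Mt k v - r k v)
  have h2 := hMt (invRoot Mt k v)
  have h3 : 2 * (20 : ℝ) ^ k ≤ 40 ^ (k + 1) := by
    rw [pow_succ]
    nlinarith [pow_le_pow_left₀ (by norm_num) (show (20 : ℝ) ≤ 40 by norm_num) k,
      one_le_pow₀ (n := k) (show (1 : ℝ) ≤ 40 by norm_num)]
  have h4 := mul_le_mul_of_nonneg_right h3 (mul_nonneg hε (norm_nonneg v))
  nlinarith

/-- Newton's iteration as a procedure. -/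
def invRootAlg (A : Alg d (Space d) (Space d)) : ℕ → Alg d (Space d) (Space d)
  | 0 => Alg.pure d fun v => (7 / 10 : ℝ) • v
  | k + 1 => (invRootAlg A k).seq (((invRootAlg A k).comap Prod.snd).seq
      (((invRootAlg A k).comap Prod.snd).seq ((A.comap Prod.snd).seq
        (Alg.pure d fun z => (3 / 2 : ℝ) • z.1.1.1.2 - (1 / 2 : ℝ) • z.2))))

/-- The approximate square root as a procedure, from a procedure that applies the operator. -/
def rootAlg (A : Alg d (Space d) (Space d)) (k : ℕ) : Alg d (Space d) (Space d) :=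
  (invRootAlg A k).seq (A.comap Prod.snd)

theorem invRootAlg_eval (A : Alg d (Space d) (Space d)) (O : Space d → Reply d) :
    ∀ k v, (invRootAlg A k).eval O v = invRoot (A.eval O) k v
  | 0, v => rfl
  | k + 1, v => by
    simp only [invRootAlg, Alg.seq_eval, Alg.comap_eval, Alg.pure_eval, invRootAlg_eval A O k,
      invRoot]

theorem rootAlg_eval (A : Alg d (Space d) (Space d)) (k : ℕ)
    (O : Space d → Reply d) (v : Space d) :
    (rootAlg A k).eval O v = rootApprox (A.eval O) k v := by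
  simp only [rootAlg, Alg.seq_eval, Alg.comap_eval, invRootAlg_eval, rootApprox]

theorem invRootAlg_size (A : Alg d (Space d) (Space d)) :
    ∀ k, (invRootAlg A k).size ≤ (4 ^ k - 1) * A.size
  | 0 => by simp [invRootAlg, Alg.pure]
  | k + 1 => by
    have ih := invRootAlg_size A k
    have h4 : 1 ≤ 4 ^ k := Nat.one_le_pow _ _ (by norm_num)
    have h5 : 3 * ((4 ^ k - 1) * A.size) + A.size ≤ (4 ^ (k + 1) - 1) * A.size := by
      rw [← mul_assoc, ← Nat.succ_mul]
      refine Nat.mul_le_mul_right _ ?_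
      rw [pow_succ]; omega
    simp only [invRootAlg, Alg.seq, Alg.comap, Alg.pure]
    omega

theorem rootAlg_size (A : Alg d (Space d) (Space d)) (k : ℕ) :
    (rootAlg A k).size ≤ 4 ^ (k + 1) * A.size := by
  have h := invRootAlg_size A k
  have h4 : 1 ≤ 4 ^ k := Nat.one_le_pow _ _ (by norm_num)
  have h5 : (4 ^ k - 1) * A.size + A.size ≤ 4 ^ (k + 1) * A.size := by
    rw [← Nat.succ_mul]
    refine Nat.mul_le_mul_right _ ?_
    rw [pow_succ]; omega
  simp only [rootAlg, Alg.seq, Alg.comap]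
  omega

theorem rootAlg_meas {A : Alg d (Space d) (Space d)} (hA : A.Meas) (k : ℕ) :
    (rootAlg A k).Meas := by
  have key : ∀ j, (invRootAlg A j).Meas := by
    intro j
    induction j with
    | zero => exact Alg.pure_meas (by fun_prop)
    | succ j ih =>
      exact Alg.seq_meas ih (Alg.seq_meas (Alg.comap_meas ih measurable_snd)
        (Alg.seq_meas (Alg.comap_meas ih measurable_snd)
          (Alg.seq_meas (Alg.comap_meas hA measurable_snd) (Alg.pure_meas (by fun_prop)))))
  exact Alg.seq_meas (key k) (Alg.comap_meas hA measurable_snd)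

end

end P347
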