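import Vale.Agent.P347.Any.Step
import Vale.Agent.P347.Any.Prox

/-!
# P347: the regularised potential and its centred versions

For `V` in the class and `s ^ 2 ≤ 1 / 2` the potential `u ↦ V (s u) + ‖u‖ ^ 2 / 2` is close to a
multiple of the identity and keeps the interaction graph, and so does every centred version of it.
-/

namespace P347

open MeasureTheory Finset
open scoped BigOperators RealInnerProductSpace

noncomputable section

variable {d χ : ℕ} {V W : Space d → ℝ} {col : Fin d → Fin χ} {a e s : ℝ}

/-- The regularised potential. -/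
def reg (V : Space d → ℝ) (s : ℝ) (u : Space d) : ℝ := V (s • u) + ‖u‖ ^ 2 / 2

theorem reg_deriv (hd : Differentiable ℝ V) (u : Space d) :
    HasFDerivAt (reg V s) (innerSL ℝ (s • gradient V (s • u) + u)) u := by
  have h1 : HasFDerivAt (fun x : Space d => V (s • x))
      ((fderiv ℝ V (s • u)).comp (s • ContinuousLinearMap.id ℝ (Space d))) u :=
    (hd _).hasFDerivAt.comp u ((hasFDerivAt_id u).const_smul s)
  have h2 : HasFDerivAt (fun x : Space d => ‖id x‖ ^ 2 * (1 / 2)) _ u :=
    ((hasFDerivAt_id u).norm_sq).mul_const (1 / 2 : ℝ)
  have e0 : reg V s = fun x => V (s • x) + ‖id x‖ ^ 2 * (1 / 2) := funext fun x => by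
    simp [reg, div_eq_mul_inv]
  rw [e0]
  refine (h1.add h2).congr_fderiv (ContinuousLinearMap.ext fun w => ?_)
  simp [inner_add_left, real_inner_smul_left, inner_gradient]

theorem gradient_reg (hd : Differentiable ℝ V) (u : Space d) :
    gradient (reg V s) u = s • gradient V (s • u) + u :=
  ext_inner_right ℝ fun w => by
    rw [inner_gradient, (reg_deriv hd u).fderiv]
    rfl

theorem gradient_differentiable (hV : ContDiff ℝ 2 V) : Differentiable ℝ (gradient V) :=
  (InnerProductSpace.toDual ℝ (Space d)).symm.toContinuousLinearEquiv.differentiable.comp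
    ((hV.fderiv_right (m := 1) (by norm_num)).differentiable (by norm_num))

theorem reg_cross (hM : Model V col) (z v : Space d) :
    ‖gradient (reg V s) (z + v) - gradient (reg V s) z - (1 + 3 / 2 * s ^ 2) • v‖
      ≤ s ^ 2 / 2 * ‖v‖ := by
  have h := hM.cross (s • z) (s • v)
  rw [gradient_reg hM.diff, gradient_reg hM.diff, smul_add,
    show s • gradient V (s • z + s • v) + (z + v) - (s • gradient V (s • z) + z)
        - (1 + 3 / 2 * s ^ 2) • v
      = s • (gradient V (s • z + s • v) - gradient V (s • z) - (3 / 2 : ℝ) • s • v) by module,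
    norm_smul, Real.norm_eq_abs]
  rw [norm_smul, Real.norm_eq_abs] at h
  refine (mul_le_mul_of_nonneg_left h (abs_nonneg s)).trans (le_of_eq ?_)
  rw [← sq_abs s]; ring

theorem model_reg (hM : Model V col) (hs : s ^ 2 ≤ 1 / 2) : Model (reg V s) col where
  diff u := (reg_deriv hM.diff u).differentiableAt
  block :=
    { cont := by
        have := hM.block.cont
        rw [funext (gradient_reg hM.diff)]; fun_prop
      zero := by simp [reg, hM.block.zero]
      deriv := fun x t => by
        have g0 : HasDerivAt (fun t : ℝ => t • x) x t := by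
          simpa only [one_smul, id_eq] using (hasDerivAt_id t).smul_const x
        rw [inner_gradient, (reg_deriv hM.diff (t • x)).fderiv]
        exact HasFDerivAt.comp_hasDerivAt (l := reg V s) (f := fun t : ℝ => t • x) t
          (reg_deriv hM.diff (t • x)) g0
      lower := fun u => by
        have h := hM.block.lower (s • u)
        rw [norm_smul, Real.norm_eq_abs, mul_pow, sq_abs, real_inner_smul_right] at h
        rw [gradient_reg hM.diff, inner_add_left, real_inner_smul_left, real_inner_self_eq_norm_sq]
        nlinarith [mul_nonneg (sq_nonneg s) (sq_nonneg ‖u‖)]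
      upper := fun u => by
        have h := hM.block.upper (s • u)
        rw [norm_smul, Real.norm_eq_abs, mul_pow, sq_abs, real_inner_smul_right] at h
        rw [gradient_reg hM.diff, inner_add_left, real_inner_smul_left, real_inner_self_eq_norm_sq]
        nlinarith [mul_le_mul_of_nonneg_right hs (sq_nonneg ‖u‖)] }
  mono z v := by
    have h := hM.mono (s • z) (s • v)
    rw [norm_smul, Real.norm_eq_abs, mul_pow, sq_abs, real_inner_smul_right, ← smul_add] at h
    rw [gradient_reg hM.diff, gradient_reg hM.diff,
      show s • gradient V (s • (z + v)) + (z + v) - (s • gradient V (s • z) + z)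
        = s • (gradient V (s • (z + v)) - gradient V (s • z)) + v by module,
      inner_add_left, real_inner_smul_left, real_inner_self_eq_norm_sq]
    nlinarith [mul_nonneg (sq_nonneg s) (sq_nonneg ‖v‖)]
  cross z v := by
    have h := reg_cross (s := s) hM z v
    set G := gradient (reg V s) (z + v) - gradient (reg V s) z
    rw [show G - (3 / 2 : ℝ) • v
        = (G - (1 + 3 / 2 * s ^ 2) • v) + (3 / 2 * s ^ 2 - 1 / 2) • v by module]
    refine (norm_add_le _ _).trans ((add_le_add h le_rfl).trans ?_)
    rw [norm_smul, Real.norm_eq_abs, ← add_mul]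
    refine mul_le_mul_of_nonneg_right ?_ (norm_nonneg v)
    have := sq_nonneg s
    rcases le_total (3 / 2 * s ^ 2) (1 / 2) with h1 | h1
    · rw [abs_of_nonpos (by linarith)]; linarith
    · rw [abs_of_nonneg (by linarith)]; linarith
  indep x y i hi hk := by
    rw [gradient_reg hM.diff, gradient_reg hM.diff]
    simp only [WithLp.ofLp_add, WithLp.ofLp_smul, Pi.add_apply, Pi.smul_apply, smul_eq_mul, hi]
    rw [hM.indep (s • x) (s • y) i (by simp [hi]) fun k hk' => by simp [hk k hk']]

theorem potential_reg (hM : Model V col) (hV : ContDiff ℝ 2 V) (hs : s ^ 2 ≤ 1 / 2) :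
    Potential (reg V s) (1 + 3 / 2 * s ^ 2) (s ^ 2 / 2) where
  diff := (model_reg hM hs).diff
  diff2 := by
    rw [funext (gradient_reg hM.diff)]
    exact (((gradient_differentiable hV).comp (differentiable_id.const_smul s)).const_smul s).add
      differentiable_id
  block := (model_reg hM hs).block
  cross := reg_cross hM
  e_nonneg := by positivity
  e_lt := by nlinarith [sq_nonneg s]
  a_le := by linarith

/-- A potential recentred at a point. -/
def centred (W : Space d → ℝ) (m u : Space d) : ℝ := W (m + u) - W m - ⟪gradient W m, u⟫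

theorem centred_deriv (hd : Differentiable ℝ W) (m u : Space d) :
    HasFDerivAt (centred W m) (innerSL ℝ (gradient W (m + u) - gradient W m)) u := by
  have h1 : HasFDerivAt (fun x : Space d => W (m + x))
      ((fderiv ℝ W (m + u)).comp (ContinuousLinearMap.id ℝ (Space d))) u :=
    (hd _).hasFDerivAt.comp u ((hasFDerivAt_id u).const_add m)
  refine ((h1.sub_const (W m)).sub (innerSL ℝ (gradient W m)).hasFDerivAt).congr_fderiv
    (ContinuousLinearMap.ext fun w => ?_)
  simp [inner_sub_left, inner_gradient]

theorem gradient_centred (hd : Differentiable ℝ W) (m u : Space d) :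
    gradient (centred W m) u = gradient W (m + u) - gradient W m :=
  ext_inner_right ℝ fun w => by
    rw [inner_gradient, (centred_deriv hd m u).fderiv]
    rfl

theorem model_centred (hM : Model W col) (m : Space d) : Model (centred W m) col where
  diff u := (centred_deriv hM.diff m u).differentiableAt
  block :=
    { cont := by
        have := hM.block.cont
        rw [funext (gradient_centred hM.diff m)]; fun_prop
      zero := by simp [centred]
      deriv := fun x t => by
        have g0 : HasDerivAt (fun t : ℝ => t • x) x t := by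
          simpa only [one_smul, id_eq] using (hasDerivAt_id t).smul_const x
        rw [inner_gradient, (centred_deriv hM.diff m (t • x)).fderiv]
        exact HasFDerivAt.comp_hasDerivAt (l := centred W m) (f := fun t : ℝ => t • x) t
          (centred_deriv hM.diff m (t • x)) g0
      lower := fun u => by
        rw [gradient_centred hM.diff]; exact hM.mono m u
      upper := fun u => by
        rw [gradient_centred hM.diff]
        refine (real_inner_le_norm _ _).trans ?_
        rw [sq, ← mul_assoc]
        exact mul_le_mul_of_nonneg_right (hM.lip m u) (norm_nonneg u) }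
  mono z v := by
    rw [gradient_centred hM.diff, gradient_centred hM.diff, sub_sub_sub_cancel_right, ← add_assoc]
    exact hM.mono (m + z) v
  cross z v := by
    rw [gradient_centred hM.diff, gradient_centred hM.diff, sub_sub_sub_cancel_right, ← add_assoc]
    exact hM.cross (m + z) v
  indep x y i hi hk := by
    rw [gradient_centred hM.diff, gradient_centred hM.diff]
    simp only [WithLp.ofLp_sub, Pi.sub_apply]
    rw [hM.indep (m + x) (m + y) i (by simp [hi]) fun k hk' => by simp [hk k hk']]

theorem Potential.centre (hW : Potential W a e) (hM : Model W col) (m : Space d) :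
    Potential (centred W m) a e where
  diff := (model_centred hM m).diff
  diff2 := by
    rw [funext (gradient_centred hW.diff m)]
    exact (hW.diff2.comp (differentiable_id.const_add m)).sub_const _
  block := (model_centred hM m).block
  cross z v := by
    rw [gradient_centred hW.diff, gradient_centred hW.diff, sub_sub_sub_cancel_right, ← add_assoc]
    exact hW.cross (m + z) v
  e_nonneg := hW.e_nonneg
  e_lt := hW.e_lt
  a_le := hW.a_le

/-- The regularised potential recentred is tight. -/
theorem tight_centred (hM : Model V col) (hV : ContDiff ℝ 2 V) (hs : s ^ 2 ≤ 1 / 2)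
    (hχ : (χ : ℝ) * (s ^ 2) ^ 2 ≤ 1) (m : Space d) :
    Tight (centred (reg V s) m) col (1 + 3 / 2 * s ^ 2) (s ^ 2 / 2) where
  model := model_centred (model_reg hM hs) m
  cross := ((potential_reg hM hV hs).centre (model_reg hM hs) m).cross
  big := by nlinarith [sq_nonneg s]
  small := by rw [div_pow]; linarith

/-- The error of dropping a tilt. -/
def tiltTail (d : ℕ) (L : ℝ) : ℝ := 2 ^ d * Real.exp (2 - L / 8)

theorem Potential.tilt_small (hW : Potential W a e) {f : Space d → ℝ} (hf : Test f) (v : Space d)
    {L : ℝ} (hL : 0 ≤ L) (hv : ‖v‖ * (L + 1) ≤ 1) :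
    |∫ u, f u ∂gibbs (tilt W v) - ∫ u, f u ∂gibbs W|
      ≤ 8 * (‖v‖ * (L + 1)) + 4 * tiltTail d L + 4 * ballTail d L := by
  have hW0 : tilt W 0 = W := by funext u; simp [tilt]
  have := hW.tilt_prob v
  have hp : IsProbabilityMeasure (gibbs W) := ⟨gibbs_univ hW.block⟩
  set t := ‖v‖ * (L + 1)
  have ht : 0 ≤ t := mul_nonneg (norm_nonneg v) (by linarith)
  have hm := measurableSet_ballSet (E := Space d) L
  set E := fun u : Space d => Real.exp ⟪v, u⟫
  set Z := ∫ y, Real.exp (-W y)
  have hZ : 0 < Z := weight_pos hW.block
  have hv1 : ‖v‖ ≤ 1 :=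
    le_trans (le_mul_of_one_le_right (norm_nonneg v) (by linarith)) hv
  set tail := fun u : Space d => Real.exp (2 - L / 8) * Real.exp (-(1 / 4) * ‖u‖ ^ 2)
  have htl : Integrable tail := (integrable_gauss (by norm_num)).const_mul _
  -- pointwise
  have hpt : ∀ u, |E u - 1| * Real.exp (-W u)
      ≤ 2 * t * Real.exp (-W u) + (tail u + (ballSet (Space d) L)ᶜ.indicator (fun u => Real.exp (-W u)) u) := by
    intro u
    have habs := abs_real_inner_le_norm v u
    have t0 : 0 ≤ tail u := by positivity
    have i0 : 0 ≤ (ballSet (Space d) L)ᶜ.indicator (fun u => Real.exp (-W u)) u :=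
      Set.indicator_nonneg (fun _ _ => (Real.exp_pos _).le) u
    by_cases hu : u ∈ ballSet (Space d) L
    · have hu' : ‖u‖ ^ 2 ≤ L := hu
      have h1 : |⟪v, u⟫| ≤ t := habs.trans
        (mul_le_mul_of_nonneg_left (by nlinarith [norm_nonneg u]) (norm_nonneg v))
      have h2 : |E u - 1| ≤ 2 * t :=
        (Real.abs_exp_sub_one_le (h1.trans hv)).trans (mul_le_mul_of_nonneg_left h1 (by norm_num))
      have := mul_le_mul_of_nonneg_right h2 (Real.exp_nonneg (-W u))
      linarith
    · rw [Set.indicator_of_mem (by simpa using hu)]
      have hu' : L < ‖u‖ ^ 2 := not_le.1 hu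
      have h1 : E u * Real.exp (-W u) ≤ tail u := by
        simp only [E, tail, ← Real.exp_add]
        refine Real.exp_le_exp.2 ?_
        have := (hW.block.bounds u).1
        have h3 : ⟪v, u⟫ ≤ ‖u‖ := (le_abs_self _).trans (habs.trans
          (mul_le_of_le_one_left (norm_nonneg u) hv1))
        nlinarith [sq_nonneg (‖u‖ - 4)]
      have h2 : |E u - 1| ≤ E u + 1 :=
        (abs_sub _ _).trans (by rw [abs_of_pos (Real.exp_pos _), abs_one])
      have h4 := mul_le_mul_of_nonneg_right h2 (Real.exp_nonneg (-W u))
      have : 0 ≤ 2 * t * Real.exp (-W u) := by positivity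
      linarith
  have hWi := integrable_weight hW.block
  have hind : Integrable ((ballSet (Space d) L)ᶜ.indicator fun u => Real.exp (-W u)) :=
    hWi.indicator hm.compl
  have eE : ∀ u, E u * Real.exp (-W u) = Real.exp (-tilt W v u) := fun u => by
    simp only [E, tilt, ← Real.exp_add]; ring_nf
  have hEi : Integrable fun u => E u * Real.exp (-W u) := by
    simpa only [eE] using hW.integrable_tilt v
  have habsI : Integrable fun u => |E u - 1| * Real.exp (-W u) := by
    refine (hEi.sub hWi).abs.congr (Filter.Eventually.of_forall fun u => ?_)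
    simp only [Pi.sub_apply, ← sub_one_mul, abs_mul, abs_of_pos (Real.exp_pos _)]
  set D := (∫ u, |E u - 1| * Real.exp (-W u)) / Z with hDdef
  have hD : D ≤ 2 * t + tiltTail d L + ballTail d L := by
    rw [hDdef, div_le_iff₀ hZ]
    have h := integral_mono habsI ((hWi.const_mul (2 * t)).add (htl.add hind)) hpt
    simp only [Pi.add_apply] at h
    have hsum : Integrable fun u =>
        tail u + (ballSet (Space d) L)ᶜ.indicator (fun u => Real.exp (-W u)) u := htl.add hind
    rw [integral_add (hWi.const_mul (2 * t)) hsum] at h
    rw [integral_add htl hind, integral_const_mul, integral_indicator hm.compl] at h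
    refine h.trans ?_
    rw [add_mul, add_mul, ← add_assoc]
    refine add_le_add (add_le_add le_rfl ?_) ?_
    · simp only [tail, tiltTail]
      rw [integral_const_mul, mul_comm ((2 : ℝ) ^ d), mul_assoc]
      refine mul_le_mul_of_nonneg_left ?_ (Real.exp_nonneg _)
      rw [GaussianFourier.integral_rexp_neg_mul_sq_norm (by norm_num), finrank_euclideanSpace_fin]
      have hlow : (Real.pi / 1) ^ ((d : ℝ) / 2) ≤ Z := by
        rw [← finrank_euclideanSpace_fin (𝕜 := ℝ) (n := d),
          ← GaussianFourier.integral_rexp_neg_mul_sq_norm (V := Space d) one_pos]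
        exact integral_mono (integrable_gauss one_pos) hWi fun x =>
          Real.exp_le_exp.2 (by linarith [(hW.block.bounds x).2])
      refine le_trans (le_of_eq ?_) (mul_le_mul_of_nonneg_left hlow (by positivity))
      rw [show Real.pi / (1 / 4) = (2 : ℝ) ^ (2 : ℝ) * (Real.pi / 1) by norm_num; ring,
        Real.mul_rpow (by norm_num) (by positivity), ← Real.rpow_mul (by norm_num),
        show (2 : ℝ) * ((d : ℝ) / 2) = (d : ℕ) by ring, Real.rpow_natCast]
    · have := gibbs_ball hW.block (b := d) (le_of_eq finrank_euclideanSpace_fin) L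
      rw [real_gibbs hW.block hm, le_div_iff₀ hZ] at this
      have hs := integral_add_compl hm hWi
      unfold ballTail
      rw [sub_mul, one_mul] at this
      linarith
  -- the ratio
  set A := (∫ u, f u * (E u * Real.exp (-W u))) / Z
  set B := (∫ u, E u * Real.exp (-W u)) / Z
  set m := ∫ u, f u ∂gibbs W
  have em : m = (∫ u, f u * Real.exp (-W u)) / Z := by
    have := hW.integral_tilt 0 f
    rw [hW0, integral_div] at this
    exact this
  have hmm := hf.integral_mem (gibbs W)
  have hval : ∫ u, f u ∂gibbs (tilt W v) = A / B := by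
    rw [hW.integral_tilt, integral_div]
    simp only [A, B, eE]
    rw [div_div_div_cancel_right₀ hZ.ne']
  have hB : |B - 1| ≤ D := by
    rw [show B - 1 = (∫ u, (E u * Real.exp (-W u) - Real.exp (-W u))) / Z by
      simp only [B]; rw [integral_sub hEi hWi, sub_div, div_self hZ.ne'], abs_div, abs_of_pos hZ]
    refine div_le_div_of_nonneg_right (abs_integral_le_integral_abs.trans
      (le_of_eq (integral_congr_ae (Filter.Eventually.of_forall fun u => ?_)))) hZ.le
    dsimp only
    rw [← sub_one_mul, abs_mul, abs_of_pos (Real.exp_pos _)]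
  have hfi : ∀ g : Space d → ℝ, Integrable g → Integrable fun u => f u * g u := fun g hg =>
    hg.norm.mono' (hf.meas.aestronglyMeasurable.mul hg.aestronglyMeasurable)
      (Filter.Eventually.of_forall fun u => by
        rw [norm_mul]; exact mul_le_of_le_one_left (norm_nonneg _) (hf.norm_le u))
  have hA : |A - m| ≤ D := by
    rw [show A - m = (∫ u, (f u * (E u * Real.exp (-W u)) - f u * Real.exp (-W u))) / Z by
      rw [integral_sub (hfi _ hEi) (hfi _ hWi), sub_div, ← em], abs_div, abs_of_pos hZ]
    refine div_le_div_of_nonneg_right (abs_integral_le_integral_abs.trans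
      (integral_mono ((hfi _ hEi).sub (hfi _ hWi)).abs habsI fun u => ?_)) hZ.le
    dsimp only
    rw [← mul_sub, ← sub_one_mul, abs_mul, abs_mul (E u - 1), abs_of_pos (Real.exp_pos _),
      abs_of_nonneg (hf.nonneg u)]
    exact mul_le_of_le_one_left (by positivity) (hf.le_one u)
  have hD0 : 0 ≤ D := (abs_nonneg _).trans hB
  have hv0 := hf.integral_mem (gibbs (tilt W v))
  rw [hval] at hv0 ⊢
  rcases le_total D (1 / 2) with hsmall | hbig
  · rw [abs_le] at hA hB
    have hB0 : 1 / 2 ≤ B := by linarith
    rw [show A / B - m = ((A - m) - m * (B - 1)) / B by field_simp; ring, abs_div,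
      abs_of_pos (by linarith : 0 < B), div_le_iff₀ (by linarith)]
    have h1 : |A - m - m * (B - 1)| ≤ 2 * D := by
      rw [abs_le]; constructor <;> nlinarith
    refine h1.trans ?_
    have h2 : 4 * D * (1 / 2) ≤ 4 * D * B := mul_le_mul_of_nonneg_left hB0 (by linarith)
    have h3 : 4 * D * B ≤ (8 * t + 4 * tiltTail d L + 4 * ballTail d L) * B :=
      mul_le_mul_of_nonneg_right (by linarith) (by linarith)
    linarith
  · rw [abs_le]; constructor <;> linarith

/-- Moving the centre moves the tilt. -/
theorem Potential.translate (hW : Potential W a e) (hM : Model W col) (m v : Space d)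
    (f : Space d → ℝ) :
    ∫ u, f (m + u) ∂gibbs (tilt (centred W m) (v - gradient W m))
      = ∫ u, f u ∂gibbs (tilt W v) := by
  have hC := hW.centre hM m
  rw [hW.integral_tilt, hC.integral_tilt, integral_div, integral_div,
    ← integral_add_left_eq_self (μ := (volume : Measure (Space d)))
      (fun u => f u * Real.exp (-tilt W v u)) m,
    ← integral_add_left_eq_self (μ := (volume : Measure (Space d)))
      (fun u => Real.exp (-tilt W v u)) m]
  have e1 : ∀ u, Real.exp (-tilt W v (m + u))
      = Real.exp (-tilt W v m) * Real.exp (-tilt (centred W m) (v - gradient W m) u) := fun u => by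
    rw [← Real.exp_add]
    congr 1
    simp only [tilt, centred, inner_add_right, inner_sub_left]
    ring
  simp only [e1, ← mul_assoc, mul_comm (f _) (Real.exp (-tilt W v m))]
  simp only [mul_assoc, integral_const_mul]
  rw [mul_div_mul_left _ _ (Real.exp_ne_zero _)]

end

end P347
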