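import Vale.Agent.P347.Any.Dense
import Vale.Agent.P347.Any.Root
import Vale.Agent.P347.Any.Scale
import Vale.Agent.P347.Any.Chain

/-!
# P347: the preconditioned regularised potential

With the coloured potential regularised, the quadratic part is an explicit operator `M`; in the
coordinates of a square root of `M` the potential meets the hypotheses of the proximal chain.
-/

namespace P347

open MeasureTheory Finset
open scoped BigOperators RealInnerProductSpace

noncomputable section

variable {d χ : ℕ} {V : Space d → ℝ} {col : Fin d → Fin χ} {η : ℝ}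

/-- The preconditioner. -/
def mOp (V : Space d → ℝ) (col : Fin d → Fin χ) (η : ℝ) : Space d →L[ℝ] Space d :=
  (1 + 3 * η) • ContinuousLinearMap.id ℝ (Space d) - η • blockOp V col

/-- The regularised coloured potential. -/
def wPlus (V : Space d → ℝ) (col : Fin d → Fin χ) (η : ℝ) : Space d → ℝ :=
  reg (aug V col) (Real.sqrt (2 * η))

/-- The regularised potential in the coordinates of the chain. -/
def conjPot (V : Space d → ℝ) (col : Fin d → Fin χ) (η : ℝ) (S : Space d ≃L[ℝ] Space d)
    (y : Space d) : ℝ := wPlus V col η (S.symm y)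

theorem mOp_apply (η : ℝ) (v : Space d) :
    mOp V col η v = (1 + 3 * η) • v - η • blockOp V col v := rfl

theorem Frozen.mOp_symm (hF : Frozen V col) (η : ℝ) (u v : Space d) :
    ⟪mOp V col η u, v⟫ = ⟪u, mOp V col η v⟫ := by
  simp only [mOp_apply, inner_sub_left, inner_sub_right, real_inner_smul_left,
    real_inner_smul_right, hF.blockOp_symm]

theorem Frozen.mOp_bounds (hF : Frozen V col) (h0 : 0 ≤ η) (h1 : η ≤ 1 / 4) (v : Space d) :
    ‖v‖ ^ 2 ≤ ⟪mOp V col η v, v⟫ ∧ ⟪mOp V col η v, v⟫ ≤ 2 * ‖v‖ ^ 2 := by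
  obtain ⟨b1, b2⟩ := hF.blockOp_bounds v
  rw [mOp_apply, inner_sub_left, real_inner_smul_left, real_inner_smul_left,
    real_inner_self_eq_norm_sq]
  have := sq_nonneg ‖v‖
  constructor <;> nlinarith

/-- A symmetric operator with quadratic form between zero and twice the identity. -/
theorem symmetric_norm_le (P : Space d →L[ℝ] Space d) (hs : ∀ u v, ⟪P u, v⟫ = ⟪u, P v⟫)
    (hb : ∀ v, 0 ≤ ⟪P v, v⟫ ∧ ⟪P v, v⟫ ≤ 2 * ‖v‖ ^ 2) (w : Space d) : ‖P w‖ ≤ 2 * ‖w‖ := by
  set z : Space d := (1 / 2 : ℝ) • P w with hz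
  have h1 := (hb (w + z)).2
  have h2 := (hb (w - z)).1
  have e : ⟪P z, w⟫ = ⟪P w, z⟫ := by rw [hs, real_inner_comm]
  have e2 : ⟪P w, z⟫ = 1 / 2 * ‖P w‖ ^ 2 := by
    rw [hz, real_inner_smul_right, real_inner_self_eq_norm_sq]
  have e3 : ‖z‖ = 1 / 2 * ‖P w‖ := by
    rw [hz, norm_smul, Real.norm_eq_abs, abs_of_pos (by norm_num : (0 : ℝ) < 1 / 2)]
  simp only [map_add, map_sub, inner_add_left, inner_add_right, inner_sub_left, inner_sub_right,
    e, norm_add_sq_real] at h1 h2
  rw [e2, e3] at h1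
  rw [e2] at h2
  nlinarith [(abs_le.1 (abs_real_inner_le_norm w z)).2, norm_nonneg w, norm_nonneg (P w), e3]

theorem sqrt_two_mul_scale (h0 : 0 ≤ η) :
    (Real.sqrt 2)⁻¹ * Real.sqrt (2 * η) = Real.sqrt η := by
  rw [Real.sqrt_mul (by norm_num), inv_mul_cancel_left₀ (by positivity)]

theorem Frozen.gradient_wPlus (hF : Frozen V col) (h0 : 0 ≤ η) (u : Space d) :
    gradient (wPlus V col η) u
      = Real.sqrt η • gradient V (Real.sqrt η • u) + mOp V col η u := by
  rw [wPlus, gradient_reg hF.aug_smooth.2, hF.gradient_aug, smul_smul, sqrt_two_mul_scale h0,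
    mOp_apply, map_smul]
  have e1 : Real.sqrt (2 * η) * (Real.sqrt 2)⁻¹ = Real.sqrt η := by
    rw [mul_comm, sqrt_two_mul_scale h0]
  have e2 : Real.sqrt (2 * η) * Real.sqrt (2 * η) = 2 * η := Real.mul_self_sqrt (by linarith)
  simp only [smul_add, smul_sub, smul_smul, e1]
  rw [mul_left_comm _ (3 / 2 : ℝ), mul_left_comm _ (1 / 2 : ℝ), e2]
  module

theorem Frozen.wPlus_eq (hF : Frozen V col) (h0 : 0 ≤ η) (u : Space d) :
    wPlus V col η u = V (Real.sqrt η • u) + 1 / 2 * ⟪mOp V col η u, u⟫ := by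
  have e2 : Real.sqrt (2 * η) * Real.sqrt (2 * η) = 2 * η := Real.mul_self_sqrt (by linarith)
  simp only [wPlus, reg, aug_eq, smul_smul, sqrt_two_mul_scale h0, map_smul, real_inner_smul_left,
    real_inner_smul_right, norm_smul, Real.norm_eq_abs, mul_pow, sq_abs, mOp_apply, inner_sub_left,
    real_inner_self_eq_norm_sq]
  linear_combination (3 / 4 * ‖u‖ ^ 2 - 1 / 4 * ⟪blockOp V col u, u⟫) * e2

/-- The full potential without colours. -/
theorem Frozen.model_plain (hF : Frozen V col) : Model V (id : Fin d → Fin d) :=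
  model_of_hessian hF.smooth hF.zero hF.crit hF.hess fun _ _ _ hne he => absurd he hne

/-- Gradient after a symmetric change of coordinates. -/
theorem gradient_comp_symmetric {f : Space d → ℝ} (hf : Differentiable ℝ f)
    (T : Space d →L[ℝ] Space d) (hT : ∀ u v, ⟪T u, v⟫ = ⟪u, T v⟫) (y : Space d) :
    gradient (fun x => f (T x)) y = T (gradient f (T y)) := by
  refine ext_inner_right ℝ fun w => ?_
  rw [inner_gradient, hT, inner_gradient]
  have h : HasFDerivAt (fun x => f (T x)) ((fderiv ℝ f (T y)).comp T) y :=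
    (hf (T y)).hasFDerivAt.comp y T.hasFDerivAt
  rw [h.fderiv]
  rfl

section RootFacts

variable {M : Space d →L[ℝ] Space d} {S : Space d ≃L[ℝ] Space d}

theorem Root.inv_symm (hS : Root M S) (u v : Space d) : ⟪S.symm u, v⟫ = ⟪u, S.symm v⟫ := by
  conv_lhs => rw [← S.apply_symm_apply v, ← hS.symm, S.apply_symm_apply]

theorem Root.inv_le (hS : Root M S) (v : Space d) : ‖S.symm v‖ ≤ ‖v‖ := by
  simpa using hS.lower (S.symm v)

theorem Root.inv_ge (hS : Root M S) (v : Space d) : ‖v‖ ≤ 2 * ‖S.symm v‖ := by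
  simpa using hS.upper (S.symm v)

theorem Root.inv_mid (hS : Root M S) (v : Space d) : S.symm (M (S.symm v)) = v := by
  rw [← hS.sq]; simp

theorem Root.quad_inv (hS : Root M S) (v : Space d) :
    ⟪M (S.symm v), S.symm v⟫ = ‖v‖ ^ 2 := by
  rw [← hS.sq, hS.symm]; simp

end RootFacts

theorem Frozen.gradient_conjPot (hF : Frozen V col) (h0 : 0 ≤ η)
    {S : Space d ≃L[ℝ] Space d} (hS : Root (mOp V col η) S) (y : Space d) :
    gradient (conjPot V col η S) y
      = Real.sqrt η • S.symm (gradient V (Real.sqrt η • S.symm y)) + y := by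
  have hd : Differentiable ℝ (wPlus V col η) :=
    fun u => (reg_deriv hF.aug_smooth.2 u).differentiableAt
  have h := gradient_comp_symmetric hd (S.symm : Space d →L[ℝ] Space d) hS.inv_symm y
  simp only [ContinuousLinearEquiv.coe_coe] at h
  unfold conjPot
  rw [h, hF.gradient_wPlus h0, map_add, map_smul, hS.inv_mid]

theorem Frozen.conj_cross (hF : Frozen V col) (h0 : 0 ≤ η) {S : Space d ≃L[ℝ] Space d}
    (hS : Root (mOp V col η) S) (z v : Space d) :
    ‖gradient (conjPot V col η S) (z + v) - gradient (conjPot V col η S) z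
      - (1 + 3 / 2 * η) • v‖ ≤ (η / 2 + 3 * η ^ 2) * ‖v‖ := by
  set r := Real.sqrt η
  have hr : r * r = η := Real.mul_self_sqrt h0
  have hr0 : 0 ≤ r := Real.sqrt_nonneg η
  set w := S.symm v with hw
  set z' := S.symm w with hz'
  have hD := hF.model_plain.cross (r • S.symm z) (r • w)
  set G := gradient V (r • S.symm z + r • w) - gradient V (r • S.symm z) - (3 / 2 : ℝ) • r • w
    with hG
  have e1 : gradient (conjPot V col η S) (z + v) - gradient (conjPot V col η S) z
      - (1 + 3 / 2 * η) • v = r • S.symm G + (3 / 2 * η) • (z' - v) := by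
    rw [hF.gradient_conjPot h0 hS, hF.gradient_conjPot h0 hS, hG, map_add, smul_add]
    simp only [map_sub, map_smul, ← hw, ← hz']
    match_scalars <;> nlinarith [hr]
  have hG1 : ‖G‖ ≤ 1 / 2 * (r * ‖v‖) := by
    refine hD.trans ?_
    rw [norm_smul, Real.norm_eq_abs, abs_of_nonneg hr0]
    have := hS.inv_le v
    rw [← hw] at this
    nlinarith
  have hv : v = mOp V col η z' := by
    rw [← hS.sq, hz', hw]; simp
  have hz1 : ‖z' - v‖ ≤ 2 * η * ‖v‖ := by
    set P : Space d →L[ℝ] Space d := (3 : ℝ) • ContinuousLinearMap.id ℝ (Space d) - blockOp V col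
    have hP : ∀ u, P u = (3 : ℝ) • u - blockOp V col u := fun u => rfl
    have hPn := symmetric_norm_le P
      (fun a b => by
        simp only [hP, inner_sub_left, inner_sub_right, real_inner_smul_left, real_inner_smul_right,
          hF.blockOp_symm])
      (fun u => by
        obtain ⟨b1, b2⟩ := hF.blockOp_bounds u
        rw [hP, inner_sub_left, real_inner_smul_left, real_inner_self_eq_norm_sq]
        constructor <;> nlinarith [sq_nonneg ‖u‖]) z'
    have e2 : z' - v = -(η • P z') := by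
      rw [hP]
      nth_rw 1 [hv]
      rw [mOp_apply]; module
    rw [e2, norm_neg, norm_smul, Real.norm_eq_abs, abs_of_nonneg h0]
    have h3 : ‖z'‖ ≤ ‖v‖ := (hS.inv_le w).trans (hS.inv_le v)
    have := mul_le_mul_of_nonneg_left (hPn.trans (mul_le_mul_of_nonneg_left h3 two_pos.le)) h0
    linarith
  rw [e1]
  refine (norm_add_le _ _).trans ?_
  rw [norm_smul, norm_smul, Real.norm_eq_abs, Real.norm_eq_abs, abs_of_nonneg hr0,
    abs_of_nonneg (by positivity : (0 : ℝ) ≤ 3 / 2 * η)]
  have a1 := mul_le_mul_of_nonneg_left ((hS.inv_le G).trans hG1) hr0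
  have a2 := mul_le_mul_of_nonneg_left hz1 (by positivity : (0 : ℝ) ≤ 3 / 2 * η)
  have a3 : r * (1 / 2 * (r * ‖v‖)) = η / 2 * ‖v‖ := by linear_combination (‖v‖ / 2) * hr
  linarith

theorem Frozen.conj_chain (hF : Frozen V col) (h0 : 0 < η) (h1 : η ≤ 1 / 4)
    {S : Space d ≃L[ℝ] Space d} (hS : Root (mOp V col η) S) :
    Chain (conjPot V col η S) (1 + 3 / 2 * η) (η / 2 + 3 * η ^ 2) (η / 32) := by
  have hB := hF.model_plain.block
  set r := Real.sqrt η
  have hr : r * r = η := Real.mul_self_sqrt h0.le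
  have hd : Differentiable ℝ (conjPot V col η S) := by
    unfold conjPot
    exact Differentiable.comp (g := wPlus V col η)
      (fun u => (reg_deriv hF.aug_smooth.2 u).differentiableAt) S.symm.differentiable
  have hg := funext (hF.gradient_conjPot h0.le hS)
  have hWeq : ∀ u, conjPot V col η S u = V (r • S.symm u) + 1 / 2 * ‖u‖ ^ 2 := fun u => by
    rw [conjPot, hF.wPlus_eq h0.le, hS.quad_inv]
  have hin : ∀ y, ⟪gradient (conjPot V col η S) y, y⟫
      = ⟪gradient V (r • S.symm y), r • S.symm y⟫ + ‖y‖ ^ 2 := fun y => by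
    rw [hF.gradient_conjPot h0.le hS, inner_add_left, real_inner_smul_left, hS.inv_symm,
      real_inner_smul_right, real_inner_self_eq_norm_sq]
  have hrn : ∀ y, ‖r • S.symm y‖ ^ 2 ≤ η * ‖y‖ ^ 2 := fun y => by
    rw [norm_smul, mul_pow, Real.norm_eq_abs, sq_abs, sq r, hr]
    exact mul_le_mul_of_nonneg_left (pow_le_pow_left₀ (norm_nonneg _) (hS.inv_le y) 2) h0.le
  refine ⟨⟨hd, ?_, ⟨?_, ?_, fun x t => ?_, fun y => ?_, fun y => ?_⟩, hF.conj_cross h0.le hS,
    by positivity, by nlinarith, by linarith⟩, fun u => ?_, by positivity, by linarith,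
    by nlinarith⟩
  · rw [hg]
    exact (((S.symm.differentiable.comp ((gradient_differentiable hF.smooth).comp
      (S.symm.differentiable.const_smul r))).const_smul r)).add differentiable_id
  · rw [hg]
    have := hB.cont
    fun_prop
  · simp [hWeq, hF.zero]
  · have g0 : HasDerivAt (fun t : ℝ => t • x) x t := by
      simpa only [one_smul, id_eq] using (hasDerivAt_id t).smul_const x
    rw [inner_gradient]
    exact HasFDerivAt.comp_hasDerivAt (l := conjPot V col η S) (f := fun t : ℝ => t • x) t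
      (hd (t • x)).hasFDerivAt g0
  · rw [hin]
    have := hB.lower (r • S.symm y)
    linarith [sq_nonneg ‖r • S.symm y‖]
  · rw [hin]
    have := hB.upper (r • S.symm y)
    have := hrn y
    have := sq_nonneg ‖y‖
    nlinarith
  · have h2 := (hB.bounds (r • S.symm u)).1
    rw [hWeq, halfSq]
    rw [norm_smul, mul_pow, Real.norm_eq_abs, sq_abs, sq r, hr] at h2
    have h3 := pow_le_pow_left₀ (norm_nonneg u) (hS.inv_ge u) 2
    nlinarith

/-- Gibbs integrals of a continuous potential. -/
theorem gibbs_integral_cont {W : Space d → ℝ} (hW : Continuous W) (f : Space d → ℝ) :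
    ∫ u, f u ∂gibbs W = (∫ u, f u * Real.exp (-W u)) / ∫ u, Real.exp (-W u) := by
  have hm : Measurable fun x => Real.exp (-W x) / ∫ y, Real.exp (-W y) :=
    ((Real.continuous_exp.comp hW.neg).div_const _).measurable
  rw [gibbs, integral_withDensity_eq_integral_toReal_smul₀ hm.ennreal_ofReal.aemeasurable
    (Filter.Eventually.of_forall fun _ => ENNReal.ofReal_lt_top), ← integral_div]
  refine integral_congr_ae (Filter.Eventually.of_forall fun u => ?_)
  simp only [smul_eq_mul]
  rw [ENNReal.toReal_ofReal (div_nonneg (Real.exp_nonneg _)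
    (integral_nonneg fun _ => (Real.exp_pos _).le))]
  ring

/-- Gibbs laws follow a linear change of coordinates. -/
theorem gibbs_equiv {W : Space d → ℝ} (hW : Continuous W) (L : Space d ≃L[ℝ] Space d)
    (f : Space d → ℝ) :
    ∫ y, f y ∂gibbs (fun y => W (L.symm y)) = ∫ u, f (L u) ∂gibbs W := by
  have hc : ∃ c : ℝ, c ≠ 0 ∧ ∀ F : Space d → ℝ, ∫ u, F (L u) = c * ∫ y, F y := by
    have hdet : LinearMap.det (L : Space d →ₗ[ℝ] Space d) ≠ 0 :=
      (LinearEquiv.isUnit_det' L.toLinearEquiv).ne_zero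
    refine ⟨|(LinearMap.det (L : Space d →ₗ[ℝ] Space d))⁻¹|, by positivity, fun F => ?_⟩
    have h := (L.toHomeomorph.measurableEmbedding).integral_map (μ := volume) F
    have e : Measure.map L.toHomeomorph (volume : Measure (Space d))
        = ENNReal.ofReal |(LinearMap.det (L : Space d →ₗ[ℝ] Space d))⁻¹| • volume :=
      Measure.map_linearMap_addHaar_eq_smul_addHaar volume hdet
    rw [e, integral_smul_measure, ENNReal.toReal_ofReal (abs_nonneg _), smul_eq_mul] at h
    exact h.symm
  obtain ⟨c, hc0, hc⟩ := hc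
  have e1 := hc fun y => f y * Real.exp (-W (L.symm y))
  have e2 := hc fun y => Real.exp (-W (L.symm y))
  simp only [L.symm_apply_apply] at e1 e2
  have hcomp : Continuous fun y => W (L.symm y) := hW.comp L.symm.continuous
  rw [gibbs_integral_cont hcomp, gibbs_integral_cont hW, e1, e2, mul_div_mul_left _ _ hc0]

theorem Frozen.continuous_wPlus (hF : Frozen V col) : Continuous (wPlus V col η) :=
  Differentiable.continuous (𝕜 := ℝ) fun u => (reg_deriv hF.aug_smooth.2 u).differentiableAt

theorem Frozen.conj_tiltMean (hF : Frozen V col) (h0 : 0 < η) (h1 : η ≤ 1 / 4)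
    {S : Space d ≃L[ℝ] Space d} (hS : Root (mOp V col η) S) (g : Space d → ℝ) (w : Space d) :
    tiltMean (conjPot V col η S) g w
      = ∫ u, g (S u) ∂gibbs (tilt (wPlus V col η) (S w)) := by
  have hc : Continuous (tilt (wPlus V col η) (S w)) := by
    have := hF.continuous_wPlus (η := η)
    unfold tilt; fun_prop
  rw [tiltMean, ← gibbs_equiv hc]
  congr 2
  funext y
  simp [tilt, conjPot, hS.symm]

/-- Scaling as an equivalence. -/
def scaleEquiv (d : ℕ) (r : ℝ) (hr : r ≠ 0) : Space d ≃L[ℝ] Space d :=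
  (LinearEquiv.smulOfNeZero ℝ (Space d) r hr).toContinuousLinearEquiv

theorem Frozen.chainLaw_integral (hF : Frozen V col) (h0 : 0 < η)
    {S : Space d ≃L[ℝ] Space d} (hS : Root (mOp V col η) S) (F : Space d → ℝ) :
    ∫ y, F y ∂chainLaw (conjPot V col η S)
      = ∫ x, F (S ((Real.sqrt η)⁻¹ • x)) ∂gibbs V := by
  have hr : Real.sqrt η ≠ 0 := (Real.sqrt_pos.2 h0).ne'
  have e : chainLaw (conjPot V col η S)
      = gibbs fun y => V (((scaleEquiv d (Real.sqrt η)⁻¹ (inv_ne_zero hr)).trans S).symm y) := by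
    refine congrArg gibbs (funext fun y => ?_)
    rw [conjPot, hF.wPlus_eq h0.le, hS.quad_inv, halfSq]
    have : ((scaleEquiv d (Real.sqrt η)⁻¹ (inv_ne_zero hr)).trans S).symm y
        = Real.sqrt η • S.symm y := by
      rw [ContinuousLinearEquiv.symm_apply_eq]
      simp [scaleEquiv, smul_smul, mul_inv_cancel₀ hr, inv_mul_cancel₀ hr]
    rw [this]; ring
  rw [e, gibbs_equiv hF.smooth.continuous]
  rfl

theorem Frozen.conj_law (hF : Frozen V col) (h0 : 0 < η) (h1 : η ≤ 1 / 4)
    {S : Space d ≃L[ℝ] Space d} (hS : Root (mOp V col η) S) (f : Space d → ℝ) :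
    ∫ y, f (Real.sqrt η • S.symm y) ∂chainLaw (conjPot V col η S) = ∫ x, f x ∂gibbs V := by
  rw [hF.chainLaw_integral h0 hS]
  simp [smul_smul, mul_inv_cancel₀ (Real.sqrt_pos.2 h0).ne']

theorem Frozen.conj_mix (hF : Frozen V col) (hd : 1 ≤ d) (h0 : 0 < η) (h1 : η ≤ 1 / 4)
    {S : Space d ≃L[ℝ] Space d} (hS : Root (mOp V col η) S) {g : Space d → ℝ} (hg : Test g)
    {K L : ℝ} (hK : 0 ≤ K) (hL : 0 ≤ L) (hl : LipE K g) :
    |g 0 - ∫ y, g y ∂chainLaw (conjPot V col η S)|
      ≤ K * (2 * d / Real.sqrt η * (L + 1)) + ballTail d L := by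
  have : NeZero d := ⟨by omega⟩
  have hr := Real.sqrt_pos.2 h0
  rw [hF.chainLaw_integral h0 hS]
  set g' := fun x : Space d => g (S ((Real.sqrt η)⁻¹ • x)) with hg'
  have ht : Test g' := ⟨hg.meas.comp (by fun_prop), fun _ => hg.nonneg _, fun _ => hg.le_one _⟩
  have hlip : LipC (id : Fin d → Fin d) 0 (K * (2 * d / Real.sqrt η)) g' := by
    intro x x' B hB _ h
    have hn := norm_le_colours (x := x' - x) hB fun c => h c (Nat.zero_le _)
    refine (hl _ _).trans ?_
    rw [← map_sub, ← smul_sub]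
    refine (mul_le_mul_of_nonneg_left (hS.upper _) hK).trans ?_
    rw [norm_smul, Real.norm_eq_abs, abs_inv, abs_of_pos hr]
    calc K * (2 * ((Real.sqrt η)⁻¹ * ‖x' - x‖))
        ≤ K * (2 * ((Real.sqrt η)⁻¹ * (d * B))) := by gcongr
      _ = _ := by ring
  have h := mix_colours hF.model_plain ht (by positivity) hL hlip
  rw [show g' 0 = g 0 by simp [hg']] at h
  calc |g 0 - ∫ x, g' x ∂gibbs V| ≤ K * (2 * d / Real.sqrt η) * (L + 1) + ballTail d L := h
    _ = _ := by ring

end

end P347
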