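import Vale.Agent.P347.Any.DenseStep
import Vale.Agent.P347.Any.Pre

/-!
# P347: one step of the preconditioned proximal chain from queries

The state is kept in the original coordinates, so that only the approximate square root of the
preconditioner is applied to the noise and the root itself is never needed.
-/

namespace P347

open MeasureTheory Finset
open scoped BigOperators RealInnerProductSpace

noncomputable section

variable {d χ : ℕ} {V W : Space d → ℝ} {col : Fin d → Fin χ} {η : ℝ} {N : ℕ}

/-- The preconditioner from queries. -/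
def mAlg (col : Fin d → Fin χ) (η : ℝ) (N : ℕ) : Alg d (Space d) (Space d) :=
  (blockApply col N).seq (Alg.pure d fun z => (1 + 3 * η) • z.1 - η • z.2)

/-- The gradient of the regularised potential from queries. -/
def gradPlus (col : Fin d → Fin χ) (η : ℝ) (N : ℕ) : Alg d (Space d) (Space d) :=
  (Alg.many fun m (_ : Fin 1) => Real.sqrt η • m).seq (((mAlg col η N).comap Prod.fst).seq
    (Alg.pure d fun z => Real.sqrt η • (z.1.2 0).2 + z.2))

/-- The gradient read by the colour steps, at a point given relative to a centre. -/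
def colourGrad (col : Fin d → Fin χ) (η : ℝ) (N : ℕ) (c : Fin χ) :
    Alg d ((Space d × Space d) × Space d) (Space d) :=
  (Alg.many fun z (_ : Fin 1) => Real.sqrt η • (z.1.1 + z.2)).seq
    (((colourApply col c N).comap fun z => z.1.1.1 + z.1.2).seq
      (Alg.pure d fun z => Real.sqrt η • (z.1.2 0).2 + (1 + 3 * η) • (z.1.1.1.1 + z.1.1.2)
        - η • z.2 - z.1.1.1.2))

/-- Descent by a gradient procedure. -/
def descentAlg (A : Alg d (Space d) (Space d)) : ℕ → Alg d (Space d) (Space d)
  | 0 => Alg.pure d fun _ => 0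
  | n + 1 => (descentAlg A n).seq ((A.comap Prod.snd).seq
      (Alg.pure d fun z => z.1.2 - (2 / 3 : ℝ) • (z.2 - z.1.1)))

/-- The point reached. -/
def descentPt (g : Space d → Space d) (v : Space d) : ℕ → Space d
  | 0 => 0
  | n + 1 => descentPt g v n - (2 / 3 : ℝ) • (g (descentPt g v n) - v)

theorem mAlg_size : (mAlg col η N).size = χ * (2 * N) := by
  simp [mAlg, Alg.seq, Alg.pure, blockApply_size]

theorem gradPlus_size : (gradPlus col η N).size = 1 + χ * (2 * N) := by
  simp [gradPlus, Alg.seq, Alg.comap, Alg.many, Alg.pure, mAlg_size]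

theorem colourGrad_size (c : Fin χ) : (colourGrad col η N c).size = 1 + 2 * N := by
  simp [colourGrad, Alg.seq, Alg.comap, Alg.many, Alg.pure, colourApply_size]

theorem descentAlg_size (A : Alg d (Space d) (Space d)) :
    ∀ n, (descentAlg A n).size = n * A.size
  | 0 => by simp [descentAlg, Alg.pure]
  | n + 1 => by
    simp only [descentAlg, Alg.seq, Alg.comap, Alg.pure, descentAlg_size A n]
    ring

theorem mAlg_meas : (mAlg col η N).Meas :=
  Alg.seq_meas (blockApply_meas N) (Alg.pure_meas (by fun_prop))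

theorem gradPlus_meas : (gradPlus col η N).Meas :=
  Alg.seq_meas (Alg.many_meas (by fun_prop)) (Alg.seq_meas
    (Alg.comap_meas mAlg_meas measurable_fst) (Alg.pure_meas (by fun_prop)))

theorem colourGrad_meas (c : Fin χ) : (colourGrad col η N c).Meas :=
  Alg.seq_meas (Alg.many_meas (by fun_prop)) (Alg.seq_meas
    (Alg.comap_meas (colourApply_meas c N) (by fun_prop)) (Alg.pure_meas (by fun_prop)))

theorem descentAlg_meas {A : Alg d (Space d) (Space d)} (hA : A.Meas) :
    ∀ n, (descentAlg A n).Meas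
  | 0 => Alg.pure_meas measurable_const
  | n + 1 => Alg.seq_meas (descentAlg_meas hA n) (Alg.seq_meas
      (Alg.comap_meas hA measurable_snd) (Alg.pure_meas (by fun_prop)))

theorem descentAlg_eval (A : Alg d (Space d) (Space d)) (O : Space d → Reply d) (v : Space d) :
    ∀ n, (descentAlg A n).eval O v = descentPt (A.eval O) v n
  | 0 => rfl
  | n + 1 => by
    simp only [descentAlg, Alg.seq_eval, Alg.comap_eval, Alg.pure_eval, descentAlg_eval A O v n,
      descentPt]

/-- Descent from an inexact gradient. -/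
theorem descentPt_small (hM : Model W col) {g : Space d → Space d} {e₀ : ℝ} (he : 0 ≤ e₀)
    (he8 : e₀ ≤ 1 / 8) (hg : ∀ m, ‖g m - gradient W m‖ ≤ e₀ * ‖m‖) (v : Space d) :
    ∀ n, ‖gradient W (descentPt g v n) - v‖ ≤ ((1 / 2) ^ n + 3 * e₀) * ‖v‖ ∧
      ‖descentPt g v n‖ ≤ 3 * ‖v‖ := by
  have hpt : ∀ m, ‖m‖ ≤ ‖gradient W m - v‖ + ‖v‖ := fun m => by
    refine le_trans ?_ (norm_le_norm_sub_add (gradient W m) v)
    have h := hM.mono 0 m
    rw [zero_add, hM.block.grad_zero, sub_zero] at h
    have h2 := h.trans (real_inner_le_norm _ _)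
    rcases (norm_nonneg m).eq_or_lt with h0 | h0
    · rw [← h0]; exact norm_nonneg _
    · exact le_of_mul_le_mul_right (by linarith [sq ‖m‖]) h0
  have hfirst : ∀ n, ‖gradient W (descentPt g v n) - v‖ ≤ ((1 / 2) ^ n + 3 * e₀) * ‖v‖ := by
    intro n
    induction n with
    | zero =>
      simp only [descentPt, hM.block.grad_zero, zero_sub, norm_neg, pow_zero]
      exact le_mul_of_one_le_left (norm_nonneg v) (by linarith)
    | succ n ih =>
      set m := descentPt g v n
      have h := hM.cross m (-((2 / 3 : ℝ) • (g m - v)))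
      rw [norm_neg, norm_smul, Real.norm_eq_abs, abs_of_pos (by norm_num : (0 : ℝ) < 2 / 3),
        ← sub_eq_add_neg,
        show gradient W (m - (2 / 3 : ℝ) • (g m - v)) - gradient W m
            - (3 / 2 : ℝ) • -((2 / 3 : ℝ) • (g m - v))
          = gradient W (m - (2 / 3 : ℝ) • (g m - v)) - v + (g m - gradient W m) by module] at h
      set E := gradient W (m - (2 / 3 : ℝ) • (g m - v)) - v
      have h1 : ‖E‖ ≤ 1 / 3 * ‖g m - v‖ + e₀ * ‖m‖ := by
        have := norm_sub_le (E + (g m - gradient W m)) (g m - gradient W m)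
        rw [add_sub_cancel_right] at this
        linarith [hg m]
      have h2 : ‖g m - v‖ ≤ e₀ * ‖m‖ + ‖gradient W m - v‖ :=
        (norm_sub_le_norm_sub_add_norm_sub _ (gradient W m) _).trans (by linarith [hg m])
      have h3 := mul_le_mul_of_nonneg_left (hpt m) he
      have h4 := mul_le_mul_of_nonneg_right he8 (norm_nonneg (gradient W m - v))
      have h5 : 0 ≤ e₀ * ‖v‖ := mul_nonneg he (norm_nonneg v)
      show ‖E‖ ≤ _
      rw [pow_succ]
      linarith
  refine fun n => ⟨hfirst n, (hpt _).trans ?_⟩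
  have h1 : (1 / 2 : ℝ) ^ n ≤ 1 := pow_le_one₀ (by norm_num) (by norm_num)
  have h2 := mul_le_mul_of_nonneg_right
    (show (1 / 2 : ℝ) ^ n + 3 * e₀ ≤ 2 by linarith) (norm_nonneg v)
  linarith [hfirst n]

theorem mAlg_close (hF : Frozen V col) (h0 : 0 ≤ η) (h1 : η ≤ 1 / 4) (u : Space d) :
    ‖(mAlg col η N).eval (oracle V) u - mOp V col η u‖ ≤ 4 * d / 2 ^ N * ‖u‖ := by
  rw [mAlg, Alg.seq_eval, Alg.pure_eval, mOp_apply, sub_sub_sub_cancel_left, ← smul_sub, norm_smul,
    Real.norm_eq_abs, abs_of_nonneg h0, norm_sub_rev]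
  refine (mul_le_of_le_one_left (norm_nonneg _) (by linarith)).trans ?_
  exact (hF.blockApply_close N u).trans (le_of_eq (by ring))

theorem gradPlus_eval (V : Space d → ℝ) (m : Space d) :
    (gradPlus col η N).eval (oracle V) m
      = Real.sqrt η • gradient V (Real.sqrt η • m) + (mAlg col η N).eval (oracle V) m := by
  simp only [gradPlus, Alg.seq_eval, Alg.many_eval, Alg.comap_eval, Alg.pure_eval]
  rfl

theorem gradPlus_close (hF : Frozen V col) (h0 : 0 ≤ η) (h1 : η ≤ 1 / 4) (m : Space d) :
    ‖(gradPlus col η N).eval (oracle V) m - gradient (wPlus V col η) m‖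
      ≤ 4 * d / 2 ^ N * ‖m‖ := by
  rw [gradPlus_eval, hF.gradient_wPlus h0, add_sub_add_left_eq_sub]
  exact mAlg_close hF h0 h1 m

theorem colourGrad_eval (V : Space d → ℝ) (c : Fin χ) (m e p : Space d) :
    (colourGrad col η N c).eval (oracle V) ((m, e), p)
      = Real.sqrt η • gradient V (Real.sqrt η • (m + p)) + (1 + 3 * η) • (m + p)
        - η • (colourApply col c N).eval (oracle V) (m + p) - e := by
  simp only [colourGrad, Alg.seq_eval, Alg.many_eval, Alg.comap_eval, Alg.pure_eval]
  rfl

theorem colourGrad_close (hF : Frozen V col) (h0 : 0 ≤ η) (h1 : η ≤ 1 / 4) (c : Fin χ)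
    (m p : Space d) (hdiff : Differentiable ℝ (wPlus V col η)) {i : Fin d} (hi : col i = c) :
    |(colourGrad col η N c).eval (oracle V) ((m, (gradPlus col η N).eval (oracle V) m), p) i
        - gradient (centred (wPlus V col η) m) p i|
      ≤ 4 * d / 2 ^ N * (2 * ‖m‖ + ‖p‖) := by
  set e := (gradPlus col η N).eval (oracle V) m
  set cv := (colourApply col c N).eval (oracle V) (m + p)
  have key : (colourGrad col η N c).eval (oracle V) ((m, e), p) i
      - gradient (centred (wPlus V col η) m) p i
      = η * (blockOp V col (m + p) i - cv i) - (e i - gradient (wPlus V col η) m i) := by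
    rw [colourGrad_eval, gradient_centred hdiff, hF.gradient_wPlus h0 (m + p), mOp_apply]
    simp only [WithLp.ofLp_add, WithLp.ofLp_sub, WithLp.ofLp_smul, Pi.add_apply, Pi.sub_apply,
      Pi.smul_apply, smul_eq_mul, cv]
    ring
  have a1 : |blockOp V col (m + p) i - cv i| ≤ 4 * d / 2 ^ N * (‖m‖ + ‖p‖) := by
    have h := (PiLp.norm_apply_le (cv - onColour col c (blockOp V col (m + p))) i).trans
      (hF.colourApply_close c N (m + p))
    rw [Real.norm_eq_abs, WithLp.ofLp_sub, Pi.sub_apply, onColour_apply, if_pos hi,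
      abs_sub_comm] at h
    refine h.trans ?_
    rw [mul_div_right_comm]
    exact mul_le_mul_of_nonneg_left (norm_add_le m p) (by positivity)
  have a2 : |e i - gradient (wPlus V col η) m i| ≤ 4 * d / 2 ^ N * ‖m‖ := by
    have h := (PiLp.norm_apply_le (e - gradient (wPlus V col η) m) i).trans
      (gradPlus_close hF h0 h1 m)
    rwa [Real.norm_eq_abs, WithLp.ofLp_sub, Pi.sub_apply] at h
  rw [key]
  refine (abs_sub _ _).trans ?_
  rw [abs_mul, abs_of_nonneg h0]
  have := mul_le_of_le_one_left (abs_nonneg (blockOp V col (m + p) i - cv i))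
    (show η ≤ 1 by linarith)
  linarith

variable [NeZero χ]

/-- The seeds of one outer step. -/
abbrev OuterSeed (d T J K : ℕ) : Type := Space d × (Fin T → StepSeed d J K)

/-- The law of these seeds. -/
def outerSeedLaw (d T J K : ℕ) : Measure (OuterSeed d T J K) :=
  (noise d).prod (Measure.pi fun _ => stepLaw d J K)

instance (d T J K : ℕ) : IsProbabilityMeasure (outerSeedLaw d T J K) := by
  unfold outerSeedLaw; infer_instance

/-- One outer step. -/
def outerAlg (col : Fin d → Fin χ) (η : ℝ) (N k G : ℕ) {J K : ℕ} (T : ℕ) :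
    Alg d (OuterSeed d T J K × Space d) (Space d) :=
  ((mAlg col η N).comap fun z => z.2).seq
    (((rootAlg (mAlg col η N) k).comap fun z => z.1.1.1).seq
      (((descentAlg (gradPlus col η N) G).comap fun z => z.1.2 + z.2).seq
        (((gradPlus col η N).comap fun z => z.2).seq
          (((innerGen col G (colourGrad col η N) T).comap
              fun z => ((z.1.2, z.2), z.1.1.1.1.1.2)).seq
            (Alg.pure d fun z => z.1.1.2 + z.2)))))

theorem outerAlg_size {k G J K T : ℕ} :
    (outerAlg col η N k G T (J := J) (K := K)).size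
      ≤ χ * (2 * N) + 4 ^ (k + 1) * (χ * (2 * N)) + (G + 1) * (1 + χ * (2 * N))
        + T * ((G + 1 + J * K) * (1 + 2 * N)) := by
  have h := rootAlg_size (mAlg col η N) k
  simp only [outerAlg, Alg.seq, Alg.comap, Alg.pure, descentAlg_size, gradPlus_size,
    innerGen_size col G (fun c => colourGrad_size c) T, mAlg_size] at h ⊢
  rw [add_one_mul]
  omega

theorem outerAlg_meas {k G J K T : ℕ} : (outerAlg col η N k G T (J := J) (K := K)).Meas :=
  Alg.seq_meas (Alg.comap_meas mAlg_meas measurable_snd) (Alg.seq_meas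
    (Alg.comap_meas (rootAlg_meas mAlg_meas k) (by fun_prop)) (Alg.seq_meas
      (Alg.comap_meas (descentAlg_meas gradPlus_meas G) (by fun_prop)) (Alg.seq_meas
        (Alg.comap_meas gradPlus_meas measurable_snd) (Alg.seq_meas
          (Alg.comap_meas (innerGen_meas col G colourGrad_meas T) (by fun_prop))
          (Alg.pure_meas (by fun_prop))))))

theorem outerAlg_eval {k G J K T : ℕ} (O : Space d → Reply d) (w : OuterSeed d T J K)
    (u : Space d) :
    (outerAlg col η N k G T).eval O (w, u)
      = descentPt ((gradPlus col η N).eval O)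
          ((mAlg col η N).eval O u + rootApprox ((mAlg col η N).eval O) k w.1) G
        + (innerGen col G (colourGrad col η N) T).eval O
          ((descentPt ((gradPlus col η N).eval O)
              ((mAlg col η N).eval O u + rootApprox ((mAlg col η N).eval O) k w.1) G,
            (gradPlus col η N).eval O (descentPt ((gradPlus col η N).eval O)
              ((mAlg col η N).eval O u + rootApprox ((mAlg col η N).eval O) k w.1) G)), w.2) := by
  simp only [outerAlg, Alg.seq_eval, Alg.comap_eval, Alg.pure_eval, descentAlg_eval, rootAlg_eval]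

/-- How far the tilt reached is from the one wanted. -/
def tiltGap (e₀ ρ : ℝ) (G : ℕ) (r : ℝ) : ℝ := (e₀ + ρ) * r + ((1 / 2) ^ G + 3 * e₀) * (6 * r)

/-- The error of one outer step apart from far states. -/
def denseError (d χ G J : ℕ) (δ ε τ L r : ℝ) (R : ℕ) : ℝ :=
  innerError d χ G J δ ε L r R + 8 * (τ * (L + 1)) + 4 * tiltTail d L + 4 * ballTail d L
    + ((L + 1) / r + ballTail d L)

omit [NeZero χ] in
theorem frozen_oracle_measurable (hF : Frozen V col) : Measurable (oracle V) :=
  hF.smooth.continuous.measurable.prodMk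
    (gradient_differentiable hF.smooth).continuous.measurable

/-- **One outer step from queries.** -/
theorem dense_step (hF : Frozen V col) (h0 : 0 < η) (h1 : η ≤ 1 / 4)
    (hχ : (χ : ℝ) * (2 * η) ^ 2 ≤ 1) {S : Space d ≃L[ℝ] Space d} (hS : Root (mOp V col η) S)
    {k G J K R : ℕ} {L₀ δ e₀ ρ ε L r : ℝ}
    (hroot : ∀ v, ‖rootApprox ((mAlg col η N).eval (oracle V)) k v - S v‖ ≤ ρ * ‖v‖)
    (he : 4 * (d : ℝ) / 2 ^ N = e₀) (hρ : 0 ≤ ρ) (heρ : e₀ + ρ ≤ 1) (he8 : e₀ ≤ 1 / 8)
    (hεd : 36 * r * e₀ ≤ ε) (hδ0 : 0 ≤ δ) (hδ : δ ≤ 1 / 4)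
    (hK : Real.exp (3 * L₀) ≤ δ * 2 ^ K) (hL₀ : 2 ^ 1 * Real.exp (-L₀ / 4) ≤ δ)
    (hJ : Real.exp (-((J : ℝ) / 2 ^ (1 + 1))) ≤ δ) (hr : 1 ≤ r) (hd : 1 ≤ d) (hL : 0 ≤ L)
    (hsmall : 24 * ε * d * r ≤ 1) (hsmall2 : 2 * ε * (8 * d * (r + L + 1)) * (L + 1) ≤ 1)
    (hE : noisyError d J G δ ε L r ≤ 1) (hτ : tiltGap e₀ ρ G r * (L + 1) ≤ 1)
    {g : Space d → ℝ} (hg : Test g) (y : Space d) :
    |∫ w, g (S ((outerAlg col η N k G (χ * (R + 1))).eval (oracle V) (w, S.symm y)))
          ∂outerSeedLaw d (χ * (R + 1)) J K - chainOp (conjPot V col η S) g y|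
      ≤ denseError d χ G J δ ε (tiltGap e₀ ρ G r) L r R + far r y := by
  set T := χ * (R + 1)
  set τ := tiltGap e₀ ρ G r with hτdef
  have hC := hF.conj_chain h0 h1 hS
  have hs : Real.sqrt (2 * η) ^ 2 = 2 * η := Real.sq_sqrt (by linarith)
  have hs' : Real.sqrt (2 * η) ^ 2 ≤ 1 / 2 := by rw [hs]; linarith
  have hP : Potential (wPlus V col η) _ _ := potential_reg hF.aug_model hF.aug_smooth.1 hs'
  have hM : Model (wPlus V col η) col := model_reg hF.aug_model hs'
  have he0 : 0 ≤ e₀ := by rw [← he]; positivity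
  have hr0 : 0 < r := by linarith
  have hε : 0 ≤ ε := le_trans (by positivity) hεd
  have hgS : Test fun u : Space d => g (S u) :=
    ⟨hg.meas.comp S.continuous.measurable, fun _ => hg.nonneg _, fun _ => hg.le_one _⟩
  set u := S.symm y with hu
  have hSu : S u = y := S.apply_symm_apply y
  have hm : Measurable fun w : OuterSeed d T J K =>
      S ((outerAlg col η N k G T).eval (oracle V) (w, u)) :=
    S.continuous.measurable.comp ((outerAlg_meas (col := col)).eval (O := fun _ => oracle V)
      ((frozen_oracle_measurable hF).comp measurable_snd) (measurable_id.prodMk measurable_const))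
  have hH : Test fun w : OuterSeed d T J K =>
      g (S ((outerAlg col η N k G T).eval (oracle V) (w, u))) :=
    ⟨hg.meas.comp hm, fun _ => hg.nonneg _, fun _ => hg.le_one _⟩
  set B := denseError d χ G J δ ε τ L r R - ((L + 1) / r + ballTail d L) with hBdef
  have hB0 : 0 ≤ B := by
    rw [hBdef, denseError, add_sub_cancel_right]
    have := sweepConst_nonneg d χ
    have h1 : 0 ≤ ballTail d L := by unfold ballTail; positivity
    have h2 : 0 ≤ tiltTail d L := by unfold tiltTail; positivity
    have h3 : 0 ≤ perturbConst := by unfold perturbConst; positivity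
    have h4 : 0 ≤ τ := by rw [hτdef]; unfold tiltGap; positivity
    unfold innerError noisyError
    positivity
  set F := fun ξ : Space d =>
    ∫ ω, g (S ((outerAlg col η N k G T).eval (oracle V) ((ξ, ω), u)))
      ∂(Measure.pi fun _ : Fin T => stepLaw d J K)
  have hpt : ∀ ξ, |F ξ - tiltMean (conjPot V col η S) g (y + ξ)| ≤ B + far r y + far r ξ := by
    intro ξ
    have f1 := (test_far (d := d) hr0).nonneg y
    have f2 := (test_far (d := d) hr0).nonneg ξ
    by_cases hbad : r ≤ ‖y‖ ∨ r ≤ ‖ξ‖
    · have hfar : 1 ≤ far r y + far r ξ := by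
        rcases hbad with h | h
        · rw [show far r y = 1 from min_eq_left ((one_le_div hr0).2 h)]; linarith
        · rw [show far r ξ = 1 from min_eq_left ((one_le_div hr0).2 h)]; linarith
      have hin : Test fun ω : Fin T → StepSeed d J K =>
          g (S ((outerAlg col η N k G T).eval (oracle V) ((ξ, ω), u))) :=
        ⟨hg.meas.comp (hm.comp measurable_prodMk_left), fun _ => hg.nonneg _, fun _ => hg.le_one _⟩
      obtain ⟨a0, a1⟩ := hin.integral_mem (Measure.pi fun _ : Fin T => stepLaw d J K)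
      have b := hC.test_prox hg
      rw [abs_le]
      constructor <;> linarith [b.nonneg (y + ξ), b.le_one (y + ξ)]
    · simp only [not_or, not_le] at hbad
      obtain ⟨hy, hξ⟩ := hbad
      set v := (mAlg col η N).eval (oracle V) u + rootApprox ((mAlg col η N).eval (oracle V)) k ξ
      set m := descentPt ((gradPlus col η N).eval (oracle V)) v G
      have hu_le : ‖u‖ ≤ r := le_trans (le_trans (hS.lower u) (le_of_eq (by rw [hSu]))) hy.le
      -- the tilt reached
      have hv1 : ‖v - S (y + ξ)‖ ≤ (e₀ + ρ) * r := by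
        rw [map_add, ← hSu, hS.sq u, add_sub_add_comm, add_mul]
        refine (norm_add_le _ _).trans (add_le_add ?_ ?_)
        · exact ((mAlg_close hF h0.le h1 u).trans_eq (by rw [he])).trans
            (mul_le_mul_of_nonneg_left hu_le he0)
        · exact (hroot ξ).trans (mul_le_mul_of_nonneg_left hξ.le hρ)
      have hv2 : ‖v‖ ≤ 6 * r := by
        have a1 := norm_le_norm_add_norm_sub' v (S (y + ξ))
        have a2 := hS.upper (y + ξ)
        have a3 := norm_add_le y ξ
        have a4 := mul_le_mul_of_nonneg_right heρ hr0.le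
        linarith
      obtain ⟨hm1, hm2⟩ := descentPt_small hM he0 he8
        (fun p => (gradPlus_close hF h0.le h1 p).trans_eq (by rw [he])) v G
      have hgap : ‖S (y + ξ) - gradient (wPlus V col η) m‖ ≤ τ := by
        refine (norm_sub_le_norm_sub_add_norm_sub _ v _).trans (add_le_add ?_ ?_)
        · rw [norm_sub_rev]; exact hv1
        · rw [norm_sub_rev]
          exact hm1.trans (mul_le_mul_of_nonneg_left hv2 (by positivity))
      -- the inner chain
      set W' := centred (wPlus V col η) m
      have hT : Tight W' col _ _ := tight_centred hF.aug_model hF.aug_smooth.1 hs'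
        (by rw [hs]; exact hχ) m
      have hD : ∀ c p i, col i = c →
          |(colourGrad col η N c).eval (oracle V)
              ((m, (gradPlus col η N).eval (oracle V) m), p) i - gradient W' p i|
            ≤ ε * (1 + ‖p‖) := fun c p i hi => by
        refine (colourGrad_close hF h0.le h1 c m p hM.diff hi).trans ?_
        rw [he]
        refine le_trans ?_ (mul_le_mul_of_nonneg_right hεd (by positivity))
        have hm3 : ‖m‖ ≤ 18 * r := by linarith
        have : 0 ≤ e₀ * r * ‖p‖ := by positivity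
        have := mul_le_mul_of_nonneg_left hm3 he0
        have := mul_le_mul_of_nonneg_right hr (show 0 ≤ e₀ * ‖p‖ by positivity)
        linarith
      have hg' : Test fun p : Space d => g (S (m + p)) :=
        ⟨hgS.meas.comp (measurable_const_add m), fun _ => hg.nonneg _, fun _ => hg.le_one _⟩
      have h3 := innerGen_close (col := col) (Dg := colourGrad col η N) colourGrad_meas
        (frozen_oracle_measurable hF) (q := (m, (gradPlus col η N).eval (oracle V) m)) hT hδ0 hδ
        hK hL₀ hJ hr hd hε hL hsmall hsmall2 hE hD hg' R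
      have hgap1 := mul_le_mul_of_nonneg_right hgap (show 0 ≤ L + 1 by linarith)
      have h4 := (hP.centre hM m).tilt_small hg' (S (y + ξ) - gradient (wPlus V col η) m) hL
        (hgap1.trans hτ)
      rw [hP.translate hM m (S (y + ξ)) fun p => g (S p)] at h4
      have e1 : F ξ = ∫ ω, g (S (m + (innerGen col G (colourGrad col η N) T).eval (oracle V)
          ((m, (gradPlus col η N).eval (oracle V) m), ω)))
          ∂(Measure.pi fun _ : Fin T => stepLaw d J K) := by
        simp only [F, outerAlg_eval]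
        rfl
      rw [e1, hF.conj_tiltMean h0 h1 hS]
      rw [hBdef, denseError, add_sub_cancel_right]
      rw [abs_le] at h3 h4 ⊢
      constructor <;> linarith
  rw [outerSeedLaw, integral_prod _ (hH.integrable _), chainOp]
  have hFt : Test F := by
    refine ⟨(hH.meas.stronglyMeasurable.integral_prod_right').measurable, fun ξ => ?_, fun ξ => ?_⟩
    · exact integral_nonneg fun ω => hg.nonneg _
    · exact (Test.integral_mem ⟨hg.meas.comp (hm.comp measurable_prodMk_left), fun _ => hg.nonneg _,
        fun _ => hg.le_one _⟩ _).2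
  have hfar := test_far (d := d) hr0
  rw [← integral_sub (hFt.integrable _) ((hC.test_shift hg y).integrable _)]
  refine (abs_integral_le_integral_abs.trans (integral_mono
    ((hFt.integrable _).sub ((hC.test_shift hg y).integrable _)).abs
    ((integrable_const (B + far r y)).add (hfar.integrable _)) hpt)).trans ?_
  simp only [Pi.add_apply]
  rw [integral_add (integrable_const _) (hfar.integrable _), integral_const, probReal_univ,
    one_smul]
  linarith [noise_far (d := d) hr0 hL]

/-- The seeds of a run. -/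
abbrev AllSeeds (d R T J K : ℕ) : Type := Fin R → OuterSeed d T J K

/-- The algorithm. -/
def sampler (col : Fin d → Fin χ) (η : ℝ) (N k G : ℕ) {J K : ℕ} (R T : ℕ) :
    Alg d (AllSeeds d R T J K) (Space d) :=
  (((Alg.loop (fun _ => outerAlg col η N k G T) R).comap fun ω => (ω, 0)).seq
    (Alg.pure d fun z => Real.sqrt η • z.2))

theorem sampler_size {k G J K : ℕ} (R T : ℕ) :
    (sampler col η N k G R T (J := J) (K := K)).size
      ≤ R * (χ * (2 * N) + 4 ^ (k + 1) * (χ * (2 * N)) + (G + 1) * (1 + χ * (2 * N))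
        + T * ((G + 1 + J * K) * (1 + 2 * N))) := by
  simp only [sampler, Alg.seq, Alg.comap, Alg.pure, Nat.add_zero]
  rw [Alg.loop_size (fun _ => rfl) R]
  exact Nat.mul_le_mul_left R outerAlg_size

theorem sampler_meas {k G J K : ℕ} (R T : ℕ) :
    (sampler col η N k G R T (J := J) (K := K)).Meas :=
  Alg.seq_meas (Alg.comap_meas (Alg.loop_meas (fun _ => outerAlg_meas) R)
    (measurable_id.prodMk measurable_const)) (Alg.pure_meas (by fun_prop))

/-- A change of coordinates commutes with repetition. -/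
theorem iterOp_conj (S : Space d ≃L[ℝ] Space d) {A B : (Space d → ℝ) → Space d → ℝ}
    (h : ∀ g y, B g y = A (fun u => g (S u)) (S.symm y)) (f : Space d → ℝ) :
    ∀ n y, iterOp (fun _ => B) n (fun z => f (S.symm z)) y
      = iterOp (fun _ => A) n f (S.symm y)
  | 0, y => rfl
  | n + 1, y => by
    show B (iterOp (fun _ => B) n fun z => f (S.symm z)) y
      = A (iterOp (fun _ => A) n f) (S.symm y)
    rw [h]
    refine congrArg (fun a => A a (S.symm y)) (funext fun u => ?_)
    rw [iterOp_conj S h f n, S.symm_apply_apply]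

omit [NeZero χ] in
theorem test_conj {Ω : Type} [MeasurableSpace Ω] {μ : Measure Ω} [IsProbabilityMeasure μ]
    (S : Space d ≃L[ℝ] Space d) (f : Ω → Space d → Space d)
    (hf : Measurable fun z : Ω × Space d => f z.1 z.2) {g : Space d → ℝ} (hg : Test g) :
    Test fun y => ∫ w, g (S (f w (S.symm y))) ∂μ := by
  have hm : Measurable fun z : Space d × Ω => g (S (f z.2 (S.symm z.1))) :=
    hg.meas.comp (S.continuous.measurable.comp (hf.comp
      (measurable_snd.prodMk (S.symm.continuous.measurable.comp measurable_fst) :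
        Measurable fun z : Space d × Ω => (z.2, S.symm z.1))))
  have ht : ∀ x, Test fun w : Ω => g (S (f w (S.symm x))) := fun x =>
    ⟨hm.comp measurable_prodMk_left, fun _ => hg.nonneg _, fun _ => hg.le_one _⟩
  exact ⟨(hm.stronglyMeasurable.integral_prod_right').measurable,
    fun x => ((ht x).integral_mem _).1, fun x => ((ht x).integral_mem _).2⟩

/-- **The algorithm samples the target.** -/
theorem sampler_close (hF : Frozen V col) (h0 : 0 < η) (h1 : η ≤ 1 / 4)
    (hχ : (χ : ℝ) * (2 * η) ^ 2 ≤ 1) {k G J K R Ro : ℕ} {L₀ δ e₀ ρ ε L r : ℝ}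
    (he : 4 * (d : ℝ) / 2 ^ N = e₀) (hk : 40 ^ (k + 1) * e₀ ≤ 1)
    (hρ : 2 * (3 / 5 : ℝ) ^ 2 ^ k + 40 ^ (k + 1) * e₀ = ρ)
    (heρ : e₀ + ρ ≤ 1) (he8 : e₀ ≤ 1 / 8)
    (hεd : 36 * r * e₀ ≤ ε) (hδ0 : 0 ≤ δ) (hδ : δ ≤ 1 / 4)
    (hK : Real.exp (3 * L₀) ≤ δ * 2 ^ K) (hL₀ : 2 ^ 1 * Real.exp (-L₀ / 4) ≤ δ)
    (hJ : Real.exp (-((J : ℝ) / 2 ^ (1 + 1))) ≤ δ) (hr : 1 ≤ r) (hd : 1 ≤ d) (hL : 0 ≤ L)
    (hsmall : 24 * ε * d * r ≤ 1) (hsmall2 : 2 * ε * (8 * d * (r + L + 1)) * (L + 1) ≤ 1)
    (hE : noisyError d J G δ ε L r ≤ 1) (hτ : tiltGap e₀ ρ G r * (L + 1) ≤ 1)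
    (hO : denseError d χ G J δ ε (tiltGap e₀ ρ G r) L r R ≤ 1) {h : Space d → ℝ} (hh : Test h) :
    |∫ ω, h ((sampler col η N k G (Ro + 1) (χ * (R + 1))).eval (oracle V) ω)
          ∂(Measure.pi fun _ : Fin (Ro + 1) => outerSeedLaw d (χ * (R + 1)) J K)
        - ∫ x, h x ∂gibbs V|
      ≤ ((Ro + 1 : ℕ) : ℝ) * (denseError d χ G J δ ε (tiltGap e₀ ρ G r) L r R
          + 2 * (2 * d / Real.sqrt η * (L + 1) / r) + 3 * ballTail d L)
        + 3 * ballTail d L
        + perturbConst * d / (1 + η / 4) ^ Ro * (2 * d / Real.sqrt η * (L + 1)) := by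
  set T := χ * (R + 1)
  have he0 : 0 ≤ e₀ := by rw [← he]; positivity
  obtain ⟨S, hS, hroot⟩ := exists_root (mOp V col η) (hF.mOp_symm η) (hF.mOp_bounds h0.le h1)
  have hroot' : ∀ v, ‖rootApprox ((mAlg col η N).eval (oracle V)) k v - S v‖ ≤ ρ * ‖v‖ := by
    rw [← hρ]
    exact hroot _ e₀ k he0 hk fun v => (mAlg_close hF h0.le h1 v).trans_eq (by rw [he])
  have hρ0 : 0 ≤ ρ := by rw [← hρ]; positivity
  set step := fun (_ : ℕ) (w : OuterSeed d T J K) (u : Space d) =>
    (outerAlg col η N k G T).eval (oracle V) (w, u)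
  have hstep : ∀ n, Measurable fun z : OuterSeed d T J K × Space d => step n z.1 z.2 := fun _ =>
    (outerAlg_meas (col := col)).eval (O := fun _ => oracle V)
      ((frozen_oracle_measurable hF).comp measurable_snd) measurable_id
  have e1 : ∀ ω : AllSeeds d (Ro + 1) T J K, (sampler col η N k G (Ro + 1) T).eval (oracle V) ω
      = Real.sqrt η • loopFold step (Ro + 1) ω 0 := fun ω => by
    rw [sampler, Alg.seq_eval, Alg.comap_eval, Alg.loop_eval, Alg.pure_eval]
  have hh' : Test fun x : Space d => h (Real.sqrt η • x) :=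
    ⟨hh.meas.comp (measurable_const_smul _), fun _ => hh.nonneg _, fun _ => hh.le_one _⟩
  have hh2 : Test fun y : Space d => h (Real.sqrt η • S.symm y) :=
    ⟨hh'.meas.comp S.symm.continuous.measurable, fun _ => hh.nonneg _, fun _ => hh.le_one _⟩
  set A := fun (g : Space d → ℝ) u => ∫ w, g (step 0 w u) ∂outerSeedLaw d T J K
  set B := fun (g : Space d → ℝ) y => ∫ w, g (S (step 0 w (S.symm y))) ∂outerSeedLaw d T J K
  simp only [e1]
  rw [integral_loopFold hstep hh', ← hF.conj_law h0 h1 hS h]
  have e2 := iterOp_conj (A := A) (B := B) S (fun g y => rfl) (fun x => h (Real.sqrt η • x))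
    (Ro + 1) 0
  rw [map_zero] at e2
  show |iterOp (fun _ => A) (Ro + 1) (fun x => h (Real.sqrt η • x)) 0 - _| ≤ _
  rw [← e2]
  have hB : ∀ g, Test g → Test (B g) := fun g hg =>
    test_conj S (fun w u => step 0 w u) (hstep 0) hg
  have hO0 : 0 ≤ denseError d χ G J δ ε (tiltGap e₀ ρ G r) L r R := by
    have := sweepConst_nonneg d χ
    have h1 : 0 ≤ ballTail d L := by unfold ballTail; positivity
    have h2 : 0 ≤ tiltTail d L := by unfold tiltTail; positivity
    have h3 : 0 ≤ perturbConst := by unfold perturbConst; positivity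
    have h4 : 0 ≤ r := by linarith
    have h5 : 0 ≤ ε := le_trans (by positivity) hεd
    unfold denseError innerError noisyError tiltGap
    positivity
  refine ((hF.conj_chain h0 h1 hS).outer_close B hB hO0 hO (by linarith) hL
    (fun g hg y => dense_step hF h0 h1 hχ hS hroot' he hρ0 heρ he8 hεd hδ0 hδ hK hL₀ hJ hr hd hL
      hsmall hsmall2 hE hτ hg y)
    (ℓ := 2 * d / Real.sqrt η * (L + 1)) (by positivity)
    (fun Kl g hKl hg hl => hF.conj_mix hd h0 h1 hS hg hKl hL hl) hh2 Ro).trans ?_
  refine add_le_add le_rfl (mul_le_mul_of_nonneg_right ?_ (by positivity))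
  refine div_le_div_of_nonneg_left (by unfold perturbConst; positivity) (by positivity)
    (pow_le_pow_left₀ (by linarith) ?_ _)
  have := mul_le_mul_of_nonneg_left h1 h0.le
  linarith

end

end P347
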