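import Vale.Agent.P347.Any.Noisy

/-!
# P347: the inner chain from a procedure that supplies inexact gradients

Each colour has its own gradient procedure, which may use a fixed parameter; the procedure is called
at every point where the exact chain would read a gradient.
-/

namespace P347

open MeasureTheory Finset
open scoped BigOperators RealInnerProductSpace

noncomputable section

variable {d χ : ℕ}

/-- Several calls of one procedure. -/
def Alg.each {β α : Type} (A : Alg d β α) : (N : ℕ) → Alg d (Fin N → β) (Fin N → α)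
  | 0 => Alg.pure d fun _ i => i.elim0
  | N + 1 => (A.comap fun z => z (Fin.last N)).seq
      (((Alg.each A N).comap fun z j => z.1 j.castSucc).seq
        (Alg.pure d fun z => Fin.snoc z.2 z.1.2))

theorem Alg.each_eval {β α : Type} (A : Alg d β α) (O : Space d → Reply d) :
    ∀ N (z : Fin N → β), (Alg.each A N).eval O z = fun i => A.eval O (z i)
  | 0, z => funext fun i => i.elim0
  | N + 1, z => by
    rw [Alg.each, Alg.seq_eval, Alg.comap_eval, Alg.seq_eval, Alg.comap_eval, Alg.pure_eval,
      Alg.each_eval A O N]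
    funext i
    refine Fin.lastCases ?_ (fun j => ?_) i
    · simp
    · simp

theorem Alg.each_size {β α : Type} (A : Alg d β α) : ∀ N, (Alg.each A N).size = N * A.size
  | 0 => by simp [Alg.each, Alg.pure]
  | N + 1 => by
    simp only [Alg.each, Alg.seq, Alg.comap, Alg.pure, Alg.each_size A N]
    ring

theorem Alg.each_meas {β α : Type} [MeasurableSpace β] [MeasurableSpace α] {A : Alg d β α}
    (hA : A.Meas) : ∀ N, (Alg.each A N).Meas
  | 0 => Alg.pure_meas (measurable_pi_lambda _ fun i => i.elim0)
  | N + 1 => by
    refine Alg.seq_meas (Alg.comap_meas hA (measurable_pi_apply _)) (Alg.seq_meas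
      (Alg.comap_meas (Alg.each_meas hA N) (measurable_pi_lambda _ fun j =>
        (measurable_pi_apply j.castSucc).comp measurable_fst)) (Alg.pure_meas ?_))
    refine measurable_pi_lambda _ fun i => ?_
    refine Fin.lastCases ?_ (fun j => ?_) i
    · simp only [Fin.snoc_last]
      exact measurable_snd.comp measurable_fst
    · simp only [Fin.snoc_castSucc]
      exact (measurable_pi_apply j).comp measurable_snd

variable {γ : Type}

/-- Descent on one colour from a gradient procedure. -/
def descendGen (Dg : Alg d (γ × Space d) (Space d)) (col : Fin d → Fin χ) (c : Fin χ) :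
    ℕ → Alg d (γ × Space d) (Fin d → ℝ)
  | 0 => Alg.pure d fun _ => 0
  | n + 1 => (descendGen Dg col c n).seq ((Dg.comap fun z => (z.1.1, upd col c z.2 z.1.2)).seq
      (Alg.pure d fun z => descendStep z.2 z.1.2))

theorem descendGen_size (Dg : Alg d (γ × Space d) (Space d)) (col : Fin d → Fin χ) (c : Fin χ) :
    ∀ n, (descendGen Dg col c n).size = n * Dg.size
  | 0 => by simp [descendGen, Alg.pure]
  | n + 1 => by
    simp only [descendGen, Alg.seq, Alg.comap, Alg.pure, descendGen_size Dg col c n]
    ring

theorem descendGen_eval (Dg : Alg d (γ × Space d) (Space d)) (col : Fin d → Fin χ) (c : Fin χ)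
    (O : Space d → Reply d) (q : γ) (x : Space d) :
    ∀ n, (descendGen Dg col c n).eval O (q, x)
      = descendWith (fun u => Dg.eval O (q, u)) col c x n
  | 0 => rfl
  | n + 1 => by
    simp only [descendGen, Alg.seq_eval, Alg.comap_eval, Alg.pure_eval,
      descendGen_eval Dg col c O q x n, descendWith]

theorem descendGen_meas [MeasurableSpace γ] {Dg : Alg d (γ × Space d) (Space d)} (hD : Dg.Meas)
    (col : Fin d → Fin χ) (c : Fin χ) : ∀ n, (descendGen Dg col c n).Meas
  | 0 => Alg.pure_meas measurable_const
  | n + 1 => Alg.seq_meas (descendGen_meas hD col c n) (Alg.seq_meas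
      (Alg.comap_meas hD ((measurable_fst.comp measurable_fst).prodMk
        ((continuous_upd col c).measurable.comp
          (measurable_snd.prodMk (measurable_snd.comp measurable_fst)))))
      (Alg.pure_meas (by unfold descendStep; fun_prop)))

variable (col : Fin d → Fin χ) (G : ℕ) {J K : ℕ}

/-- One colour step from a gradient procedure. -/
def colourGen (Dg : Alg d (γ × Space d) (Space d)) (c : Fin χ) :
    Alg d ((γ × StepSeed d J K) × Space d) (Space d) :=
  ((descendGen Dg col c G).comap fun z => (z.1.1, z.2)).seq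
    ((Dg.comap fun z => (z.1.1.1, upd col c z.2 z.1.2)).seq
      (((Alg.each Dg (J * K)).comap fun z n =>
          (z.1.1.1.1, samplePoint col c z.1.1.2 z.1.2 z.1.1.1.2 n)).seq
        (Alg.pure d fun z =>
          stepOut col c z.1.1.1.2 z.1.1.2 z.1.2 z.1.1.1.1.2 fun n => (0, z.2 n))))

theorem colourGen_size (Dg : Alg d (γ × Space d) (Space d)) (c : Fin χ) :
    (colourGen col G Dg c (J := J) (K := K)).size = (G + 1 + J * K) * Dg.size := by
  simp only [colourGen, Alg.seq, Alg.comap, Alg.pure, descendGen_size, Alg.each_size]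
  ring

theorem colourGen_eval (Dg : Alg d (γ × Space d) (Space d)) (c : Fin χ) (O : Space d → Reply d)
    (q : γ) (w : StepSeed d J K) (x : Space d) :
    (colourGen col G Dg c).eval O ((q, w), x)
      = stepWith (fun u => Dg.eval O (q, u)) col G c w x := by
  simp only [colourGen, Alg.seq_eval, Alg.comap_eval, Alg.pure_eval, Alg.each_eval,
    descendGen_eval, stepWith]

theorem colourGen_meas [MeasurableSpace γ] {Dg : Alg d (γ × Space d) (Space d)} (hD : Dg.Meas)
    (c : Fin χ) : (colourGen col G Dg c (J := J) (K := K)).Meas := by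
  refine Alg.seq_meas (Alg.comap_meas (descendGen_meas hD col c G) (by fun_prop))
    (Alg.seq_meas (Alg.comap_meas hD ?_) (Alg.seq_meas
      (Alg.comap_meas (Alg.each_meas hD _) (measurable_pi_lambda _ fun n => ?_))
      (Alg.pure_meas ?_)))
  · exact (measurable_fst.comp (measurable_fst.comp measurable_fst)).prodMk
      ((continuous_upd col c).measurable.comp
        (measurable_snd.prodMk (measurable_snd.comp measurable_fst)))
  · refine (measurable_fst.comp
      (measurable_fst.comp (measurable_fst.comp measurable_fst))).prodMk ?_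
    exact (measurable_samplePoint (col := col) c n).comp
      (f := fun z : (((γ × StepSeed d J K) × Space d) × (Fin d → ℝ)) × Space d =>
        (z.1.1.2, z.1.2, z.1.1.1.2)) (by fun_prop)
  · exact (measurable_stepOut (col := col) c).comp
      (f := fun z : ((((γ × StepSeed d J K) × Space d) × (Fin d → ℝ)) × Space d) ×
          (Fin (J * K) → Space d) =>
        (z.1.1.1.2, z.1.1.2, z.1.2, z.1.1.1.1.2, fun n => ((0 : ℝ), z.2 n)))
      (by fun_prop)

variable [NeZero χ]

/-- The inner chain from gradient procedures, started at the centre. -/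
def innerGen (Dg : Fin χ → Alg d (γ × Space d) (Space d)) (T : ℕ) :
    Alg d (γ × (Fin T → StepSeed d J K)) (Space d) :=
  (Alg.loop (fun n => colourGen col G (Dg (colourAt χ n)) (colourAt χ n)) T).comap
    fun z => (fun j => (z.1, z.2 j), 0)

theorem innerGen_size {Dg : Fin χ → Alg d (γ × Space d) (Space d)} {s : ℕ}
    (hs : ∀ c, (Dg c).size = s) (T : ℕ) :
    (innerGen col G Dg T (J := J) (K := K)).size = T * ((G + 1 + J * K) * s) := by
  simp only [innerGen, Alg.comap]
  exact Alg.loop_size (fun n => by rw [colourGen_size, hs]) T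

theorem innerGen_meas [MeasurableSpace γ] {Dg : Fin χ → Alg d (γ × Space d) (Space d)}
    (hD : ∀ c, (Dg c).Meas) (T : ℕ) : (innerGen col G Dg T (J := J) (K := K)).Meas :=
  Alg.comap_meas (Alg.loop_meas (fun n => colourGen_meas col G (hD _) _) T)
    ((measurable_pi_lambda _ fun j => measurable_fst.prodMk
      ((measurable_pi_apply j).comp measurable_snd)).prodMk measurable_const)

omit [NeZero χ] in
theorem loopFold_param {W α : Type} (f : ℕ → γ × W → α → α) (q : γ) :
    ∀ n (ω : Fin n → W) (x : α),
      loopFold f n (fun j => (q, ω j)) x = loopFold (fun k w => f k (q, w)) n ω x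
  | 0, _, _ => rfl
  | n + 1, ω, x => loopFold_param f q n (fun j => ω j.castSucc) (f n (q, ω (Fin.last n)) x)

theorem innerGen_eval (Dg : Fin χ → Alg d (γ × Space d) (Space d)) (O : Space d → Reply d)
    (T : ℕ) (q : γ) (ω : Fin T → StepSeed d J K) :
    (innerGen col G Dg T).eval O (q, ω)
      = loopFold (fun k w y => stepWith (fun u => (Dg (colourAt χ k)).eval O (q, u)) col G
          (colourAt χ k) w y) T ω 0 := by
  rw [innerGen, Alg.comap_eval, Alg.loop_eval]
  simp only [loopFold_param, colourGen_eval]

variable {col G}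

/-- The error of the inner chain. -/
def innerError (d χ G J : ℕ) (δ ε L r : ℝ) (R : ℕ) : ℝ :=
  ((χ * (R + 1) : ℕ) : ℝ)
      * (noisyError d J G δ ε L r + 2 * (χ / r * (L + 1)) + 3 * ballTail d L)
    + 3 * ballTail d L + sweepConst d χ / 2 ^ R * (L + 1)

/-- **The inner chain from inexact gradients.** -/
theorem innerGen_close [MeasurableSpace γ] {Dg : Fin χ → Alg d (γ × Space d) (Space d)}
    (hDg : ∀ c, (Dg c).Meas) {O : Space d → Reply d} (hO : Measurable O) {q : γ}
    {W : Space d → ℝ} {a e : ℝ} (hT : Tight W col a e) {L₀ δ ε L r : ℝ} (hδ0 : 0 ≤ δ)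
    (hδ : δ ≤ 1 / 4) (hK : Real.exp (3 * L₀) ≤ δ * 2 ^ K)
    (hL₀ : 2 ^ 1 * Real.exp (-L₀ / 4) ≤ δ)
    (hJ : Real.exp (-((J : ℝ) / 2 ^ (1 + 1))) ≤ δ) (hr : 1 ≤ r) (hd : 1 ≤ d) (hε : 0 ≤ ε)
    (hL : 0 ≤ L) (hsmall : 24 * ε * d * r ≤ 1)
    (hsmall2 : 2 * ε * (8 * d * (r + L + 1)) * (L + 1) ≤ 1)
    (hE : noisyError d J G δ ε L r ≤ 1)
    (hD : ∀ c u i, col i = c → |(Dg c).eval O (q, u) i - gradient W u i| ≤ ε * (1 + ‖u‖))
    {h : Space d → ℝ} (hh : Test h) (R : ℕ) :
    |∫ ω, h ((innerGen col G Dg (χ * (R + 1))).eval O (q, ω))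
          ∂(Measure.pi fun _ : Fin (χ * (R + 1)) => stepLaw d J K) - ∫ x, h x ∂gibbs W|
      ≤ innerError d χ G J δ ε L r R := by
  have hM := hT.model
  have hO' : Measurable fun z : (StepSeed d J K × Space d) × Space d => O z.2 :=
    hO.comp measurable_snd
  have hstep : ∀ c, Measurable fun z : StepSeed d J K × Space d =>
      stepWith (fun u => (Dg c).eval O (q, u)) col G c z.1 z.2 := fun c => by
    simp only [← colourGen_eval]
    exact (colourGen_meas col G (hDg c) c).eval (O := fun _ => O) hO'
      ((measurable_const.prodMk measurable_fst).prodMk measurable_snd)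
  have hDm : ∀ c, Measurable fun u => (Dg c).eval O (q, u) := fun c =>
    (hDg c).eval (O := fun _ : Space d => O) (hO.comp measurable_snd)
      (measurable_const.prodMk measurable_id)
  simp only [innerGen_eval]
  rw [integral_loopFold (fun n => hstep (colourAt χ n)) hh]
  have hN0 : 0 ≤ noisyError d J G δ ε L r := by
    have : 0 ≤ perturbConst := by unfold perturbConst; positivity
    have : 0 ≤ r := by linarith
    unfold noisyError; positivity
  have hA : ∀ (n : ℕ) g, Test g → Test fun x => ∫ w, g (stepWith
      (fun u => (Dg (colourAt χ n)).eval O (q, u)) col G (colourAt χ n) w x) ∂stepLaw d J K := by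
    intro n g hg
    have hm := hg.meas.comp ((hstep (colourAt χ n)).comp
      (measurable_snd.prodMk measurable_fst :
        Measurable fun z : Space d × StepSeed d J K => (z.2, z.1)))
    have ht : ∀ x, Test fun w : StepSeed d J K => g (stepWith
        (fun u => (Dg (colourAt χ n)).eval O (q, u)) col G (colourAt χ n) w x) := fun x =>
      ⟨hm.comp measurable_prodMk_left, fun _ => hg.nonneg _, fun _ => hg.le_one _⟩
    exact ⟨(hm.stronglyMeasurable.integral_prod_right').measurable,
      fun x => ((ht x).integral_mem _).1, fun x => ((ht x).integral_mem _).2⟩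
  refine inner_close hT (fun n g x => ∫ w, g (stepWith
      (fun u => (Dg (colourAt χ n)).eval O (q, u)) col G (colourAt χ n) w x) ∂stepLaw d J K)
    hA hN0 hE (by linarith) hL (fun n g hg x => ?_) hh R
  by_cases hx : r ≤ ‖x‖
  · have hfar : far r x = 1 := min_eq_left ((one_le_div (by linarith)).2 hx)
    have u := hA n g hg
    have v := test_kern hM (colourAt χ n) hg
    rw [hfar, abs_le, sweepKern]
    constructor <;> linarith [u.nonneg x, u.le_one x, v.nonneg x, v.le_one x]
  · refine (noisy_step hM _ (hDm _) hδ0 hδ hK hL₀ hJ hr hd hε hL hsmall hsmall2 (hD _) hg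
      (not_le.1 hx).le).trans ?_
    linarith [(test_far (d := d) (show (0 : ℝ) < r by linarith)).nonneg x]

end

end P347
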