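import Vale.Agent.P347.Block
import Vale.Agent.P347.Split
import Vale.Agent.P347.Local.Perturb
import Vale.Agent.P347.Local.Model

/-!
# P347: one Euler step of the Langevin diffusion almost preserves a tilted Gibbs law

Integration by parts against the Gibbs law and against the Gaussian law shows that an Euler step of
length `h` moves the mean of a differentiable `L`-Lipschitz function by `O (L h ^ (3/2))`. No second
derivative of the function is used.
-/

namespace P347

open MeasureTheory Finset
open scoped BigOperators RealInnerProductSpace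

noncomputable section

variable {d : ℕ}

/-- A potential whose gradient differs from a multiple of the identity by a Lipschitz map. -/
structure Potential (W : Space d → ℝ) (a e : ℝ) : Prop where
  diff : Differentiable ℝ W
  diff2 : Differentiable ℝ (gradient W)
  block : Block W (gradient W)
  cross : ∀ z v, ‖gradient W (z + v) - gradient W z - a • v‖ ≤ e * ‖v‖
  e_nonneg : 0 ≤ e
  e_lt : e < a
  a_le : a ≤ 2

variable {W : Space d → ℝ} {a e : ℝ}

/-- The potential tilted by a linear function. -/
def tilt (W : Space d → ℝ) (v u : Space d) : ℝ := W u - ⟪v, u⟫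

theorem Potential.lip (hW : Potential W a e) (z v : Space d) :
    ‖gradient W (z + v) - gradient W z‖ ≤ (a + e) * ‖v‖ := by
  have h1 := hW.cross z v
  have h2 := norm_add_le (gradient W (z + v) - gradient W z - a • v) (a • v)
  rw [sub_add_cancel, norm_smul, Real.norm_eq_abs,
    abs_of_pos (hW.e_nonneg.trans_lt hW.e_lt)] at h2
  linarith

theorem Potential.grad_le (hW : Potential W a e) (u : Space d) :
    ‖gradient W u‖ ≤ 4 * ‖u‖ := by
  have h := hW.lip 0 u
  have h0 : gradient W 0 = 0 := by
    have := hW.block.line (gradient W 0) (le_refl (0 : ℝ))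
    simp only [zero_smul, zero_mul, mul_zero] at this
    exact inner_self_eq_zero.1 (le_antisymm this.2 this.1)
  rw [zero_add, h0, sub_zero] at h
  refine h.trans (mul_le_mul_of_nonneg_right ?_ (norm_nonneg u))
  linarith [hW.e_lt, hW.a_le]

theorem Potential.hess_le (hW : Potential W a e) (x : Space d) :
    ‖fderiv ℝ (gradient W) x‖ ≤ 4 := by
  refine (norm_fderiv_le_of_lipschitz ℝ (C := 4) (LipschitzWith.of_dist_le_mul fun p q => ?_))
  rw [dist_eq_norm, dist_eq_norm]
  have h := hW.lip q (p - q)
  rw [add_sub_cancel] at h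
  refine h.trans (mul_le_mul_of_nonneg_right ?_ (norm_nonneg _))
  push_cast
  linarith [hW.e_lt, hW.a_le]

theorem Potential.tilt_deriv (hW : Potential W a e) (v x : Space d) :
    HasFDerivAt (tilt W v) (innerSL ℝ (gradient W x - v)) x := by
  have h1 : HasFDerivAt (fun u : Space d => W u - innerSL ℝ v u)
      (fderiv ℝ W x - innerSL ℝ v) x := (hW.diff x).hasFDerivAt.sub (innerSL ℝ v).hasFDerivAt
  have e1 : innerSL ℝ (gradient W x - v) = fderiv ℝ W x - innerSL ℝ v := by
    ext w
    simp [inner_sub_left, inner_gradient]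
  rw [e1]
  exact h1

theorem Potential.continuous_tilt (hW : Potential W a e) (v : Space d) : Continuous (tilt W v) := by
  have := hW.diff.continuous
  unfold tilt; fun_prop

theorem Potential.tilt_lower (hW : Potential W a e) (v u : Space d) :
    ‖u‖ ^ 2 / 4 - ‖v‖ ^ 2 ≤ tilt W v u := by
  have h1 := (hW.block.bounds u).1
  have h2 := real_inner_le_norm v u
  unfold tilt
  nlinarith [sq_nonneg (‖u‖ / 2 - ‖v‖)]

theorem Potential.integrable_lin (hW : Potential W a e) (v : Space d) :
    Integrable fun u => (1 + ‖u‖) * Real.exp (-tilt W v u) := by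
  refine ((integrable_gauss (E := Space d) (a := 1 / 8) (by norm_num)).const_mul
    (Real.exp (‖v‖ ^ 2 + 2))).mono'
    ((by fun_prop : Continuous fun u : Space d => 1 + ‖u‖).mul
      (Real.continuous_exp.comp (hW.continuous_tilt v).neg)).aestronglyMeasurable
    (Filter.Eventually.of_forall fun u => ?_)
  rw [Real.norm_eq_abs, abs_of_nonneg (by positivity), ← Real.exp_add]
  refine (mul_le_mul_of_nonneg_right ((add_comm (1 : ℝ) ‖u‖).le.trans
    (Real.add_one_le_exp ‖u‖)) (Real.exp_nonneg _)).trans ?_
  rw [← Real.exp_add]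
  refine Real.exp_le_exp.2 ?_
  have := hW.tilt_lower v u
  nlinarith [sq_nonneg (‖u‖ - 4)]

theorem Potential.integrable_tilt (hW : Potential W a e) (v : Space d) :
    Integrable fun u => Real.exp (-tilt W v u) := by
  refine (hW.integrable_lin v).mono' (Real.continuous_exp.comp
    (hW.continuous_tilt v).neg).aestronglyMeasurable (Filter.Eventually.of_forall fun u => ?_)
  rw [Real.norm_eq_abs, abs_of_pos (Real.exp_pos _)]
  exact le_mul_of_one_le_left (Real.exp_nonneg _) (by linarith [norm_nonneg u])

theorem Potential.tilt_prob (hW : Potential W a e) (v : Space d) :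
    IsProbabilityMeasure (gibbs (tilt W v)) := ⟨by
  have hi := hW.integrable_tilt v
  have hp := integral_exp_pos hi
  rw [gibbs, withDensity_apply _ MeasurableSet.univ, Measure.restrict_univ,
    ← ofReal_integral_eq_lintegral_ofReal (hi.div_const _)
      (Filter.Eventually.of_forall fun x => div_nonneg (Real.exp_nonneg _) hp.le),
    integral_div, div_self hp.ne', ENNReal.ofReal_one]⟩

theorem Potential.integral_tilt (hW : Potential W a e) (v : Space d) (f : Space d → ℝ) :
    ∫ u, f u ∂gibbs (tilt W v)
      = ∫ u, f u * Real.exp (-tilt W v u) / ∫ y, Real.exp (-tilt W v y) := by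
  have hm : Measurable fun x => Real.exp (-tilt W v x) / ∫ y, Real.exp (-tilt W v y) :=
    ((Real.continuous_exp.comp (hW.continuous_tilt v).neg).div_const _).measurable
  rw [gibbs, integral_withDensity_eq_integral_toReal_smul₀ hm.ennreal_ofReal.aemeasurable
    (Filter.Eventually.of_forall fun _ => ENNReal.ofReal_lt_top)]
  refine integral_congr_ae (Filter.Eventually.of_forall fun u => ?_)
  simp only [smul_eq_mul]
  rw [ENNReal.toReal_ofReal (div_nonneg (Real.exp_nonneg _)
    (integral_exp_pos (hW.integrable_tilt v)).le)]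
  ring

theorem Potential.integrable_gibbs (hW : Potential W a e) (v : Space d) :
    Integrable (fun u : Space d => 1 + ‖u‖) (gibbs (tilt W v)) := by
  have hm : Measurable fun x => Real.exp (-tilt W v x) / ∫ y, Real.exp (-tilt W v y) :=
    ((Real.continuous_exp.comp (hW.continuous_tilt v).neg).div_const _).measurable
  rw [gibbs, integrable_withDensity_iff_integrable_smul' hm.ennreal_ofReal
    (Filter.Eventually.of_forall fun _ => ENNReal.ofReal_lt_top)]
  refine ((hW.integrable_lin v).div_const (∫ y, Real.exp (-tilt W v y))).congr (Filter.Eventually.of_forall fun u => ?_)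
  simp only [smul_eq_mul]
  rw [ENNReal.toReal_ofReal (div_nonneg (Real.exp_nonneg _)
    (integral_exp_pos (hW.integrable_tilt v)).le)]
  ring

/-- Integration by parts against a tilted Gibbs law. -/
theorem Potential.parts (hW : Potential W a e) (v w : Space d) {f : Space d → ℝ} {C : ℝ}
    (hf : Differentiable ℝ f) (hb : ∀ x, |f x| ≤ C) (hd : ∀ x, |fderiv ℝ f x w| ≤ C) :
    ∫ x, fderiv ℝ f x w ∂gibbs (tilt W v)
      = ∫ x, f x * ⟪gradient W x - v, w⟫ ∂gibbs (tilt W v) := by
  rw [hW.integral_tilt, hW.integral_tilt, integral_div, integral_div]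
  refine congrArg (· / _) ?_
  set g := fun x => Real.exp (-tilt W v x) with hg
  have hgd : ∀ x, HasFDerivAt g (g x • -innerSL ℝ (gradient W x - v)) x := fun x =>
    (hW.tilt_deriv v x).neg.exp
  have hC : 0 ≤ C := (abs_nonneg _).trans (hb 0)
  have hgc : Continuous g := Real.continuous_exp.comp (hW.continuous_tilt v).neg
  have hgrad : Continuous fun x => ⟪gradient W x - v, w⟫ :=
    (hW.block.cont.sub continuous_const).inner continuous_const
  have i1 : Integrable fun x => fderiv ℝ f x w * g x := by
    refine ((hW.integrable_tilt v).const_mul C).mono'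
      ((measurable_fderiv_apply_const ℝ f w).mul hgc.measurable).aestronglyMeasurable
      (Filter.Eventually.of_forall fun x => ?_)
    rw [Real.norm_eq_abs, abs_mul, abs_of_pos (Real.exp_pos _)]
    exact mul_le_mul_of_nonneg_right (hd x) (Real.exp_nonneg _)
  have i2 : Integrable fun x => f x * g x := by
    refine ((hW.integrable_tilt v).const_mul C).mono'
      (hf.continuous.mul hgc).aestronglyMeasurable (Filter.Eventually.of_forall fun x => ?_)
    rw [Real.norm_eq_abs, abs_mul, abs_of_pos (Real.exp_pos _)]
    exact mul_le_mul_of_nonneg_right (hb x) (Real.exp_nonneg _)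
  have i3 : Integrable fun x => f x * fderiv ℝ g x w := by
    have e1 : (fun x => f x * fderiv ℝ g x w) = fun x => -(f x * ⟪gradient W x - v, w⟫) * g x := by
      funext x; rw [(hgd x).fderiv]; simp [inner_sub_left, inner_gradient]; ring
    rw [e1]
    refine ((hW.integrable_lin v).const_mul (C * ((4 + ‖v‖) * ‖w‖))).mono'
      (((hf.continuous.mul hgrad).neg).mul hgc).aestronglyMeasurable
      (Filter.Eventually.of_forall fun x => ?_)
    rw [Real.norm_eq_abs, abs_mul, abs_neg, abs_mul, abs_of_pos (Real.exp_pos _), ← mul_assoc]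
    refine mul_le_mul_of_nonneg_right ?_ (Real.exp_nonneg _)
    have h1 := norm_sub_le (gradient W x) v
    have h2 := hW.grad_le x
    have h4 : ‖gradient W x - v‖ ≤ (4 + ‖v‖) * (1 + ‖x‖) := by
      nlinarith [norm_nonneg x, norm_nonneg v]
    refine (mul_le_mul (hb x) ((abs_real_inner_le_norm _ _).trans
      (mul_le_mul_of_nonneg_right h4 (norm_nonneg w))) (abs_nonneg _) hC).trans (le_of_eq ?_)
    ring
  have := integral_mul_fderiv_eq_neg_fderiv_mul_of_integrable i1 i3 i2 (fun x _ => hf x)
    fun x _ => (hgd x).differentiableAt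
  rw [eq_neg_iff_add_eq_zero, add_comm, ← eq_neg_iff_add_eq_zero, ← integral_neg] at this
  refine this.trans (integral_congr_ae (Filter.Eventually.of_forall fun x => ?_))
  simp only [(hgd x).fderiv]
  simp [hg, inner_sub_left, inner_gradient]
  ring

/-- Half the squared norm. -/
def halfSq (d : ℕ) (u : Space d) : ℝ := ‖u‖ ^ 2 / 2

theorem gradient_halfSq (u : Space d) : gradient (halfSq d) u = u := by
  refine ext_inner_right ℝ fun w => ?_
  rw [inner_gradient]
  have h := ((hasFDerivAt_id u).norm_sq).mul_const (1 / 2 : ℝ)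
  rw [show halfSq d = fun x => ‖id x‖ ^ 2 * (1 / 2) from funext fun x => by
    simp [halfSq, div_eq_mul_inv], h.fderiv]
  simp

theorem potential_halfSq : Potential (halfSq d) 1 0 where
  diff := by
    exact fun x => ((differentiableAt_id (𝕜 := ℝ) (E := Space d) (x := x)).norm_sq ℝ).fun_mul
      (differentiableAt_const (1 / 2 : ℝ)) |>.congr_of_eventuallyEq
      (Filter.Eventually.of_forall fun y => by simp [halfSq, div_eq_mul_inv])
  diff2 := by rw [funext gradient_halfSq]; exact differentiable_id
  block :=
    { cont := by rw [funext gradient_halfSq]; exact continuous_id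
      zero := by simp [halfSq]
      deriv := fun x t => by
        rw [gradient_halfSq, real_inner_smul_left, real_inner_self_eq_norm_sq]
        have := ((hasDerivAt_pow 2 t).mul_const (‖x‖ ^ 2)).div_const 2
        have e1 : (fun s : ℝ => halfSq d (s • x)) = fun s : ℝ => s ^ 2 * ‖x‖ ^ 2 / 2 := by
          funext s; simp [halfSq, norm_smul, mul_pow]
        rw [e1]
        exact this.congr_deriv (by ring)
      lower := fun x => by rw [gradient_halfSq, real_inner_self_eq_norm_sq]
      upper := fun x => by
        rw [gradient_halfSq, real_inner_self_eq_norm_sq]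
        nlinarith [sq_nonneg ‖x‖] }
  cross := fun z v => by simp [gradient_halfSq]
  e_nonneg := le_rfl
  e_lt := one_pos
  a_le := by norm_num

/-- The Gaussian law of the noise. -/
def noise (d : ℕ) : Measure (Space d) := gibbs (tilt (halfSq d) 0)

instance (d : ℕ) : IsProbabilityMeasure (noise d) := potential_halfSq.tilt_prob 0

theorem integrable_noise : Integrable (fun u : Space d => 1 + ‖u‖) (noise d) :=
  potential_halfSq.integrable_gibbs 0

/-- A differentiable test function with a Lipschitz constant. -/
structure Nice (g : Space d → ℝ) (L : ℝ) : Prop where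
  test : Test g
  diff : Differentiable ℝ g
  lip : ∀ x y, |g x - g y| ≤ L * ‖x - y‖
  nonneg : 0 ≤ L

theorem Nice.deriv_le {g : Space d → ℝ} {L : ℝ} (hg : Nice g L) (x : Space d) :
    ‖fderiv ℝ g x‖ ≤ L :=
  norm_fderiv_le_of_lip' ℝ hg.nonneg (Filter.Eventually.of_forall fun y => hg.lip y x)

theorem Nice.apply_le {g : Space d → ℝ} {L : ℝ} (hg : Nice g L) (x w : Space d) :
    |fderiv ℝ g x w| ≤ L * ‖w‖ := by
  rw [← Real.norm_eq_abs]
  exact ((fderiv ℝ g x).le_opNorm w).trans
    (mul_le_mul_of_nonneg_right (hg.deriv_le x) (norm_nonneg w))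

/-- Gaussian integration by parts. -/
theorem noise_parts {g : Space d → ℝ} {L : ℝ} (hg : Nice g L) (p w : Space d) (σ : ℝ) :
    ∫ ξ, ⟪ξ, w⟫ * g (p + σ • ξ) ∂noise d = σ * ∫ ξ, fderiv ℝ g (p + σ • ξ) w ∂noise d := by
  set f := fun ξ : Space d => g (p + σ • ξ)
  have hd : ∀ ξ, HasFDerivAt f ((fderiv ℝ g (p + σ • ξ)).comp (σ • ContinuousLinearMap.id ℝ _)) ξ :=
    fun ξ => (hg.diff _).hasFDerivAt.comp ξ (((hasFDerivAt_id ξ).const_smul σ).const_add p)
  have e : ∀ ξ, fderiv ℝ f ξ w = σ * fderiv ℝ g (p + σ • ξ) w := fun ξ => by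
    rw [(hd ξ).fderiv]; simp
  have := potential_halfSq.parts (0 : Space d) w (f := f) (C := 1 + L * (|σ| * ‖w‖))
    (fun ξ => (hd ξ).differentiableAt) (fun ξ => ?_) fun ξ => ?_
  · simp only [e, gradient_halfSq, sub_zero, integral_const_mul] at this
    rw [noise, this]
    exact integral_congr_ae (Filter.Eventually.of_forall fun ξ => mul_comm _ _)
  · have := hg.test.norm_le (p + σ • ξ)
    rw [Real.norm_eq_abs] at this
    have : 0 ≤ L * (|σ| * ‖w‖) := mul_nonneg hg.nonneg (by positivity)
    show |g (p + σ • ξ)| ≤ _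
    linarith
  · rw [e, abs_mul]
    refine (mul_le_mul_of_nonneg_left (hg.apply_le _ w) (abs_nonneg σ)).trans ?_
    linarith

/-- Differentiation under a Gaussian average. -/
theorem average_deriv {g : Space d → ℝ} {L : ℝ} (hg : Nice g L) {S : Space d → Space d}
    (hS : Differentiable ℝ S) {C : ℝ} (hC : ∀ x, ‖fderiv ℝ S x‖ ≤ C) {w : Space d → ℝ}
    (hw : Measurable w) (hwb : ∀ ξ, |w ξ| ≤ 1 + ‖ξ‖) (σ : ℝ) (x : Space d) :
    HasFDerivAt (fun y => ∫ ξ, w ξ * g (S y + σ • ξ) ∂noise d)
      (∫ ξ, w ξ • (fderiv ℝ g (S x + σ • ξ)).comp (fderiv ℝ S x) ∂noise d) x := by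
  have hY : ∀ y, Continuous fun ξ : Space d => S y + σ • ξ := fun y => by fun_prop
  refine hasFDerivAt_integral_of_dominated_of_fderiv_le (s := Set.univ) Filter.univ_mem
    (F := fun y ξ => w ξ * g (S y + σ • ξ))
    (F' := fun y ξ => w ξ • (fderiv ℝ g (S y + σ • ξ)).comp (fderiv ℝ S y))
    (bound := fun ξ => (1 + ‖ξ‖) * (L * C))
    (Filter.Eventually.of_forall fun y =>
      (hw.mul (hg.test.meas.comp (hY y).measurable)).aestronglyMeasurable) ?_ ?_
    (Filter.Eventually.of_forall fun ξ y _ => ?_) (integrable_noise.mul_const _)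
    (Filter.Eventually.of_forall fun ξ y _ =>
      ((hg.diff _).hasFDerivAt.comp y ((hS y).hasFDerivAt.add_const (σ • ξ))).const_mul (w ξ))
  · refine integrable_noise.mono' (hw.mul (hg.test.meas.comp (hY x).measurable)).aestronglyMeasurable
      (Filter.Eventually.of_forall fun ξ => ?_)
    rw [norm_mul]
    calc ‖w ξ‖ * ‖g (S x + σ • ξ)‖ ≤ (1 + ‖ξ‖) * 1 :=
          mul_le_mul (hwb ξ) (hg.test.norm_le _) (norm_nonneg _) (by positivity)
      _ = _ := mul_one _
  · exact (hw.smul ((continuous_id.clm_comp continuous_const).measurable.comp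
      ((measurable_fderiv ℝ g).comp (hY x).measurable))).aestronglyMeasurable
  · rw [norm_smul]
    exact mul_le_mul (hwb ξ) ((ContinuousLinearMap.opNorm_comp_le _ _).trans
      (mul_le_mul (hg.deriv_le _) (hC y) (norm_nonneg _) hg.nonneg)) (norm_nonneg _) (by positivity)

/-- Bounded by a product of linear weights means integrable on the product. -/
theorem Potential.integrable_pair (hW : Potential W a e) (v : Space d) {F : Space d × Space d → ℝ}
    (hm : Measurable F) {C : ℝ} (hb : ∀ z, |F z| ≤ C * ((1 + ‖z.1‖) * (1 + ‖z.2‖))) :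
    Integrable F ((gibbs (tilt W v)).prod (noise d)) := by
  have := hW.tilt_prob v
  exact (((hW.integrable_gibbs v).mul_prod integrable_noise).const_mul C).mono'
    hm.aestronglyMeasurable (Filter.Eventually.of_forall hb)

theorem measurable_fderiv_apply {g : Space d → ℝ} {X : Type} [MeasurableSpace X]
    {p q : X → Space d} (hp : Measurable p) (hq : Measurable q) :
    Measurable fun z => fderiv ℝ g (p z) (q z) :=
  isBoundedBilinearMap_apply.continuous.measurable.comp
    (((measurable_fderiv ℝ g).comp hp).prodMk hq)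

/-- The point of an Euler step with time `r ^ 2`. -/
def eulerPoint (W : Space d → ℝ) (v : Space d) (r : ℝ) (z : Space d × Space d) : Space d :=
  z.1 - r ^ 2 • (gradient W z.1 - v) + (Real.sqrt 2 * r) • z.2

theorem Potential.continuous_eulerPoint (hW : Potential W a e) (v : Space d) (r : ℝ) :
    Continuous (eulerPoint W v r) := by
  have := hW.block.cont
  unfold eulerPoint; fun_prop

/-- **Stein cancellation.** -/
theorem Potential.stein (hW : Potential W a e) (v : Space d) {g : Space d → ℝ} {L : ℝ}
    (hg : Nice g L) (r : ℝ) :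
    (Real.sqrt 2 * r) * ∫ z, fderiv ℝ g (eulerPoint W v r z) (gradient W z.1 - v)
        ∂(gibbs (tilt W v)).prod (noise d)
      = ∫ z, fderiv ℝ g (eulerPoint W v r z) z.2 ∂(gibbs (tilt W v)).prod (noise d)
        - r ^ 2 * ∫ z, fderiv ℝ g (eulerPoint W v r z) (fderiv ℝ (gradient W) z.1 z.2)
          ∂(gibbs (tilt W v)).prod (noise d) := by
  have := hW.tilt_prob v
  set σ := Real.sqrt 2 * r
  set π := gibbs (tilt W v)
  set ν := π.prod (noise d)
  set S := fun x : Space d => x - r ^ 2 • (gradient W x - v) with hSdef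
  set H := fderiv ℝ (gradient W)
  set Y := eulerPoint W v r with hYdef
  have hYc := (hW.continuous_eulerPoint v r).measurable
  have hSd : ∀ x, HasFDerivAt S (ContinuousLinearMap.id ℝ (Space d) - r ^ 2 • H x) x := fun x =>
    (hasFDerivAt_id x).sub (((hW.diff2 x).hasFDerivAt.sub_const v).const_smul (r ^ 2))
  have hHc : ∀ x, ‖fderiv ℝ S x‖ ≤ 1 + r ^ 2 * 4 := fun x => by
    rw [(hSd x).fderiv]
    refine (norm_sub_le _ _).trans (add_le_add ContinuousLinearMap.norm_id_le ?_)
    rw [norm_smul, Real.norm_eq_abs, abs_of_nonneg (sq_nonneg r)]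
    exact mul_le_mul_of_nonneg_left (hW.hess_le x) (sq_nonneg r)
  have hHm : Measurable fun z : Space d × Space d => H z.1 z.2 :=
    isBoundedBilinearMap_apply.continuous.measurable.comp
      (((measurable_fderiv ℝ _).comp measurable_fst).prodMk measurable_snd)
  let b : Fin d → Space d := fun i => EuclideanSpace.single i 1
  have hb : ∀ i, ‖b i‖ = 1 := fun i => by simp [b]
  have hexp : ∀ p : Space d, ∑ i, p i • b i = p := fun p => by
    simpa [b] using (EuclideanSpace.basisFun (Fin d) ℝ).sum_repr p
  -- one coordinate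
  have hone : ∀ i, σ * ∫ z, fderiv ℝ g (Y z) (b i) * (gradient W z.1 - v) i ∂ν
      = ∫ z, z.2 i * fderiv ℝ g (Y z) (fderiv ℝ S z.1 (b i)) ∂ν := fun i => by
    set w := fun ξ : Space d => ξ i
    have hwm : Measurable w := (by fun_prop : Continuous w).measurable
    have hwb : ∀ ξ, |w ξ| ≤ 1 + ‖ξ‖ := fun ξ => by
      have := PiLp.norm_apply_le ξ i
      rw [Real.norm_eq_abs] at this
      simp only [w]; linarith
    set F := fun x : Space d => ∫ ξ, w ξ * g (S x + σ • ξ) ∂noise d
    have hFd := fun x => average_deriv hg (fun x => (hSd x).differentiableAt) hHc hwm hwb σ x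
    have hFe : ∀ x, F x = σ * ∫ ξ, fderiv ℝ g (Y (x, ξ)) (b i) ∂noise d := fun x => by
      have := noise_parts hg (S x) (b i) σ
      simpa [F, b, EuclideanSpace.inner_single_right, hYdef, hSdef, eulerPoint, σ] using this
    have hJ : ∀ x, |∫ ξ, fderiv ℝ g (Y (x, ξ)) (b i) ∂noise d| ≤ L := fun x => by
      rw [← Real.norm_eq_abs]
      refine (norm_integral_le_of_norm_le_const (Filter.Eventually.of_forall fun ξ => ?_)).trans
        (le_of_eq (by rw [probReal_univ, mul_one]))
      rw [Real.norm_eq_abs]
      simpa [hb i] using hg.apply_le (Y (x, ξ)) (b i)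
    set Cw := ∫ ξ : Space d, (1 + ‖ξ‖) * (L * (1 + r ^ 2 * 4)) ∂noise d
    have hFd' : ∀ x, |fderiv ℝ F x (b i)| ≤ Cw := fun x => by
      rw [(hFd x).fderiv, ← Real.norm_eq_abs]
      refine ((ContinuousLinearMap.le_opNorm _ _).trans (le_of_eq (by rw [hb i, mul_one]))).trans ?_
      refine norm_integral_le_of_norm_le (integrable_noise.mul_const _)
        (Filter.Eventually.of_forall fun ξ => ?_)
      rw [norm_smul]
      exact mul_le_mul (hwb ξ) ((ContinuousLinearMap.opNorm_comp_le _ _).trans
        (mul_le_mul (hg.deriv_le _) (hHc x) (norm_nonneg _) hg.nonneg)) (norm_nonneg _)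
        (by positivity)
    have key := hW.parts v (b i) (f := F) (C := |σ| * L + |Cw|)
      (fun x => (hFd x).differentiableAt) (fun x => ?_) fun x => ?_
    · rw [integral_prod _ ?_, integral_prod _ ?_, ← integral_const_mul]
      · refine Eq.trans ?_ (key.symm.trans ?_)
        · refine integral_congr_ae (Filter.Eventually.of_forall fun x => ?_)
          simp only [hFe x, integral_mul_const]
          simp [b, EuclideanSpace.inner_single_right]
          ring
        · refine integral_congr_ae (Filter.Eventually.of_forall fun x => ?_)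
          dsimp only
          rw [show fderiv ℝ F x = _ from (hFd x).fderiv, ContinuousLinearMap.integral_apply]
          · simp [w, hYdef, hSdef, eulerPoint, σ]
          · refine Integrable.mono' (integrable_noise.mul_const (L * (1 + r ^ 2 * 4)))
              ((hwm.smul ((continuous_id.clm_comp continuous_const).measurable.comp
                ((measurable_fderiv ℝ g).comp
                  (by fun_prop : Measurable fun ξ : Space d => S x + σ • ξ)))).aestronglyMeasurable)
              (Filter.Eventually.of_forall fun ξ => ?_)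
            rw [norm_smul]
            exact mul_le_mul (hwb ξ) ((ContinuousLinearMap.opNorm_comp_le _ _).trans
              (mul_le_mul (hg.deriv_le _) (hHc x) (norm_nonneg _) hg.nonneg)) (norm_nonneg _)
              (by positivity)
      · refine hW.integrable_pair v ((by fun_prop : Measurable fun z : Space d × Space d => z.2 i).mul
          (measurable_fderiv_apply hYc (isBoundedBilinearMap_apply.continuous.measurable.comp
            (((measurable_fderiv ℝ S).comp measurable_fst).prodMk measurable_const))))
          (C := L * (1 + r ^ 2 * 4)) fun z => ?_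
        rw [abs_mul]
        have h1 : |fderiv ℝ g (Y z) (fderiv ℝ S z.1 (b i))| ≤ L * (1 + r ^ 2 * 4) := by
          refine (hg.apply_le _ _).trans (mul_le_mul_of_nonneg_left ?_ hg.nonneg)
          refine ((fderiv ℝ S z.1).le_opNorm _).trans ?_
          rw [hb i, mul_one]
          exact hHc _
        have h2 := hwb z.2
        refine (mul_le_mul h2 h1 (abs_nonneg _) (by positivity)).trans ?_
        rw [mul_comm]
        exact mul_le_mul_of_nonneg_left (le_mul_of_one_le_left (by positivity)
          (by linarith [norm_nonneg z.1])) (mul_nonneg hg.nonneg (by positivity))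
      · refine hW.integrable_pair v ((measurable_fderiv_apply hYc measurable_const).mul
          ((by fun_prop : Continuous fun p : Space d => p i).measurable.comp
            ((hW.block.cont.measurable.comp measurable_fst).sub measurable_const)))
          (C := L * (4 + ‖v‖)) fun z => ?_
        rw [abs_mul]
        have h1 : |(gradient W z.1 - v) i| ≤ (4 + ‖v‖) * (1 + ‖z.1‖) := by
          have := PiLp.norm_apply_le (gradient W z.1 - v) i
          rw [Real.norm_eq_abs] at this
          have := norm_sub_le (gradient W z.1) v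
          have := hW.grad_le z.1
          nlinarith [norm_nonneg z.1, norm_nonneg v]
        have h2 : |fderiv ℝ g (Y z) (b i)| ≤ L := by simpa [hb i] using hg.apply_le (Y z) (b i)
        refine (mul_le_mul h2 h1 (abs_nonneg _) hg.nonneg).trans ?_
        rw [← mul_assoc L]
        exact mul_le_mul_of_nonneg_left (le_mul_of_one_le_right (by positivity)
          (by linarith [norm_nonneg z.2])) (mul_nonneg hg.nonneg (by positivity))
    · rw [hFe, abs_mul]
      refine le_add_of_le_of_nonneg (mul_le_mul_of_nonneg_left (hJ x) (abs_nonneg σ)) (abs_nonneg _)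
    · refine le_add_of_nonneg_of_le (mul_nonneg (abs_nonneg σ) hg.nonneg)
        ((hFd' x).trans (le_abs_self _))
  -- the sum over the coordinates
  have i1 : ∀ i, Integrable (fun z => fderiv ℝ g (Y z) (b i) * (gradient W z.1 - v) i) ν :=
    fun i => by
    refine hW.integrable_pair v ((measurable_fderiv_apply hYc measurable_const).mul
      ((by fun_prop : Continuous fun p : Space d => p i).measurable.comp
        ((hW.block.cont.measurable.comp measurable_fst).sub measurable_const)))
      (C := L * (4 + ‖v‖)) fun z => ?_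
    rw [abs_mul]
    have h1 : |(gradient W z.1 - v) i| ≤ (4 + ‖v‖) * (1 + ‖z.1‖) := by
      have := PiLp.norm_apply_le (gradient W z.1 - v) i
      rw [Real.norm_eq_abs] at this
      have := norm_sub_le (gradient W z.1) v
      have := hW.grad_le z.1
      nlinarith [norm_nonneg z.1, norm_nonneg v]
    have h2 : |fderiv ℝ g (Y z) (b i)| ≤ L := by simpa [hb i] using hg.apply_le (Y z) (b i)
    refine (mul_le_mul h2 h1 (abs_nonneg _) hg.nonneg).trans ?_
    rw [← mul_assoc L]
    exact mul_le_mul_of_nonneg_left (le_mul_of_one_le_right (by positivity)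
      (by linarith [norm_nonneg z.2])) (mul_nonneg hg.nonneg (by positivity))
  have i2 : ∀ i, Integrable (fun z => z.2 i * fderiv ℝ g (Y z) (fderiv ℝ S z.1 (b i))) ν :=
    fun i => by
    refine hW.integrable_pair v ((by fun_prop : Measurable fun z : Space d × Space d => z.2 i).mul
      (measurable_fderiv_apply hYc (isBoundedBilinearMap_apply.continuous.measurable.comp
        (((measurable_fderiv ℝ S).comp measurable_fst).prodMk measurable_const))))
      (C := L * (1 + r ^ 2 * 4)) fun z => ?_
    rw [abs_mul]
    have h1 : |fderiv ℝ g (Y z) (fderiv ℝ S z.1 (b i))| ≤ L * (1 + r ^ 2 * 4) := by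
      refine (hg.apply_le _ _).trans (mul_le_mul_of_nonneg_left ?_ hg.nonneg)
      refine ((fderiv ℝ S z.1).le_opNorm _).trans ?_
      rw [hb i, mul_one]
      exact hHc _
    have h2 : |z.2 i| ≤ 1 + ‖z.2‖ := by
      have := PiLp.norm_apply_le z.2 i
      rw [Real.norm_eq_abs] at this
      linarith
    refine (mul_le_mul h2 h1 (abs_nonneg _) (by positivity)).trans ?_
    rw [mul_comm]
    exact mul_le_mul_of_nonneg_left (le_mul_of_one_le_left (by positivity)
      (by linarith [norm_nonneg z.1])) (mul_nonneg hg.nonneg (by positivity))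
  have i3 : ∀ c : Space d × Space d → Space d, Measurable c →
      (∀ z, ‖c z‖ ≤ 4 * ((1 + ‖z.1‖) * (1 + ‖z.2‖))) →
      Integrable (fun z => fderiv ℝ g (Y z) (c z)) ν := fun c hc hb' =>
    hW.integrable_pair v (measurable_fderiv_apply hYc hc) (C := L * 4) fun z => by
      rw [mul_assoc]
      exact (hg.apply_le _ _).trans (mul_le_mul_of_nonneg_left (hb' z) hg.nonneg)
  have hsum := Finset.sum_congr rfl fun i (_ : i ∈ (univ : Finset (Fin d))) => hone i
  rw [← mul_sum, ← integral_finsetSum _ (fun i _ => i1 i), ← integral_finsetSum _ (fun i _ => i2 i)]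
    at hsum
  have eL : ∀ z : Space d × Space d, ∑ i, fderiv ℝ g (Y z) (b i) * (gradient W z.1 - v) i
      = fderiv ℝ g (Y z) (gradient W z.1 - v) := fun z => by
    conv_rhs => rw [← hexp (gradient W z.1 - v), map_sum]
    simp [mul_comm]
  have eR : ∀ z : Space d × Space d, ∑ i, z.2 i * fderiv ℝ g (Y z) (fderiv ℝ S z.1 (b i))
      = fderiv ℝ g (Y z) z.2 - r ^ 2 * fderiv ℝ g (Y z) (H z.1 z.2) := fun z => by
    calc ∑ i, z.2 i * fderiv ℝ g (Y z) (fderiv ℝ S z.1 (b i))
        = fderiv ℝ g (Y z) (fderiv ℝ S z.1 (∑ i, z.2 i • b i)) := by simp [map_sum]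
      _ = fderiv ℝ g (Y z) (fderiv ℝ S z.1 z.2) := by rw [hexp]
      _ = _ := by rw [(hSd z.1).fderiv]; simp [map_sub]
  simp only [eL, eR] at hsum
  rw [hsum, integral_sub (i3 _ measurable_snd fun z => by nlinarith [norm_nonneg z.1, norm_nonneg z.2])
    ((i3 _ hHm fun z => ((H z.1).le_opNorm z.2).trans (by
      nlinarith [norm_nonneg z.1, norm_nonneg z.2, hW.hess_le z.1, norm_nonneg (H z.1)])).const_mul _),
    integral_const_mul]

end

end P347
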