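import Vale.Agent.P347.Any.Alg
import Vale.Agent.P347.Local.Perturb

/-!
# P347: following a chain by an approximate chain

An approximate chain drifts from the exact one by at most the summed errors, measured under the
invariant law, provided the sum can be read at the starting point.
-/

namespace P347

open MeasureTheory

noncomputable section

variable {α : Type} [MeasurableSpace α]

/-- Several steps of a chain acting on functions. -/
def iterOp (K : ℕ → (α → ℝ) → α → ℝ) : ℕ → (α → ℝ) → α → ℝ
  | 0, h => h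
  | n + 1, h => K n (iterOp K n h)

theorem test_iterOp {K : ℕ → (α → ℝ) → α → ℝ} (hK : ∀ n g, Test g → Test (K n g)) {h : α → ℝ}
    (hh : Test h) : ∀ n, Test (iterOp K n h)
  | 0 => hh
  | n + 1 => hK n _ (test_iterOp hK hh n)

theorem iterOp_invariant {K : ℕ → (α → ℝ) → α → ℝ} {μ : Measure α}
    (hK : ∀ n g, Test g → Test (K n g))
    (hinv : ∀ n g, Test g → ∫ x, K n g x ∂μ = ∫ x, g x ∂μ) {h : α → ℝ} (hh : Test h) :
    ∀ n, ∫ x, iterOp K n h x ∂μ = ∫ x, h x ∂μ
  | 0 => rfl
  | n + 1 => by
    rw [show iterOp K (n + 1) h = K n (iterOp K n h) from rfl, hinv n _ (test_iterOp hK hh n),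
      iterOp_invariant hK hinv hh n]

/-- **Hybrid argument.** -/
theorem hybrid {K A : ℕ → (α → ℝ) → α → ℝ} {μ : Measure α} [IsProbabilityMeasure μ]
    (hK : ∀ n g, Test g → Test (K n g)) (hA : ∀ n g, Test g → Test (A n g))
    (hinv : ∀ n g, Test g → ∫ x, K n g x ∂μ = ∫ x, g x ∂μ)
    (hbd : ∀ n g (C : ℝ), Test g → (∀ y, g y ≤ C) → ∀ x, K n g x ≤ C)
    (hmono : ∀ n a b ψ (N : ℝ), Test a → Test b → Test ψ → (∀ y, |a y - b y| ≤ N * ψ y) →
      ∀ x, |K n a x - K n b x| ≤ N * K n ψ x)
    {δ : ℝ} {φ : α → ℝ} (hφ : Test φ) (hδ0 : 0 ≤ δ) (hδ : δ ≤ 1)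
    (hclose : ∀ n g, Test g → ∀ x, |A n g x - K n g x| ≤ δ + φ x)
    (P : ℝ → (α → ℝ) → Prop) (hP0 : P 0 fun _ => 0) {κ : ℝ} (hκ : 0 ≤ κ)
    (hP : ∀ n a g (N : ℝ), 0 < N → 0 ≤ a → Test g → P a g →
      P (a + κ / N) fun x => (δ + φ x) / N + K n g x)
    {x₀ : α} {ℓ τ : ℝ}
    (hmix : ∀ a g, 0 ≤ a → Test g → P a g → |g x₀ - ∫ x, g x ∂μ| ≤ a * ℓ + τ)
    {h : α → ℝ} (hh : Test h) (T : ℕ) :
    |iterOp A T h x₀ - iterOp K T h x₀|
      ≤ T * (δ + ∫ x, φ x ∂μ + κ * ℓ) + 2 * (T + 1) * τ := by
  set N : ℝ := 2 * (T + 1) with hN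
  have hNp : 0 < N := by positivity
  have key : ∀ n, n ≤ T → ∃ ψ : α → ℝ, Test ψ ∧ (∀ x, ψ x ≤ 2 * n / N) ∧
      P (n * κ / N) ψ ∧ (∫ x, ψ x ∂μ ≤ n * (δ + ∫ x, φ x ∂μ) / N) ∧
      ∀ x, |iterOp A n h x - iterOp K n h x| ≤ N * ψ x := by
    intro n
    induction n with
    | zero =>
      exact fun _ => ⟨fun _ => 0, ⟨measurable_const, fun _ => le_rfl, fun _ => zero_le_one⟩,
        by simp, by simpa using hP0, by simp, fun x => by simp [iterOp]⟩
    | succ n ih =>
      intro hn
      obtain ⟨ψ, hψ, hle, hp, hint, hdom⟩ := ih (by omega)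
      have hk := hK n _ hψ
      have hle2 : ∀ x, (δ + φ x) / N + K n ψ x ≤ 2 * ((n + 1 : ℕ) : ℝ) / N := fun x => by
        have h1 : (δ + φ x) / N ≤ 2 / N :=
          div_le_div_of_nonneg_right (by linarith [hφ.le_one x]) hNp.le
        push_cast
        rw [mul_add, mul_one, add_div (2 * (n : ℝ))]
        linarith [hbd n ψ _ hψ hle x]
      refine ⟨fun x => (δ + φ x) / N + K n ψ x,
        ⟨((measurable_const.add hφ.meas).div_const N).add hk.meas, fun x => ?_, fun x => ?_⟩,
        hle2, ?_, ?_, fun x => ?_⟩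
      · have := hφ.nonneg x
        have := hk.nonneg x
        positivity
      · refine (hle2 x).trans ((div_le_one hNp).2 ?_)
        have : ((n + 1 : ℕ) : ℝ) ≤ T := by exact_mod_cast hn
        linarith
      · have := hP n _ ψ N hNp (by positivity) hψ hp
        rwa [show ((n + 1 : ℕ) : ℝ) * κ / N = n * κ / N + κ / N by push_cast; ring]
      · have i1 : Integrable (fun y => (δ + φ y) / N) μ :=
          ((integrable_const δ).add (hφ.integrable μ)).div_const N
        rw [integral_add i1 (hk.integrable μ), integral_div,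
          integral_add (integrable_const δ) (hφ.integrable μ), hinv n _ hψ, integral_const,
          probReal_univ, one_smul]
        refine (add_le_add le_rfl hint).trans (le_of_eq ?_)
        push_cast; ring
      · have ha := test_iterOp hA hh n
        have hb := test_iterOp hK hh n
        have h1 := hclose n _ ha x
        have h2 := hmono n _ _ ψ N ha hb hψ hdom x
        rw [mul_add, mul_div_cancel₀ _ hNp.ne']
        exact (abs_sub_le _ _ _).trans (add_le_add h1 h2)
  obtain ⟨ψ, hψ, -, hp, hint, hdom⟩ := key T le_rfl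
  refine (hdom x₀).trans ?_
  have h1 := hmix _ ψ (by positivity) hψ hp
  have h2 : ψ x₀ ≤ T * κ / N * ℓ + τ + T * (δ + ∫ x, φ x ∂μ) / N := by
    linarith [le_abs_self (ψ x₀ - ∫ x, ψ x ∂μ)]
  refine (mul_le_mul_of_nonneg_left h2 hNp.le).trans (le_of_eq ?_)
  field_simp
  rw [hN]
  ring

/-- A repetition on test functions. -/
theorem integral_loopFold {W : Type} [MeasurableSpace W] {ν : Measure W} [IsProbabilityMeasure ν]
    {f : ℕ → W → α → α} (hf : ∀ n, Measurable fun z : W × α => f n z.1 z.2) {h : α → ℝ}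
    (hh : Test h) : ∀ n x, ∫ ω, h (loopFold f n ω x) ∂(Measure.pi fun _ : Fin n => ν)
      = iterOp (fun k g y => ∫ w, g (f k w y) ∂ν) n h x
  | 0, x => by simp [loopFold, iterOp]
  | n + 1, x => by
    have hm : ∀ m, Measurable fun z : (Fin m → W) × α => loopFold f m z.1 z.2 := by
      intro m
      induction m with
      | zero => exact measurable_snd
      | succ m ih =>
        exact ih.comp ((measurable_pi_lambda _ fun j =>
          (measurable_pi_apply j.castSucc).comp measurable_fst).prodMk ((hf m).comp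
          (f := fun z : (Fin (m + 1) → W) × α => (z.1 (Fin.last m), z.2))
          (((measurable_pi_apply (Fin.last m)).comp measurable_fst).prodMk measurable_snd)))
    set e := MeasurableEquiv.piFinSuccAbove (fun _ : Fin (n + 1) => W) (Fin.last n)
    have he := measurePreserving_piFinSuccAbove (fun _ : Fin (n + 1) => ν) (Fin.last n)
    set F := fun z : W × (Fin n → W) => h (loopFold f n z.2 (f n z.1 x))
    have hF : Test F := ⟨hh.meas.comp ((hm n).comp (measurable_snd.prodMk
      ((hf n).comp (measurable_fst.prodMk measurable_const)))), fun _ => hh.nonneg _,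
      fun _ => hh.le_one _⟩
    have e1 : (fun ω : Fin (n + 1) → W => h (loopFold f (n + 1) ω x)) = fun ω => F (e ω) := by
      funext ω
      simp only [loopFold, F, e, MeasurableEquiv.piFinSuccAbove_apply, Fin.insertNthEquiv,
        Equiv.coe_fn_symm_mk]
      rw [show (Fin.last n).removeNth ω = fun j => ω j.castSucc from
        funext fun j => by simp [Fin.removeNth_apply, Fin.succAbove_last]]
    rw [e1, he.integral_comp e.measurableEmbedding, integral_prod F (hF.integrable _)]
    simp only [F, integral_loopFold hf hh n]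
    rfl

end

end P347
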