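import Vale.Agent.P347.Any.Step

/-!
# P347: a colour step from inexact gradients

If every gradient read on the colour is within `γ` of the true one, no coin of the step changes its
outcome except with probability linear in `γ`, so the step still resamples the colour.
-/

namespace P347

open MeasureTheory Finset
open scoped BigOperators RealInnerProductSpace

noncomputable section

theorem abs_prod_sub_prod {ι : Type} (t : Finset ι) (f g : ι → ℝ) {X γ : ℝ} (hX : 0 ≤ X)
    (hγ : 0 ≤ γ) (hf : ∀ l ∈ t, |f l| ≤ X) (hfg : ∀ l ∈ t, |f l - g l| ≤ γ) :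
    |∏ l ∈ t, f l - ∏ l ∈ t, g l| ≤ (X + γ) ^ t.card - X ^ t.card := by
  classical
  induction t using Finset.induction_on with
  | empty => simp
  | @insert l t hl ih =>
    have hf' : ∀ k ∈ t, |f k| ≤ X := fun k hk => hf k (mem_insert_of_mem hk)
    have hfg' : ∀ k ∈ t, |f k - g k| ≤ γ := fun k hk => hfg k (mem_insert_of_mem hk)
    have h1 := ih hf' hfg'
    have hg : |∏ k ∈ t, g k| ≤ (X + γ) ^ t.card := by
      rw [abs_prod]
      refine (prod_le_prod (fun k _ => abs_nonneg _) fun k hk => ?_).trans (le_of_eq (prod_const _))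
      calc |g k| = |f k - (f k - g k)| := by rw [sub_sub_cancel]
        _ ≤ |f k| + |f k - g k| := abs_sub _ _
        _ ≤ X + γ := add_le_add (hf' k hk) (hfg' k hk)
    rw [prod_insert hl, prod_insert hl, card_insert_of_notMem hl,
      show f l * ∏ k ∈ t, f k - g l * ∏ k ∈ t, g k
        = f l * (∏ k ∈ t, f k - ∏ k ∈ t, g k) + (f l - g l) * ∏ k ∈ t, g k by ring]
    refine (abs_add_le _ _).trans ?_
    rw [abs_mul, abs_mul]
    refine (add_le_add (mul_le_mul (hf l (mem_insert_self l t)) h1 (abs_nonneg _) hX)
      (mul_le_mul (hfg l (mem_insert_self l t)) hg (abs_nonneg _) hγ)).trans (le_of_eq ?_)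
    ring

variable {E : Type} [NormedAddCommGroup E] [InnerProductSpace ℝ E]

/-- The coin moves little with its gradients. -/
theorem coin_stable {W : E → ℝ} {D : E → E} (h : Block W D) {K : ℕ} (x : E) {u : Fin K → ℝ}
    (hu : ∀ l, u l ∈ Set.Icc (0 : ℝ) 1) {G : Fin K → E} {γ : ℝ} (hγ0 : 0 ≤ γ)
    (hG : ∀ l, ‖G l - D (u l • x)‖ ≤ γ) (hsmall : γ * ‖x‖ ≤ 1) :
    |coin x u G - coin x u fun l => D (u l • x)| ≤ 2 * (γ * ‖x‖) := by
  set X := ‖x‖ ^ 2
  set η := γ * ‖x‖
  have hX : 0 ≤ X := sq_nonneg _
  have hη : 0 ≤ η := mul_nonneg hγ0 (norm_nonneg x)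
  unfold coin
  rw [← mul_sub, ← sum_sub_distrib, abs_mul, abs_of_pos (Real.exp_pos _)]
  have hterm : ∀ k : Fin K,
      |(∏ l : Fin K, if l < k then X * (1 + u l) - ⟪G l, x⟫ else (1 : ℝ)) / ((k : ℕ).factorial : ℝ)
        - (∏ l : Fin K, if l < k then X * (1 + u l) - ⟪D (u l • x), x⟫ else (1 : ℝ))
            / ((k : ℕ).factorial : ℝ)|
      ≤ (X + η) ^ (k : ℕ) / ((k : ℕ).factorial : ℝ) - X ^ (k : ℕ) / ((k : ℕ).factorial : ℝ) := by
    intro k
    rw [← sub_div, ← sub_div, abs_div, Nat.abs_cast, prod_ite, prod_ite, prod_const_one,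
      mul_one, mul_one]
    refine div_le_div_of_nonneg_right ?_ (Nat.cast_nonneg _)
    rw [abs_sub_comm]
    refine (abs_prod_sub_prod _ _ _ hX hη (fun l _ => ?_) fun l _ => ?_).trans
      (le_of_eq (by rw [card_filter_lt]))
    · obtain ⟨h1, h2⟩ := h.line x (hu l).1
      have := mul_le_mul_of_nonneg_right (hu l).2 hX
      rw [abs_le]
      constructor <;> nlinarith
    · rw [show X * (1 + u l) - ⟪D (u l • x), x⟫ - (X * (1 + u l) - ⟪G l, x⟫)
        = ⟪G l - D (u l • x), x⟫ by rw [inner_sub_left]; ring]
      exact (abs_real_inner_le_norm _ _).trans (mul_le_mul_of_nonneg_right (hG l) (norm_nonneg x))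
  refine (mul_le_mul_of_nonneg_left ((abs_sum_le_sum_abs _ _).trans
    (sum_le_sum fun k _ => hterm k)) (Real.exp_nonneg _)).trans ?_
  have hs := (Real.summable_pow_div_factorial (X + η)).sub (Real.summable_pow_div_factorial X)
  have hsum : ∑ k : Fin K, ((X + η) ^ (k : ℕ) / ((k : ℕ).factorial : ℝ)
      - X ^ (k : ℕ) / ((k : ℕ).factorial : ℝ)) ≤ Real.exp (X + η) - Real.exp X := by
    rw [Fin.sum_univ_eq_sum_range (fun k => (X + η) ^ k / (k.factorial : ℝ) - X ^ k / (k.factorial : ℝ)),
      Real.exp_eq_exp_ℝ, NormedSpace.exp_eq_tsum_div, ← Summable.tsum_sub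
        (Real.summable_pow_div_factorial _) (Real.summable_pow_div_factorial _)]
    refine hs.sum_le_tsum _ fun k _ => sub_nonneg.2 (div_le_div_of_nonneg_right ?_ (Nat.cast_nonneg _))
    exact pow_le_pow_left₀ hX (by linarith) k
  refine (mul_le_mul_of_nonneg_left hsum (Real.exp_nonneg _)).trans ?_
  rw [mul_sub, ← Real.exp_add, ← Real.exp_add, neg_add_cancel, Real.exp_zero, ← add_assoc,
    neg_add_cancel, zero_add]
  have := Real.abs_exp_sub_one_le (x := η) (by rwa [abs_of_nonneg hη])
  rw [abs_of_nonneg hη] at this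
  linarith [le_abs_self (Real.exp η - 1)]

variable [FiniteDimensional ℝ E] [MeasurableSpace E] [BorelSpace E]

theorem gaussLaw_tail (hdim : Module.finrank ℝ E ≤ 1) (L : ℝ) :
    (gaussLaw E).real (ballSet E L)ᶜ ≤ 2 * Real.exp (-L / 4) := by
  have hm := (measurableSet_ballSet (E := E) L).compl
  rw [measureReal_def, gaussLaw, withDensity_apply _ hm,
    ← ofReal_integral_eq_lintegral_ofReal integrable_gaussDensity.integrableOn
      (Filter.Eventually.of_forall gaussDensity_nonneg),
    ENNReal.toReal_ofReal (setIntegral_nonneg hm fun x _ => gaussDensity_nonneg x)]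
  set c := (2 * Real.pi) ^ (Module.finrank ℝ E / 2 : ℝ)
  have hc : 0 < c := by positivity
  calc ∫ x in (ballSet E L)ᶜ, gaussDensity x
      ≤ ∫ x in (ballSet E L)ᶜ, Real.exp (-L / 4) / c * Real.exp (-(1 / 4) * ‖x‖ ^ 2) := by
        refine setIntegral_mono_on integrable_gaussDensity.integrableOn
          ((integrable_gauss (by norm_num)).const_mul _).integrableOn hm fun x hx => ?_
        have h' : L < ‖x‖ ^ 2 := not_le.1 (show ¬ ‖x‖ ^ 2 ≤ L from hx)
        rw [gaussDensity, div_mul_eq_mul_div, ← Real.exp_add]
        exact div_le_div_of_nonneg_right (Real.exp_le_exp.2 (by linarith)) hc.le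
    _ ≤ ∫ x, Real.exp (-L / 4) / c * Real.exp (-(1 / 4) * ‖x‖ ^ 2) :=
        setIntegral_le_integral ((integrable_gauss (by norm_num)).const_mul _)
          (Filter.Eventually.of_forall fun x => by positivity)
    _ ≤ 2 * Real.exp (-L / 4) := by
        rw [integral_const_mul, GaussianFourier.integral_rexp_neg_mul_sq_norm (by norm_num),
          show Real.pi / (1 / 4) = 2 * (2 * Real.pi) by ring, Real.mul_rpow (by norm_num)
            (by positivity), div_mul_eq_mul_div, div_le_iff₀ hc, ← mul_assoc,
          mul_comm (Real.exp _) ((2 : ℝ) ^ _)]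
        refine mul_le_mul_of_nonneg_right (mul_le_mul_of_nonneg_right ?_ (Real.exp_nonneg _)) hc.le
        refine (Real.rpow_le_rpow_of_exponent_le (by norm_num) (show _ ≤ (1 : ℝ) from ?_)).trans
          (le_of_eq (Real.rpow_one 2))
        have : (Module.finrank ℝ E : ℝ) ≤ 1 := by exact_mod_cast hdim
        linarith [Nat.cast_nonneg (α := ℝ) (Module.finrank ℝ E)]

/-- Seeds whose point is far out, whose times leave the interval, or whose threshold is within `Γ`
of the coin. -/
def fragile {K : ℕ} (D : E → E) (L Γ : ℝ) : Set (Seed E K) :=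
  {z | ¬‖z.1‖ ^ 2 ≤ L ∨ (∃ l, z.2.1 l ∉ Set.Icc (0 : ℝ) 1)
    ∨ |z.2.2 - coin z.1 z.2.1 fun l => D (z.2.1 l • z.1)| ≤ Γ}

theorem fragile_le {W : E → ℝ} {D : E → E} (h : Block W D) (hdim : Module.finrank ℝ E ≤ 1)
    {K : ℕ} (L : ℝ) {Γ : ℝ} (hΓ : 0 ≤ Γ) :
    (seedLaw E K).real (fragile (K := K) D L Γ) ≤ 2 * Real.exp (-L / 4) + 2 * Γ := by
  set A := Prod.fst ⁻¹' (ballSet E L)ᶜ with hA
  set B : Set (Seed E K) := {z | |z.2.2 - coin z.1 z.2.1 fun l => D (z.2.1 l • z.1)| ≤ Γ}
  set C : Set (Seed E K) := Prod.snd ⁻¹' (Prod.fst ⁻¹' {u | ∃ l, u l ∉ Set.Icc (0 : ℝ) 1})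
  have hsub : fragile D L Γ ⊆ A ∪ C ∪ B := fun z hz => by
    rcases hz with hz | hz | hz
    exacts [Or.inl (Or.inl hz), Or.inl (Or.inr hz), Or.inr hz]
  have hc : Measurable fun w : E × (Fin K → ℝ) => coin w.1 w.2 fun l => D (w.2 l • w.1) := by
    have := h.cont
    exact measurable_coin.comp
      (f := fun w : E × (Fin K → ℝ) => (w.1, w.2, fun l => D (w.2 l • w.1)))
      (by fun_prop : Continuous fun w : E × (Fin K → ℝ) =>
        (w.1, w.2, fun l => D (w.2 l • w.1))).measurable
  have hBm : MeasurableSet B := measurableSet_le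
    ((measurable_snd.comp measurable_snd).sub (hc.comp
      (f := fun z : Seed E K => (z.1, z.2.1)) (by fun_prop))).abs measurable_const
  have h1 : (seedLaw E K).real A ≤ 2 * Real.exp (-L / 4) := by
    rw [hA, measureReal_def, seedLaw, ← Measure.map_apply measurable_fst
      (measurableSet_ballSet L).compl, Measure.map_fst_prod, measure_univ, one_smul]
    exact gaussLaw_tail hdim L
  have hCm : MeasurableSet {u : Fin K → ℝ | ∃ l, u l ∉ Set.Icc (0 : ℝ) 1} := by
    simp only [Set.setOf_exists]
    exact MeasurableSet.iUnion fun l => (measurableSet_Icc.preimage (measurable_pi_apply l)).compl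
  have hC : (seedLaw E K).real C = 0 := by
    rw [measureReal_def, seedLaw]
    rw [show C = Set.univ ×ˢ ({u : Fin K → ℝ | ∃ l, u l ∉ Set.Icc (0 : ℝ) 1} ×ˢ (Set.univ : Set ℝ))
      from Set.ext fun z => by simp [C], Measure.prod_prod, Measure.prod_prod]
    have : (Measure.pi fun _ : Fin K => unifLaw) {u | ∃ l, u l ∉ Set.Icc (0 : ℝ) 1} = 0 := by
      refine ae_iff.1 (?_ : ∀ᵐ u ∂(Measure.pi fun _ : Fin K => unifLaw),
        ¬∃ l, u l ∉ Set.Icc (0 : ℝ) 1) |> fun e => by simpa using e
      filter_upwards [Filter.eventually_all.2 fun l =>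
        (Measure.quasiMeasurePreserving_eval (fun _ : Fin K => unifLaw) l).ae
          (ae_restrict_mem measurableSet_Icc)] with u hu
      rintro ⟨l, hl⟩
      exact hl (hu l)
    rw [this]
    simp
  have h2 : (seedLaw E K).real B ≤ 2 * Γ := by
    rw [measureReal_def, seedLaw, Measure.prod_apply hBm]
    refine ENNReal.toReal_le_of_le_ofReal (by positivity) ?_
    refine (lintegral_mono fun x => ?_).trans (le_of_eq (by rw [lintegral_const, measure_univ, mul_one]))
    rw [Measure.prod_apply (measurable_prodMk_left hBm)]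
    refine (lintegral_mono fun u => ?_).trans (le_of_eq (by rw [lintegral_const, measure_univ, mul_one]))
    refine (Measure.restrict_le_self (μ := (volume : Measure ℝ)) _).trans ?_
    set a := coin x u fun l => D (u l • x)
    refine (measure_mono (t := Set.Icc (a - Γ) (a + Γ)) fun t (ht : |t - a| ≤ Γ) => ?_).trans
      (le_of_eq (by rw [Real.volume_Icc]; ring_nf))
    rw [abs_le] at ht
    exact ⟨by linarith, by linarith⟩
  calc (seedLaw E K).real (fragile D L Γ) ≤ (seedLaw E K).real (A ∪ C ∪ B) := measureReal_mono hsub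
    _ ≤ (seedLaw E K).real (A ∪ C) + (seedLaw E K).real B := measureReal_union_le _ _
    _ ≤ (seedLaw E K).real A + (seedLaw E K).real C + (seedLaw E K).real B := by
        linarith [measureReal_union_le (μ := seedLaw E K) A C]
    _ ≤ _ := by linarith

theorem pick_congr {J K : ℕ} (s : Fin J → Seed E K) {G G' : Fin J → Fin K → E}
    (h : ∀ j, coinOk (s j) (G j) ↔ coinOk (s j) (G' j)) : pick s G = pick s G' := by
  classical
  unfold pick
  exact Finset.sum_congr rfl fun j _ => if_congr
    (and_congr (h j) (forall₂_congr fun l _ => not_congr (h l))) rfl rfl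

variable {d χ : ℕ} {V : Space d → ℝ} {col : Fin d → Fin χ}

/-- Descent with the gradient replaced by `D`. -/
def descendWith (D : Space d → Space d) (col : Fin d → Fin χ) (c : Fin χ) (x : Space d) :
    ℕ → Fin d → ℝ
  | 0 => 0
  | n + 1 => descendStep (D (upd col c (descendWith D col c x n) x)) (descendWith D col c x n)

/-- One colour step with the gradient replaced by `D`. -/
def stepWith (D : Space d → Space d) (col : Fin d → Fin χ) (G : ℕ) {J K : ℕ} (c : Fin χ)
    (w : StepSeed d J K) (x : Space d) : Space d :=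
  stepOut col c x (descendWith D col c x G) (D (upd col c (descendWith D col c x G) x)) w
    fun n => (0, D (samplePoint col c x (descendWith D col c x G) w n))

theorem upd_norm_le (c : Fin χ) (m : Fin d → ℝ) (x : Space d) {M : ℝ} (hM : 0 ≤ M)
    (hm : ∀ i, col i = c → |m i| ≤ M) : ‖upd col c m x‖ ≤ ‖x‖ + d * M := by
  set y : Space d := WithLp.toLp 2 fun i => if col i = c then m i else 0 with hy
  set z : Space d := WithLp.toLp 2 fun i => if col i = c then 0 else x i with hz
  have e : upd col c m x = z + y := by
    ext i; by_cases h : col i = c <;> simp [hy, hz, h]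
  rw [e]
  refine (norm_add_le _ _).trans (add_le_add (norm_le_of_coords fun k => ?_) ?_)
  · by_cases h : col k = c <;> simp [hz, h]
  · refine le_of_pow_le_pow_left₀ two_ne_zero (by positivity) ?_
    rw [EuclideanSpace.norm_sq_eq]
    refine (sum_le_card_nsmul _ _ (M ^ 2) fun i _ => ?_).trans ?_
    · rw [Real.norm_eq_abs]
      refine pow_le_pow_left₀ (abs_nonneg _) ?_ 2
      by_cases h : col i = c
      · simpa [hy, h] using hm i h
      · simpa [hy, h] using hM
    · rw [card_univ, Fintype.card_fin, nsmul_eq_mul, mul_pow]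
      refine mul_le_mul_of_nonneg_right ?_ (sq_nonneg M)
      rcases Nat.eq_zero_or_pos d with h0 | h0
      · subst h0; norm_num
      · exact le_self_pow₀ (by exact_mod_cast h0) two_ne_zero

/-- Descent from inexact gradients. -/
theorem descendWith_small (hM : Model V col) (c : Fin χ) {D : Space d → Space d} {ε r : ℝ}
    (hr : 1 ≤ r) (hd : 1 ≤ d) (hε : 0 ≤ ε)
    (hD : ∀ u, ∀ i, col i = c → |D u i - gradient V u i| ≤ ε * (1 + ‖u‖))
    (hsmall : 24 * ε * d * r ≤ 1) (x : Space d) (hx : ‖x‖ ≤ r) :
    ∀ n, ∀ i, col i = c → |gradient V (upd col c (descendWith D col c x n) x) i|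
        ≤ (1 / 3) ^ n * (2 * r) + 24 * ε * d * r ∧
      |descendWith D col c x n i| ≤ 5 * r := by
  have hdR : (1 : ℝ) ≤ d := by exact_mod_cast hd
  have h0 : ∀ i, |slopeAt V col x i 0| ≤ 2 * ‖x‖ ∨ col i ≠ c := fun i => by
    by_cases hi : col i = c
    · left
      have h := descend_small hM c x i hi 0
      simp only [descend, pow_zero, one_mul, slope_eq hM hi] at h
      exact h
    · exact Or.inr hi
  -- a small gradient forces a small coordinate
  have hcoord : ∀ (m : Fin d → ℝ) (i : Fin d), col i = c →
      |gradient V (upd col c m x) i| ≤ 2 * r + 1 → |m i| ≤ 5 * r := by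
    intro m i hi hg
    rw [slope_eq hM hi] at hg
    have S := slope_slopeAt hM x i
    have hz := (h0 i).resolve_right (not_not.2 hi)
    rw [abs_le] at hg hz ⊢
    constructor
    · by_contra hlt
      have := S.lo (m i) (-m i) (by linarith [not_le.1 hlt])
      rw [add_neg_cancel] at this
      linarith [not_le.1 hlt]
    · by_contra hlt
      have := S.lo 0 (m i) (by linarith [not_le.1 hlt])
      rw [zero_add] at this
      linarith [not_le.1 hlt]
  intro n
  induction n with
  | zero =>
    intro i hi
    have h := descend_small hM c x i hi 0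
    simp only [descend, pow_zero, one_mul] at h ⊢
    simp only [descendWith]
    have : 0 ≤ 24 * ε * d * r := by positivity
    exact ⟨by linarith, by simp; linarith⟩
  | succ n ih =>
    intro i hi
    set m := descendWith D col c x n with hm
    set e := gradient V (upd col c m x) i with he
    have hq : |D (upd col c m x) i - e| ≤ 7 * ε * d * r := by
      refine (hD _ i hi).trans ?_
      rw [mul_assoc 7 ε, mul_comm 7, mul_assoc ε, mul_assoc ε]
      refine mul_le_mul_of_nonneg_left ?_ hε
      have := upd_norm_le c m x (by linarith : 0 ≤ 5 * r) fun k hk => (ih k hk).2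
      nlinarith
    have S := slope_slopeAt hM x i
    have hs0 : slopeAt V col x i (m i) = e := by rw [he, slope_eq hM hi]
    set δ := D (upd col c m x) i - e with hδ
    have h1 : |slopeAt V col x i (m i - 2 / 3 * e)| ≤ 1 / 3 * |e| := by
      rcases le_total 0 e with hp | hp
      · have a1 := S.lo (m i - 2 / 3 * e) (2 / 3 * e) (by positivity)
        have a2 := S.hi (m i - 2 / 3 * e) (2 / 3 * e) (by positivity)
        rw [sub_add_cancel, hs0] at a1 a2
        rw [abs_of_nonneg hp, abs_le]
        constructor <;> linarith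
      · have a1 := S.lo (m i) (-(2 / 3 * e)) (by linarith)
        have a2 := S.hi (m i) (-(2 / 3 * e)) (by linarith)
        simp only [hs0, ← sub_eq_add_neg] at a1 a2
        rw [abs_of_nonpos hp, abs_le]
        constructor <;> linarith
    set t := m i - 2 / 3 * e
    have h2 : |slopeAt V col x i (t - 2 / 3 * δ) - slopeAt V col x i t| ≤ 4 / 3 * |δ| := by
      rcases le_total 0 δ with hp | hp
      · have a1 := S.lo (t - 2 / 3 * δ) (2 / 3 * δ) (by positivity)
        have a2 := S.hi (t - 2 / 3 * δ) (2 / 3 * δ) (by positivity)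
        rw [sub_add_cancel] at a1 a2
        rw [abs_of_nonneg hp, abs_le]
        constructor <;> linarith
      · have a1 := S.lo t (-(2 / 3 * δ)) (by linarith)
        have a2 := S.hi t (-(2 / 3 * δ)) (by linarith)
        simp only [← sub_eq_add_neg] at a1 a2
        rw [abs_of_nonpos hp, abs_le]
        constructor <;> linarith
    have hnew : gradient V (upd col c (descendWith D col c x (n + 1)) x) i
        = slopeAt V col x i (t - 2 / 3 * δ) := by
      rw [slope_eq hM hi]
      simp only [descendWith, descendStep, ← hm]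
      congr 1
      simp only [t, hδ]; ring
    have hbound : |gradient V (upd col c (descendWith D col c x (n + 1)) x) i|
        ≤ (1 / 3) ^ (n + 1) * (2 * r) + 24 * ε * d * r := by
      rw [hnew, pow_succ]
      have := abs_sub_abs_le_abs_sub (slopeAt V col x i (t - 2 / 3 * δ)) (slopeAt V col x i t)
      have hεd : 0 ≤ ε * d * r := by positivity
      nlinarith [(ih i hi).1]
    refine ⟨hbound, hcoord _ i hi (hbound.trans (add_le_add ?_ hsmall))⟩
    exact mul_le_of_le_one_left (by linarith) (pow_le_one₀ (by norm_num) (by norm_num))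

/-- The error of a colour step from inexact gradients. -/
def noisyError (d J G : ℕ) (δ ε L r : ℝ) : ℝ :=
  3 * d * δ + perturbConst * (d * ((1 / 3) ^ G * (2 * r) + 24 * ε * d * r))
    + d * J * (2 * Real.exp (-L / 4) + 4 * (2 * ε * (8 * d * (r + L + 1)) * (L + 1)))

/-- **A colour step from inexact gradients.** -/
theorem noisy_step (hM : Model V col) (c : Fin χ) {D : Space d → Space d} (hDm : Measurable D)
    {G J K : ℕ} {L₀ δ ε L r : ℝ} (hδ0 : 0 ≤ δ) (hδ : δ ≤ 1 / 4)
    (hK : Real.exp (3 * L₀) ≤ δ * 2 ^ K) (hL₀ : 2 ^ 1 * Real.exp (-L₀ / 4) ≤ δ)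
    (hJ : Real.exp (-((J : ℝ) / 2 ^ (1 + 1))) ≤ δ) (hr : 1 ≤ r) (hd : 1 ≤ d) (hε : 0 ≤ ε)
    (hL : 0 ≤ L) (hsmall : 24 * ε * d * r ≤ 1)
    (hsmall2 : 2 * ε * (8 * d * (r + L + 1)) * (L + 1) ≤ 1)
    (hD : ∀ u, ∀ i, col i = c → |D u i - gradient V u i| ≤ ε * (1 + ‖u‖))
    {g : Space d → ℝ} (hg : Test g) {x : Space d} (hx : ‖x‖ ≤ r) :
    |∫ w : StepSeed d J K, g (stepWith D col G c w x) ∂stepLaw d J K - kern V col c g x|
      ≤ noisyError d J G δ ε L r := by
  have hdR : (1 : ℝ) ≤ d := by exact_mod_cast hd
  set m := descendWith D col c x G with hm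
  have hsm := descendWith_small hM c hr hd hε hD hsmall x hx G
  rw [← hm] at hsm
  set β := (1 / 3 : ℝ) ^ G * (2 * r) + 24 * ε * d * r
  have hmain := step_close_at hM c (J := J) (K := K) hδ0 hδ hK hL₀ hJ hg x m
    (β := β) (by positivity) fun i hi => (hsm i hi).1
  set e := gradient V (upd col c m x) with he
  set exact' := fun w : StepSeed d J K => stepOut col c x m e w fun n =>
    (V (samplePoint col c x m w n), gradient V (samplePoint col c x m w n)) with hexact
  set γ := 2 * ε * (8 * d * (r + L + 1)) with hγ
  set Γ := 2 * (γ * (L + 1))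
  have hγ0 : 0 ≤ γ := by positivity
  set τ := fun i s => if col i = c then slopeAt V col x i (m i + s) - e i else s
  have hτ : ∀ i, Slope (τ i) := fun i => by
    by_cases h : col i = c
    · simp only [τ, if_pos h]
      have S := slope_slopeAt hM x i
      exact ⟨(S.cont.comp (by fun_prop)).sub continuous_const,
        fun s a ha => by have := S.lo (m i + s) a ha; rw [add_assoc] at this; linarith,
        fun s a ha => by have := S.hi (m i + s) a ha; rw [add_assoc] at this; linarith⟩
    · simp only [τ, if_neg h]; exact slope_id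
  have hτ0 : ∀ i, τ i 0 = 0 := fun i => by
    by_cases h : col i = c
    · simp [τ, h, e, slope_eq hM h]
    · simp [τ, h]
  have hU := block_sumPot hτ hτ0
  set D' := fun i => fun y : Part (id : Fin d → Fin d) i =>
    res id i (gradient (sumPot τ) (emb id i y))
  have hD' : ∀ i, Block (fun y : Part (id : Fin d → Fin d) i => sumPot τ (emb id i y)) (D' i) :=
    fun i => hU.part i
  set Bad := fun i => (fun w : StepSeed d J K => w i) ⁻¹'
    (⋃ j, (fun s : Fin J → Seed (Part (id : Fin d → Fin d) i) K => s j) ⁻¹'
      fragile (D' i) L Γ) with hBad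
  have hrank : ∀ i, Module.finrank ℝ (Part (id : Fin d → Fin d) i) ≤ 1 := fun i => by
    rw [finrank_euclideanSpace, Fintype.card_subtype]; simp [Finset.filter_eq']
  have hfrag : ∀ i, MeasurableSet (fragile (E := Part (id : Fin d → Fin d) i) (K := K) (D' i) L Γ) := by
    intro i
    have hc := (hD' i).cont
    refine (MeasurableSet.compl (measurableSet_le ((measurable_fst.norm).pow_const 2) measurable_const)).union
      (MeasurableSet.union ?_ (measurableSet_le (Measurable.abs (Measurable.sub (measurable_snd.comp measurable_snd) ?_))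
        measurable_const))
    · refine (MeasurableSet.iUnion fun l => ((measurableSet_Icc (a := (0 : ℝ)) (b := 1)).preimage
        (f := fun z : Seed (Part (id : Fin d → Fin d) i) K => z.2.1 l)
        ((measurable_pi_apply l).comp (measurable_fst.comp measurable_snd))).compl).congr
        (Set.ext fun z => ?_)
      rw [Set.mem_iUnion]
      rfl
    · exact measurable_coin.comp
        (f := fun z : Seed (Part (id : Fin d → Fin d) i) K => (z.1, z.2.1, fun l => D' i (z.2.1 l • z.1)))
        (by fun_prop : Continuous fun z : Seed (Part (id : Fin d → Fin d) i) K =>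
          (z.1, z.2.1, fun l => D' i (z.2.1 l • z.1))).measurable
  have hBm : MeasurableSet (⋃ i, Bad i) := MeasurableSet.iUnion fun i =>
    (MeasurableSet.iUnion fun j => (hfrag i).preimage (measurable_pi_apply j)).preimage
      (measurable_pi_apply i)
  -- off the fragile seeds the two outputs agree
  have hagree : ∀ w : StepSeed d J K, w ∉ ⋃ i, Bad i → stepWith D col G c w x = exact' w := by
    intro w hw
    have hgood : ∀ i j, ‖(w i j).1‖ ^ 2 ≤ L ∧ (∀ l, (w i j).2.1 l ∈ Set.Icc (0 : ℝ) 1) ∧
        Γ < |(w i j).2.2 - coin (w i j).1 (w i j).2.1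
          fun l => D' i ((w i j).2.1 l • (w i j).1)| := by
      intro i j
      have : w i j ∉ fragile (D' i) L Γ := fun hh =>
        hw (Set.mem_iUnion.2 ⟨i, Set.mem_iUnion.2 ⟨j, hh⟩⟩)
      simp only [fragile, Set.mem_setOf_eq, not_or, not_not, not_exists, not_le] at this
      exact ⟨not_lt.1 this.1, this.2⟩
    simp only [stepWith, ← hm, hexact, stepOut, output]
    refine congrArg (fun v : Space d => upd col c (m + v.ofLp) x) (congrArg (glue id) (funext fun i =>
      pick_congr (w i) fun j => ?_))
    obtain ⟨hb, hu, hfar⟩ := hgood i j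
    set z := w i j
    set G' := fun l => D' i (z.2.1 l • z.1)
    set Gn := fun l => res id i ((WithLp.toLp 2 fun k => if col k = c
      then D (samplePoint col c x m w (finProdFinEquiv (j, l))) k - D (upd col c m x) k
      else query id w (finProdFinEquiv (j, l)) k : Space d))
    set Ge := fun l => res id i ((WithLp.toLp 2 fun k => if col k = c
      then gradient V (samplePoint col c x m w (finProdFinEquiv (j, l))) k - e k
      else query id w (finProdFinEquiv (j, l)) k : Space d))
    show coinOk z Gn ↔ coinOk z Ge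
    have hGe : Ge = G' := by
      funext l
      simp only [Ge, G', D']
      have hq : res id i (query id w (finProdFinEquiv (j, l))) = z.2.1 l • z.1 := by
        rw [query, res_glue, Equiv.symm_apply_apply]
      ext k
      obtain ⟨k, hk⟩ := k
      simp only [id_eq] at hk
      subst hk
      have hq' : query id w (finProdFinEquiv (j, l)) k = (z.2.1 l • z.1) ⟨k, rfl⟩ :=
        congrArg (fun p : Part (id : Fin d → Fin d) k => p ⟨k, rfl⟩) hq
      simp only [res]
      rw [gradient_sumPot hτ]
      by_cases h : col k = c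
      · simp [τ, h, samplePoint, slope_eq hM h, hq', emb]
      · simp [τ, h, hq', emb]
    have hnorm : ∀ l, ‖Gn l - G' l‖ ≤ γ := by
      intro l
      rw [← hGe]
      have hp : ∀ p : Part (id : Fin d → Fin d) i, ‖p‖ = |p ⟨i, rfl⟩| := fun p => by
        rw [← Real.norm_eq_abs]
        refine (sq_eq_sq₀ (norm_nonneg _) (norm_nonneg _)).1 ?_
        rw [EuclideanSpace.norm_sq_eq]
        exact Finset.sum_eq_single (⟨i, rfl⟩ : {k : Fin d // id k = i})
          (fun k _ hk => absurd (Subtype.ext (show (k : Fin d) = i from k.2)) hk) fun h => absurd (mem_univ _) h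
      rw [hp]
      simp only [Gn, Ge, res, WithLp.ofLp_sub, Pi.sub_apply]
      by_cases h : col i = c
      · simp only [if_pos h]
        set p := samplePoint col c x m w (finProdFinEquiv (j, l))
        have e1 := hD p i h
        have e2 := hD (upd col c m x) i h
        have hqk : ∀ k, |query id w (finProdFinEquiv (j, l)) k| ≤ L + 1 := fun k => by
          obtain ⟨hb', hu', -⟩ := hgood k j
          have hq : res id k (query id w (finProdFinEquiv (j, l))) = (w k j).2.1 l • (w k j).1 := by
            rw [query, res_glue, Equiv.symm_apply_apply]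
          have h1 := PiLp.norm_apply_le (res id k (query id w (finProdFinEquiv (j, l)))) ⟨k, rfl⟩
          have h3 : ‖res id k (query id w (finProdFinEquiv (j, l)))‖ ≤ L + 1 := by
            rw [hq, norm_smul, Real.norm_eq_abs, abs_of_nonneg (hu' l).1]
            refine (mul_le_of_le_one_left (norm_nonneg _) (hu' l).2).trans ?_
            nlinarith [norm_nonneg (w k j).1]
          exact h1.trans h3
        have n1 : ‖p‖ ≤ r + d * (5 * r + (L + 1)) := by
          refine (upd_norm_le c _ x (by linarith) fun k hk => ?_).trans (add_le_add hx le_rfl)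
          exact (abs_add_le _ _).trans (add_le_add (hsm k hk).2 (hqk k))
        have n2 : ‖upd col c m x‖ ≤ r + d * (5 * r) :=
          (upd_norm_le c m x (by linarith) fun k hk => (hsm k hk).2).trans (add_le_add hx le_rfl)
        rw [show D p i - D (upd col c m x) i - (gradient V p i - e i)
          = (D p i - gradient V p i) - (D (upd col c m x) i - gradient V (upd col c m x) i) by
            rw [he]; ring]
        refine (abs_sub _ _).trans ((add_le_add e1 e2).trans ?_)
        rw [← mul_add, hγ, mul_assoc 2 ε, mul_left_comm 2 ε]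
        refine mul_le_mul_of_nonneg_left ?_ hε
        nlinarith
      · simp only [if_neg h, sub_self, abs_zero]; exact hγ0
    have hnz : ‖z.1‖ ≤ L + 1 := by nlinarith [norm_nonneg z.1]
    have hx1 : γ * ‖z.1‖ ≤ 1 := (mul_le_mul_of_nonneg_left hnz hγ0).trans hsmall2
    have hst := coin_stable (hD' i) z.1 hu hγ0 hnorm hx1
    have hle : |coin z.1 z.2.1 Gn - coin z.1 z.2.1 G'| ≤ Γ :=
      hst.trans (mul_le_mul_of_nonneg_left (mul_le_mul_of_nonneg_left hnz hγ0) (by norm_num))
    rw [hGe]
    unfold coinOk
    rw [abs_le] at hle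
    rcases lt_abs.1 hfar with hgt | hgt
    · constructor <;> intro hh <;> linarith
    · constructor <;> intro hh <;> linarith
  have hmeasW : Measurable fun w : StepSeed d J K => stepWith D col G c w x := by
    simp only [stepWith, ← hm]
    refine (measurable_stepOut (col := col) c).comp
      (f := fun w : StepSeed d J K => (x, m, D (upd col c m x), w,
        fun n => ((0 : ℝ), D (samplePoint col c x m w n)))) ?_
    refine measurable_const.prodMk (measurable_const.prodMk (measurable_const.prodMk
      (measurable_id.prodMk (measurable_pi_lambda _ fun n => measurable_const.prodMk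
        (hDm.comp ((measurable_samplePoint (col := col) c n).comp
          (f := fun w : StepSeed d J K => (x, m, w)) (by fun_prop)))))))
  have hmeasE : Measurable exact' := by
    refine (measurable_stepOut (col := col) c).comp
      (f := fun w : StepSeed d J K => (x, m, e, w, fun n =>
        (V (samplePoint col c x m w n), gradient V (samplePoint col c x m w n)))) ?_
    exact measurable_const.prodMk (measurable_const.prodMk (measurable_const.prodMk
      (measurable_id.prodMk (measurable_pi_lambda _ fun n =>
        have hp := (measurable_samplePoint (col := col) c n).comp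
          (f := fun w : StepSeed d J K => (x, m, w)) (by fun_prop)
        (hM.diff.continuous.measurable.comp hp).prodMk (hM.block.cont.measurable.comp hp)))))
  have t1 : Test fun w : StepSeed d J K => g (stepWith D col G c w x) :=
    ⟨hg.meas.comp hmeasW, fun _ => hg.nonneg _, fun _ => hg.le_one _⟩
  have t2 : Test fun w : StepSeed d J K => g (exact' w) :=
    ⟨hg.meas.comp hmeasE, fun _ => hg.nonneg _, fun _ => hg.le_one _⟩
  have hdiff : |∫ w, g (stepWith D col G c w x) ∂stepLaw d J K - ∫ w, g (exact' w) ∂stepLaw d J K|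
      ≤ d * J * (2 * Real.exp (-L / 4) + 4 * (γ * (L + 1))) := by
    rw [← integral_sub (t1.integrable _) (t2.integrable _)]
    refine abs_integral_le_integral_abs.trans ((integral_mono
      ((t1.integrable _).sub (t2.integrable _)).abs ((integrable_const (1 : ℝ)).indicator hBm)
      fun w => ?_).trans ?_)
    · by_cases hw : w ∈ ⋃ i, Bad i
      · rw [Set.indicator_of_mem hw, abs_le]
        dsimp only [Pi.sub_apply]
        constructor <;> linarith [t1.nonneg w, t1.le_one w, t2.nonneg w, t2.le_one w]
      · rw [Set.indicator_of_notMem hw]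
        simp [hagree w hw]
    rw [integral_indicator_const _ hBm, smul_eq_mul, mul_one]
    have hone : ∀ i, (stepLaw d J K).real (Bad i) ≤ J * (2 * Real.exp (-L / 4) + 2 * Γ) := by
      intro i
      have hS : MeasurableSet (⋃ j, (fun s : Fin J → Seed (Part (id : Fin d → Fin d) i) K => s j) ⁻¹'
          fragile (D' i) L Γ) :=
        MeasurableSet.iUnion fun j => (hfrag i).preimage (measurable_pi_apply j)
      rw [hBad, measureReal_def, stepLaw, ← Measure.map_apply (measurable_pi_apply i) hS,
        (measurePreserving_eval (fun i => Measure.pi fun _ : Fin J =>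
          seedLaw (Part (id : Fin d → Fin d) i) K) i).map_eq, ← measureReal_def]
      refine (measureReal_iUnion_fintype_le _).trans ?_
      refine (sum_le_card_nsmul _ _ (2 * Real.exp (-L / 4) + 2 * Γ) fun j _ => ?_).trans
        (le_of_eq (by simp; ring))
      rw [measureReal_def, ← Measure.map_apply (measurable_pi_apply j) (hfrag i),
        (measurePreserving_eval (fun _ : Fin J => seedLaw (Part (id : Fin d → Fin d) i) K) j).map_eq,
        ← measureReal_def]
      exact fragile_le (hD' i) (hrank i) L (by positivity)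
    refine (measureReal_iUnion_fintype_le _).trans
      ((sum_le_card_nsmul _ _ _ fun i _ => hone i).trans (le_of_eq ?_))
    simp only [card_univ, Fintype.card_fin, nsmul_eq_mul, Γ]
    ring
  refine (abs_sub_le _ (∫ w, g (exact' w) ∂stepLaw d J K) _).trans ?_
  unfold noisyError
  linarith

end

end P347
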